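import Vale.Agent.P219.Aff.Ten.Box

/-!
# Checked coefficient lists for the chord inequality in dimension eleven
-/

namespace Vale.Agent.P219.Aff.Eleven

open Vale.Agent.P219.Aff.Nine
open Vale.Agent.P219.Aff.Ten (box_seg box_tail)

noncomputable section

/-- Part of the chord polynomial. -/
def CS0 (r S p : ℝ) : ℝ :=
  (-18997248 : ℝ) * r ^ 0 * S ^ 0 * p ^ 3 +
    (-51412992 : ℝ) * r ^ 0 * S ^ 0 * p ^ 4 +
    (-10176512 : ℝ) * r ^ 0 * S ^ 0 * p ^ 5 +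
    (22239232 : ℝ) * r ^ 0 * S ^ 0 * p ^ 6 +
    (645120 : ℝ) * r ^ 0 * S ^ 1 * p ^ 1 +
    (-7875840 : ℝ) * r ^ 0 * S ^ 1 * p ^ 2 +
    (26199040 : ℝ) * r ^ 0 * S ^ 1 * p ^ 3 +
    (226338560 : ℝ) * r ^ 0 * S ^ 1 * p ^ 4 +
    (191618560 : ℝ) * r ^ 0 * S ^ 1 * p ^ 5 +
    (37994496 : ℝ) * r ^ 0 * S ^ 2 * p ^ 2 +
    (193363968 : ℝ) * r ^ 0 * S ^ 2 * p ^ 3 +
    (-15835136 : ℝ) * r ^ 0 * S ^ 2 * p ^ 4 +
    (-189033472 : ℝ) * r ^ 0 * S ^ 2 * p ^ 5 +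
    (2517760 : ℝ) * r ^ 0 * S ^ 3 * p ^ 1 +
    (-27619200 : ℝ) * r ^ 0 * S ^ 3 * p ^ 2 +
    (-435317120 : ℝ) * r ^ 0 * S ^ 3 * p ^ 3 +
    (-479046400 : ℝ) * r ^ 0 * S ^ 3 * p ^ 4 +
    (-9498624 : ℝ) * r ^ 0 * S ^ 4 * p ^ 1 +
    (-125743104 : ℝ) * r ^ 0 * S ^ 4 * p ^ 2 +
    (52209664 : ℝ) * r ^ 0 * S ^ 4 * p ^ 3 +
    (311349248 : ℝ) * r ^ 0 * S ^ 4 * p ^ 4 +
    (5523840 : ℝ) * r ^ 0 * S ^ 5 * p ^ 1 +
    (215922560 : ℝ) * r ^ 0 * S ^ 5 * p ^ 2 +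
    (383237120 : ℝ) * r ^ 0 * S ^ 5 * p ^ 3 +
    (20957184 : ℝ) * r ^ 0 * S ^ 6 * p ^ 1 +
    (-24125440 : ℝ) * r ^ 0 * S ^ 6 * p ^ 2 +
    (-200153088 : ℝ) * r ^ 0 * S ^ 6 * p ^ 3 +
    (-30846080 : ℝ) * r ^ 0 * S ^ 7 * p ^ 1 +
    (-123183360 : ℝ) * r ^ 0 * S ^ 7 * p ^ 2 +
    (3015680 : ℝ) * r ^ 0 * S ^ 8 * p ^ 1

/-- Part of the chord polynomial. -/
def CS1 (r S p : ℝ) : ℝ :=
  (55598080 : ℝ) * r ^ 0 * S ^ 8 * p ^ 2 +
    (13687040 : ℝ) * r ^ 0 * S ^ 9 * p ^ 1 +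
    (-5559808 : ℝ) * r ^ 0 * S ^ 10 * p ^ 1 +
    (-967680 : ℝ) * r ^ 1 * S ^ 0 * p ^ 1 +
    (-967680 : ℝ) * r ^ 1 * S ^ 0 * p ^ 2 +
    (483840 : ℝ) * r ^ 1 * S ^ 2 * p ^ 1 +
    (80640 : ℝ) * r ^ 3 * S ^ 0 * p ^ 0 +
    (-282688 : ℝ) * r ^ 3 * S ^ 0 * p ^ 1 +
    (1213184 : ℝ) * r ^ 3 * S ^ 0 * p ^ 2 +
    (1576512 : ℝ) * r ^ 3 * S ^ 0 * p ^ 3 +
    (316512 : ℝ) * r ^ 3 * S ^ 2 * p ^ 0 +
    (363328 : ℝ) * r ^ 3 * S ^ 2 * p ^ 1 +
    (-788256 : ℝ) * r ^ 3 * S ^ 2 * p ^ 2 +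
    (-178416 : ℝ) * r ^ 3 * S ^ 4 * p ^ 0 +
    (43792 : ℝ) * r ^ 3 * S ^ 4 * p ^ 1 +
    (-1419600 : ℝ) * r ^ 4 * S ^ 1 * p ^ 0 +
    (-4094720 : ℝ) * r ^ 4 * S ^ 1 * p ^ 1 +
    (-2675120 : ℝ) * r ^ 4 * S ^ 1 * p ^ 2 +
    (838320 : ℝ) * r ^ 4 * S ^ 3 * p ^ 0 +
    (1337560 : ℝ) * r ^ 4 * S ^ 3 * p ^ 1 +
    (-32130 : ℝ) * r ^ 4 * S ^ 5 * p ^ 0 +
    (976080 : ℝ) * r ^ 5 * S ^ 0 * p ^ 0 +
    (6089280 : ℝ) * r ^ 5 * S ^ 0 * p ^ 1 +
    (2900080 : ℝ) * r ^ 5 * S ^ 0 * p ^ 2 +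
    (-2213120 : ℝ) * r ^ 5 * S ^ 0 * p ^ 3 +
    (1780992 : ℝ) * r ^ 5 * S ^ 1 * p ^ 0 +
    (3561984 : ℝ) * r ^ 5 * S ^ 1 * p ^ 1 +
    (1780992 : ℝ) * r ^ 5 * S ^ 1 * p ^ 2 +
    (-790400 : ℝ) * r ^ 5 * S ^ 2 * p ^ 0 +
    (-2542800 : ℝ) * r ^ 5 * S ^ 2 * p ^ 1

/-- Part of the chord polynomial. -/
def CS2 (r S p : ℝ) : ℝ :=
  (1106560 : ℝ) * r ^ 5 * S ^ 2 * p ^ 2 +
    (-1038912 : ℝ) * r ^ 5 * S ^ 3 * p ^ 0 +
    (-890496 : ℝ) * r ^ 5 * S ^ 3 * p ^ 1 +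
    (151180 : ℝ) * r ^ 5 * S ^ 4 * p ^ 0 +
    (-79040 : ℝ) * r ^ 5 * S ^ 4 * p ^ 1 +
    (37104 : ℝ) * r ^ 5 * S ^ 5 * p ^ 0 +
    (-1484160 : ℝ) * r ^ 6 * S ^ 0 * p ^ 0 +
    (-6934336 : ℝ) * r ^ 6 * S ^ 0 * p ^ 1 +
    (-4695712 : ℝ) * r ^ 6 * S ^ 0 * p ^ 2 +
    (754464 : ℝ) * r ^ 6 * S ^ 0 * p ^ 3 +
    (-1309560 : ℝ) * r ^ 6 * S ^ 1 * p ^ 0 +
    (33040 : ℝ) * r ^ 6 * S ^ 1 * p ^ 1 +
    (1342600 : ℝ) * r ^ 6 * S ^ 1 * p ^ 2 +
    (624592 : ℝ) * r ^ 6 * S ^ 2 * p ^ 0 +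
    (2481856 : ℝ) * r ^ 6 * S ^ 2 * p ^ 1 +
    (-377232 : ℝ) * r ^ 6 * S ^ 2 * p ^ 2 +
    (678600 : ℝ) * r ^ 6 * S ^ 3 * p ^ 0 +
    (-671300 : ℝ) * r ^ 6 * S ^ 3 * p ^ 1 +
    (58744 : ℝ) * r ^ 6 * S ^ 4 * p ^ 0 +
    (31436 : ℝ) * r ^ 6 * S ^ 4 * p ^ 1 +
    (-5955 : ℝ) * r ^ 6 * S ^ 5 * p ^ 0 +
    (710640 : ℝ) * r ^ 7 * S ^ 0 * p ^ 0 +
    (1358880 : ℝ) * r ^ 7 * S ^ 0 * p ^ 1 +
    (648240 : ℝ) * r ^ 7 * S ^ 0 * p ^ 2 +
    (1056576 : ℝ) * r ^ 7 * S ^ 1 * p ^ 0 +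
    (337744 : ℝ) * r ^ 7 * S ^ 1 * p ^ 1 +
    (-718832 : ℝ) * r ^ 7 * S ^ 1 * p ^ 2 +
    (-203040 : ℝ) * r ^ 7 * S ^ 2 * p ^ 0 +
    (-171840 : ℝ) * r ^ 7 * S ^ 2 * p ^ 1 +
    (-517024 : ℝ) * r ^ 7 * S ^ 3 * p ^ 0

/-- Part of the chord polynomial. -/
def CS3 (r S p : ℝ) : ℝ :=
  (359416 : ℝ) * r ^ 7 * S ^ 3 * p ^ 1 +
    (-76140 : ℝ) * r ^ 7 * S ^ 4 * p ^ 0 +
    (-2816 : ℝ) * r ^ 7 * S ^ 5 * p ^ 0 +
    (450560 : ℝ) * r ^ 8 * S ^ 0 * p ^ 1 +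
    (450560 : ℝ) * r ^ 8 * S ^ 0 * p ^ 2 +
    (-507600 : ℝ) * r ^ 8 * S ^ 1 * p ^ 0 +
    (-507600 : ℝ) * r ^ 8 * S ^ 1 * p ^ 1 +
    (-225280 : ℝ) * r ^ 8 * S ^ 2 * p ^ 1 +
    (253800 : ℝ) * r ^ 8 * S ^ 3 * p ^ 0 +
    (18368 : ℝ) * r ^ 10 * S ^ 0 * p ^ 0 +
    (18368 : ℝ) * r ^ 10 * S ^ 0 * p ^ 1 +
    (-9184 : ℝ) * r ^ 10 * S ^ 2 * p ^ 0

/-- The chord polynomial in the length, the sum and the product of the cosines. -/
def CS (r S p : ℝ) : ℝ :=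
  CS0 r S p + CS1 r S p + CS2 r S p + CS3 r S p

/-- The chord polynomial in the coordinates of the sum and of the product. -/
def lowL : List (List (List ℤ)) :=
  [[[660602880, -990904320, 0, 330301440, 0, 0, 0, 0, 0, 0, 0],
    [-660602880, 990904320, 0, 0, 0, 0, 0, 0, 0, 0, 0],
    [0, 0, 0, 0, 0, 0, 0, 0, 0, 0, 0],
    [0, 0, 0, 0, 0, 0, 0, 0, 0, 0, 0],
    [0, 0, 0, 0, 0, 0, 0, 0, 0, 0, 0],
    [0, 0, 0, 0, 0, 0, 0, 0, 0, 0, 0],
    [0, 0, 0, 0, 0, 0, 0, 0, 0, 0, 0]],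
   [[0, 0, 0, 0, 0, 0, 0, 0, 0, 0, 0],
    [0, 0, 0, 0, 0, 0, 0, 0, 0, 0, 0],
    [0, 0, 0, 0, 0, 0, 0, 0, 0, 0, 0],
    [0, 0, 0, 0, 0, 0, 0, 0, 0, 0, 0],
    [0, 0, 0, 0, 0, 0, 0, 0, 0, 0, 0],
    [0, 0, 0, 0, 0, 0, 0, 0, 0, 0, 0],
    [0, 0, 0, 0, 0, 0, 0, 0, 0, 0, 0]],
   [[561971200, 247726080, 0, 1006960640, -5814681600, 3998023680, 0, 0, 0, 0, 0],
    [1454243840, 0, 0, 289472512, 0, 0, 0, 0, 0, 0, 0],
    [-2016215040, -247726080, 0, 0, 0, 0, 0, 0, 0, 0, 0],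
    [0, 0, 0, 0, 0, 0, 0, 0, 0, 0, 0],
    [0, 0, 0, 0, 0, 0, 0, 0, 0, 0, 0],
    [0, 0, 0, 0, 0, 0, 0, 0, 0, 0, 0],
    [0, 0, 0, 0, 0, 0, 0, 0, 0, 0, 0]],
   [[-1215823872, 0, 0, 0, 0, 7294943232, -6079119360, 0, 0, 0, 0],
    [-6079119360, 0, 0, 0, 0, 0, 0, 0, 0, 0, 0],
    [6079119360, 0, 0, 0, 0, 0, 0, 0, 0, 0, 0],
    [1215823872, 0, 0, 0, 0, 0, 0, 0, 0, 0, 0],
    [0, 0, 0, 0, 0, 0, 0, 0, 0, 0, 0],
    [0, 0, 0, 0, 0, 0, 0, 0, 0, 0, 0],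
    [0, 0, 0, 0, 0, 0, 0, 0, 0, 0, 0]],
   [[262635520, 0, 0, -48168960, -759234560, 2997944320, -5363957760, 2910781440, 0, 0, 0],
    [3454402560, 0, 0, -993198080, 4192993280, -6235422720, 0, 0, 0, 0, 0],
    [-2040299520, 0, 0, 310575104, 0, 0, 0, 0, 0, 0, 0],
    [-1676738560, 0, 0, 0, 0, 0, 0, 0, 0, 0, 0],
    [0, 0, 0, 0, 0, 0, 0, 0, 0, 0, 0],
    [0, 0, 0, 0, 0, 0, 0, 0, 0, 0, 0],
    [0, 0, 0, 0, 0, 0, 0, 0, 0, 0, 0]],
   [[822607872, 0, 0, 0, 0, -607911936, -4542431232, 4327735296, 0, 0, 0],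
    [9084862464, 0, 0, 0, 0, -3647471616, 7100760064, 0, 0, 0, 0],
    [0, 0, 0, 0, 0, 0, 0, 0, 0, 0, 0],
    [-9084862464, 0, 0, 0, 0, 0, 0, 0, 0, 0, 0],
    [-822607872, 0, 0, 0, 0, 0, 0, 0, 0, 0, 0],
    [0, 0, 0, 0, 0, 0, 0, 0, 0, 0, 0],
    [0, 0, 0, 0, 0, 0, 0, 0, 0, 0, 0]],
   [[-549089280, 0, 0, -56053760, 553226240, -1242173440, 2813378560, 559841280, -2079129600, 0, 0],
    [-9870745600, 0, 0, 56053760, 0, 1118986240, -33832960, -1391493120, 0, 0, 0],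
    [-6576209920, 0, 0, 100896768, -684830720, 742420480, 0, 0, 0, 0, 0],
    [13374627840, 0, 0, -100896768, 0, 0, 0, 0, 0, 0, 0],
    [3621416960, 0, 0, 0, 0, 0, 0, 0, 0, 0, 0],
    [0, 0, 0, 0, 0, 0, 0, 0, 0, 0, 0],
    [0, 0, 0, 0, 0, 0, 0, 0, 0, 0, 0]],
   [[-40706048, 0, 0, 0, 0, -303955968, 1579933696, -1771880448, 461373440, 0, 75235328],
    [456892416, 0, 0, 0, 0, 0, -137216000, -345849856, -461373440, 0, 0],
    [1920909312, 0, 0, 0, 0, 455933952, -1202102272, 0, 0, 0, 0],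
    [-1920909312, 0, 0, 0, 0, 0, 0, 0, 0, 0, 0],
    [-456892416, 0, 0, 0, 0, 0, 0, 0, 0, 0, 0],
    [40706048, 0, 0, 0, 0, 0, 0, 0, 0, 0, 0],
    [0, 0, 0, 0, 0, 0, 0, 0, 0, 0, 0]],
   [[109496320, 0, 0, 0, 0, 60702720, -368097280, -321884160, 519782400, 0, 0],
    [2299422720, 0, 0, 0, 0, -60702720, 0, -155934720, 519782400, 0, 0],
    [3722874880, 0, 0, 0, 0, -141639680, 343705600, 165949440, 0, 0, 0],
    [-1532948480, 0, 0, 0, 0, 141639680, 0, 0, 0, 0, 0],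
    [-3832371200, 0, 0, 0, 0, 0, 0, 0, 0, 0, 0],
    [-766474240, 0, 0, 0, 0, 0, 0, 0, 0, 0, 0],
    [0, 0, 0, 0, 0, 0, 0, 0, 0, 0, 0]],
   [[-22239232, 0, 0, 0, 0, 0, -16095232, 172486656, -115343360, 0, -18808832],
    [-622698496, 0, 0, 0, 0, 0, 16095232, 0, 0, 0, -18808832],
    [-1534507008, 0, 0, 0, 0, 0, 48285696, -184020992, 115343360, 0, 0],
    [0, 0, 0, 0, 0, 0, -48285696, 0, 0, 0, 0],
    [1534507008, 0, 0, 0, 0, 0, 0, 0, 0, 0, 0],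
    [622698496, 0, 0, 0, 0, 0, 0, 0, 0, 0, 0],
    [22239232, 0, 0, 0, 0, 0, 0, 0, 0, 0, 0]]]

theorem lowL_nonneg {x y z : ℝ} (x0 : 0 ≤ x) (x1 : x ≤ 1) (y0 : 0 ≤ y) (y1 : y ≤ 1) (z0 : 0 ≤ z) (z1 : z ≤ 2) :
    0 ≤ Coef.val lowL [x, y, z] := by
  rcases le_total z (1 : ℝ) with h | h
  ·
    exact box_seg (0) (1) (1) (0) (1) (1) (0) (1) (1) (l := lowL) (by decide +kernel) (by norm_num)
      (by push_cast; linarith) (by push_cast; linarith) (by push_cast; linarith) (by push_cast; linarith) (by push_cast; linarith) (by push_cast; linarith)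
  ·
    exact box_seg (0) (1) (1) (0) (1) (1) (1) (2) (1) (l := lowL) (by decide +kernel) (by norm_num)
      (by push_cast; linarith) (by push_cast; linarith) (by push_cast; linarith) (by push_cast; linarith) (by push_cast; linarith) (by push_cast; linarith)

theorem CS_low (S t u : ℝ) : (4096 : ℝ) * CS (S * u) S ((S ^ 2 - S ^ 2 * t) / 4) =
    S ^ 3 * Coef.val lowL [S, t, u] := by
  simp only [lowL, CS, CS0, CS1, CS2, CS3, ev, Coef.val, List.headD_cons, List.tail_cons]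
  push_cast
  ring

/-- The chord polynomial in the coordinates of the sum and of the product. -/
def farL : List (List (List ℤ)) :=
  [[[330301440, 0, 3998023680, -6079119360, 2910781440, 0, 0, 75235328, 0, 0],
    [0, 0, 0, 0, 0, 0, 0, 0, 0, 0],
    [0, 0, 0, 0, 0, 0, 0, 0, 0, 0],
    [0, 0, 0, 0, 0, 0, 0, 0, 0, 0],
    [0, 0, 0, 0, 0, 0, 0, 0, 0, 0],
    [0, 0, 0, 0, 0, 0, 0, 0, 0, 0],
    [0, 0, 0, 0, 0, 0, 0, 0, 0, 0]],
   [[0, 0, -5814681600, 7294943232, -5363957760, 4327735296, -2079129600, 0, 0, 0],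
    [0, 0, 0, 0, 0, 0, 0, 0, 0, 0],
    [0, 0, 0, 0, 0, 0, 0, 0, 0, 0],
    [0, 0, 0, 0, 0, 0, 0, 0, 0, 0],
    [0, 0, 0, 0, 0, 0, 0, 0, 0, 0],
    [0, 0, 0, 0, 0, 0, 0, 0, 0, 0],
    [0, 0, 0, 0, 0, 0, 0, 0, 0, 0]],
   [[-990904320, 0, 1006960640, 0, 2997944320, -4542431232, 559841280, 461373440, 0, -18808832],
    [990904320, 0, 289472512, 0, -6235422720, 7100760064, -1391493120, -461373440, 0, -18808832],
    [0, 0, 0, 0, 0, 0, 0, 0, 0, 0],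
    [0, 0, 0, 0, 0, 0, 0, 0, 0, 0],
    [0, 0, 0, 0, 0, 0, 0, 0, 0, 0],
    [0, 0, 0, 0, 0, 0, 0, 0, 0, 0],
    [0, 0, 0, 0, 0, 0, 0, 0, 0, 0]],
   [[660602880, 0, 0, 0, -759234560, -607911936, 2813378560, -1771880448, 519782400, 0],
    [-660602880, 0, 0, 0, 4192993280, -3647471616, -33832960, -345849856, 519782400, 0],
    [0, 0, 0, 0, 0, 0, 0, 0, 0, 0],
    [0, 0, 0, 0, 0, 0, 0, 0, 0, 0],
    [0, 0, 0, 0, 0, 0, 0, 0, 0, 0],
    [0, 0, 0, 0, 0, 0, 0, 0, 0, 0],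
    [0, 0, 0, 0, 0, 0, 0, 0, 0, 0]],
   [[0, 0, 247726080, 0, -48168960, 0, -1242173440, 1579933696, -321884160, -115343360],
    [0, 0, 0, 0, -993198080, 0, 1118986240, -137216000, -155934720, 0],
    [0, 0, -247726080, 0, 310575104, 0, 742420480, -1202102272, 165949440, 115343360],
    [0, 0, 0, 0, 0, 0, 0, 0, 0, 0],
    [0, 0, 0, 0, 0, 0, 0, 0, 0, 0],
    [0, 0, 0, 0, 0, 0, 0, 0, 0, 0],
    [0, 0, 0, 0, 0, 0, 0, 0, 0, 0]],
   [[0, 0, 561971200, 0, 0, 0, 553226240, -303955968, -368097280, 172486656],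
    [0, 0, 1454243840, 0, 0, 0, 0, 0, 0, 0],
    [0, 0, -2016215040, 0, 0, 0, -684830720, 455933952, 343705600, -184020992],
    [0, 0, 0, 0, 0, 0, 0, 0, 0, 0],
    [0, 0, 0, 0, 0, 0, 0, 0, 0, 0],
    [0, 0, 0, 0, 0, 0, 0, 0, 0, 0],
    [0, 0, 0, 0, 0, 0, 0, 0, 0, 0]],
   [[0, 0, 0, -1215823872, 0, 0, -56053760, 0, 60702720, -16095232],
    [0, 0, 0, -6079119360, 0, 0, 56053760, 0, -60702720, 16095232],
    [0, 0, 0, 6079119360, 0, 0, 100896768, 0, -141639680, 48285696],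
    [0, 0, 0, 1215823872, 0, 0, -100896768, 0, 141639680, -48285696],
    [0, 0, 0, 0, 0, 0, 0, 0, 0, 0],
    [0, 0, 0, 0, 0, 0, 0, 0, 0, 0],
    [0, 0, 0, 0, 0, 0, 0, 0, 0, 0]],
   [[0, 0, 0, 0, 262635520, 0, 0, 0, 0, 0],
    [0, 0, 0, 0, 3454402560, 0, 0, 0, 0, 0],
    [0, 0, 0, 0, -2040299520, 0, 0, 0, 0, 0],
    [0, 0, 0, 0, -1676738560, 0, 0, 0, 0, 0],
    [0, 0, 0, 0, 0, 0, 0, 0, 0, 0],
    [0, 0, 0, 0, 0, 0, 0, 0, 0, 0],
    [0, 0, 0, 0, 0, 0, 0, 0, 0, 0]],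
   [[0, 0, 0, 0, 0, 822607872, 0, 0, 0, 0],
    [0, 0, 0, 0, 0, 9084862464, 0, 0, 0, 0],
    [0, 0, 0, 0, 0, 0, 0, 0, 0, 0],
    [0, 0, 0, 0, 0, -9084862464, 0, 0, 0, 0],
    [0, 0, 0, 0, 0, -822607872, 0, 0, 0, 0],
    [0, 0, 0, 0, 0, 0, 0, 0, 0, 0],
    [0, 0, 0, 0, 0, 0, 0, 0, 0, 0]],
   [[0, 0, 0, 0, 0, 0, -549089280, 0, 0, 0],
    [0, 0, 0, 0, 0, 0, -9870745600, 0, 0, 0],
    [0, 0, 0, 0, 0, 0, -6576209920, 0, 0, 0],
    [0, 0, 0, 0, 0, 0, 13374627840, 0, 0, 0],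
    [0, 0, 0, 0, 0, 0, 3621416960, 0, 0, 0],
    [0, 0, 0, 0, 0, 0, 0, 0, 0, 0],
    [0, 0, 0, 0, 0, 0, 0, 0, 0, 0]],
   [[0, 0, 0, 0, 0, 0, 0, -40706048, 0, 0],
    [0, 0, 0, 0, 0, 0, 0, 456892416, 0, 0],
    [0, 0, 0, 0, 0, 0, 0, 1920909312, 0, 0],
    [0, 0, 0, 0, 0, 0, 0, -1920909312, 0, 0],
    [0, 0, 0, 0, 0, 0, 0, -456892416, 0, 0],
    [0, 0, 0, 0, 0, 0, 0, 40706048, 0, 0],
    [0, 0, 0, 0, 0, 0, 0, 0, 0, 0]],
   [[0, 0, 0, 0, 0, 0, 0, 0, 109496320, 0],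
    [0, 0, 0, 0, 0, 0, 0, 0, 2299422720, 0],
    [0, 0, 0, 0, 0, 0, 0, 0, 3722874880, 0],
    [0, 0, 0, 0, 0, 0, 0, 0, -1532948480, 0],
    [0, 0, 0, 0, 0, 0, 0, 0, -3832371200, 0],
    [0, 0, 0, 0, 0, 0, 0, 0, -766474240, 0],
    [0, 0, 0, 0, 0, 0, 0, 0, 0, 0]],
   [[0, 0, 0, 0, 0, 0, 0, 0, 0, -22239232],
    [0, 0, 0, 0, 0, 0, 0, 0, 0, -622698496],
    [0, 0, 0, 0, 0, 0, 0, 0, 0, -1534507008],
    [0, 0, 0, 0, 0, 0, 0, 0, 0, 0],
    [0, 0, 0, 0, 0, 0, 0, 0, 0, 1534507008],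
    [0, 0, 0, 0, 0, 0, 0, 0, 0, 622698496],
    [0, 0, 0, 0, 0, 0, 0, 0, 0, 22239232]]]

theorem farL_nonneg {x y z : ℝ} (x0 : 0 ≤ x) (x1 : x ≤ 1 / 2) (y0 : 0 ≤ y) (y1 : y ≤ 1) (z0 : 0 ≤ z) (z1 : z ≤ 2) :
    0 ≤ Coef.val farL [x, y, z] := by
  exact box_seg (0) (1) (2) (0) (1) (1) (0) (2) (1) (l := farL) (by decide +kernel) (by norm_num)
    (by push_cast; linarith) (by push_cast; linarith) (by push_cast; linarith) (by push_cast; linarith) (by push_cast; linarith) (by push_cast; linarith)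

theorem CS_far (S t u : ℝ) : (4096 : ℝ) * CS u (u * S) (((u * S) ^ 2 - (u * S) ^ 2 * t) / 4) =
    u ^ 3 * Coef.val farL [S, t, u] := by
  simp only [farL, CS, CS0, CS1, CS2, CS3, ev, Coef.val, List.headD_cons, List.tail_cons]
  push_cast
  ring

/-- The chord polynomial in the coordinates of the sum and of the product. -/
def bigL : List (List (List ℤ)) :=
  [[[0, 0, 0, 330301440, 0, 3998023680, -6079119360, 2910781440, 0, 0, 75235328],
    [0, 0, 0, 0, 0, 0, 0, 0, 0, 0, 0],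
    [0, 0, 0, 0, 0, 0, 0, 0, 0, 0, 0],
    [0, 0, 0, 0, 0, 0, 0, 0, 0, 0, 0],
    [0, 0, 0, 0, 0, 0, 0, 0, 0, 0, 0],
    [0, 0, 0, 0, 0, 0, 0, 0, 0, 0, 0],
    [0, 0, 0, 0, 0, 0, 0, 0, 0, 0, 0]],
   [[0, 0, 0, 0, -5814681600, 7294943232, -5363957760, 4327735296, -2079129600, 0, 0],
    [0, 0, 0, 0, 0, 0, 0, 0, 0, 0, 0],
    [0, 0, 0, 0, 0, 0, 0, 0, 0, 0, 0],
    [0, 0, 0, 0, 0, 0, 0, 0, 0, 0, 0],
    [0, 0, 0, 0, 0, 0, 0, 0, 0, 0, 0],
    [0, 0, 0, 0, 0, 0, 0, 0, 0, 0, 0],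
    [0, 0, 0, 0, 0, 0, 0, 0, 0, 0, 0]],
   [[0, -990904320, 0, 1006960640, 0, 2997944320, -4542431232, 559841280, 461373440, 0, -18808832],
    [0, 990904320, 0, 289472512, 0, -6235422720, 7100760064, -1391493120, -461373440, 0, -18808832],
    [0, 0, 0, 0, 0, 0, 0, 0, 0, 0, 0],
    [0, 0, 0, 0, 0, 0, 0, 0, 0, 0, 0],
    [0, 0, 0, 0, 0, 0, 0, 0, 0, 0, 0],
    [0, 0, 0, 0, 0, 0, 0, 0, 0, 0, 0],
    [0, 0, 0, 0, 0, 0, 0, 0, 0, 0, 0]],
   [[660602880, 0, 0, 0, -759234560, -607911936, 2813378560, -1771880448, 519782400, 0, 0],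
    [-660602880, 0, 0, 0, 4192993280, -3647471616, -33832960, -345849856, 519782400, 0, 0],
    [0, 0, 0, 0, 0, 0, 0, 0, 0, 0, 0],
    [0, 0, 0, 0, 0, 0, 0, 0, 0, 0, 0],
    [0, 0, 0, 0, 0, 0, 0, 0, 0, 0, 0],
    [0, 0, 0, 0, 0, 0, 0, 0, 0, 0, 0],
    [0, 0, 0, 0, 0, 0, 0, 0, 0, 0, 0]],
   [[0, 247726080, 0, -48168960, 0, -1242173440, 1579933696, -321884160, -115343360, 0, 0],
    [0, 0, 0, -993198080, 0, 1118986240, -137216000, -155934720, 0, 0, 0],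
    [0, -247726080, 0, 310575104, 0, 742420480, -1202102272, 165949440, 115343360, 0, 0],
    [0, 0, 0, 0, 0, 0, 0, 0, 0, 0, 0],
    [0, 0, 0, 0, 0, 0, 0, 0, 0, 0, 0],
    [0, 0, 0, 0, 0, 0, 0, 0, 0, 0, 0],
    [0, 0, 0, 0, 0, 0, 0, 0, 0, 0, 0]],
   [[561971200, 0, 0, 0, 553226240, -303955968, -368097280, 172486656, 0, 0, 0],
    [1454243840, 0, 0, 0, 0, 0, 0, 0, 0, 0, 0],
    [-2016215040, 0, 0, 0, -684830720, 455933952, 343705600, -184020992, 0, 0, 0],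
    [0, 0, 0, 0, 0, 0, 0, 0, 0, 0, 0],
    [0, 0, 0, 0, 0, 0, 0, 0, 0, 0, 0],
    [0, 0, 0, 0, 0, 0, 0, 0, 0, 0, 0],
    [0, 0, 0, 0, 0, 0, 0, 0, 0, 0, 0]],
   [[-1215823872, 0, 0, -56053760, 0, 60702720, -16095232, 0, 0, 0, 0],
    [-6079119360, 0, 0, 56053760, 0, -60702720, 16095232, 0, 0, 0, 0],
    [6079119360, 0, 0, 100896768, 0, -141639680, 48285696, 0, 0, 0, 0],
    [1215823872, 0, 0, -100896768, 0, 141639680, -48285696, 0, 0, 0, 0],
    [0, 0, 0, 0, 0, 0, 0, 0, 0, 0, 0],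
    [0, 0, 0, 0, 0, 0, 0, 0, 0, 0, 0],
    [0, 0, 0, 0, 0, 0, 0, 0, 0, 0, 0]],
   [[262635520, 0, 0, 0, 0, 0, 0, 0, 0, 0, 0],
    [3454402560, 0, 0, 0, 0, 0, 0, 0, 0, 0, 0],
    [-2040299520, 0, 0, 0, 0, 0, 0, 0, 0, 0, 0],
    [-1676738560, 0, 0, 0, 0, 0, 0, 0, 0, 0, 0],
    [0, 0, 0, 0, 0, 0, 0, 0, 0, 0, 0],
    [0, 0, 0, 0, 0, 0, 0, 0, 0, 0, 0],
    [0, 0, 0, 0, 0, 0, 0, 0, 0, 0, 0]],
   [[822607872, 0, 0, 0, 0, 0, 0, 0, 0, 0, 0],
    [9084862464, 0, 0, 0, 0, 0, 0, 0, 0, 0, 0],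
    [0, 0, 0, 0, 0, 0, 0, 0, 0, 0, 0],
    [-9084862464, 0, 0, 0, 0, 0, 0, 0, 0, 0, 0],
    [-822607872, 0, 0, 0, 0, 0, 0, 0, 0, 0, 0],
    [0, 0, 0, 0, 0, 0, 0, 0, 0, 0, 0],
    [0, 0, 0, 0, 0, 0, 0, 0, 0, 0, 0]],
   [[-549089280, 0, 0, 0, 0, 0, 0, 0, 0, 0, 0],
    [-9870745600, 0, 0, 0, 0, 0, 0, 0, 0, 0, 0],
    [-6576209920, 0, 0, 0, 0, 0, 0, 0, 0, 0, 0],
    [13374627840, 0, 0, 0, 0, 0, 0, 0, 0, 0, 0],
    [3621416960, 0, 0, 0, 0, 0, 0, 0, 0, 0, 0],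
    [0, 0, 0, 0, 0, 0, 0, 0, 0, 0, 0],
    [0, 0, 0, 0, 0, 0, 0, 0, 0, 0, 0]],
   [[-40706048, 0, 0, 0, 0, 0, 0, 0, 0, 0, 0],
    [456892416, 0, 0, 0, 0, 0, 0, 0, 0, 0, 0],
    [1920909312, 0, 0, 0, 0, 0, 0, 0, 0, 0, 0],
    [-1920909312, 0, 0, 0, 0, 0, 0, 0, 0, 0, 0],
    [-456892416, 0, 0, 0, 0, 0, 0, 0, 0, 0, 0],
    [40706048, 0, 0, 0, 0, 0, 0, 0, 0, 0, 0],
    [0, 0, 0, 0, 0, 0, 0, 0, 0, 0, 0]],
   [[109496320, 0, 0, 0, 0, 0, 0, 0, 0, 0, 0],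
    [2299422720, 0, 0, 0, 0, 0, 0, 0, 0, 0, 0],
    [3722874880, 0, 0, 0, 0, 0, 0, 0, 0, 0, 0],
    [-1532948480, 0, 0, 0, 0, 0, 0, 0, 0, 0, 0],
    [-3832371200, 0, 0, 0, 0, 0, 0, 0, 0, 0, 0],
    [-766474240, 0, 0, 0, 0, 0, 0, 0, 0, 0, 0],
    [0, 0, 0, 0, 0, 0, 0, 0, 0, 0, 0]],
   [[-22239232, 0, 0, 0, 0, 0, 0, 0, 0, 0, 0],
    [-622698496, 0, 0, 0, 0, 0, 0, 0, 0, 0, 0],
    [-1534507008, 0, 0, 0, 0, 0, 0, 0, 0, 0, 0],
    [0, 0, 0, 0, 0, 0, 0, 0, 0, 0, 0],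
    [1534507008, 0, 0, 0, 0, 0, 0, 0, 0, 0, 0],
    [622698496, 0, 0, 0, 0, 0, 0, 0, 0, 0, 0],
    [22239232, 0, 0, 0, 0, 0, 0, 0, 0, 0, 0]]]

theorem bigL_nonneg {x y z : ℝ} (x0 : 0 ≤ x) (x1 : x ≤ 1) (y0 : 0 ≤ y) (y1 : y ≤ 1) (z0 : 2 ≤ z) :
    0 ≤ Coef.val bigL [x, y, z] := by
  exact box_tail (0) (1) (1) (0) (1) (1) (2) (l := bigL) (by decide +kernel) (by norm_num)
    (by push_cast; linarith) (by push_cast; linarith) (by push_cast; linarith) (by push_cast; linarith) (by push_cast; linarith)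

theorem CS_big (S t u : ℝ) : (4096 : ℝ) * CS u S ((S ^ 2 - S ^ 2 * t) / 4) =
    1 * Coef.val bigL [S, t, u] := by
  simp only [bigL, CS, CS0, CS1, CS2, CS3, ev, Coef.val, List.headD_cons, List.tail_cons]
  push_cast
  ring

/-- The chord polynomial in the coordinates of the sum and of the product. -/
def highL : List (List (List ℤ)) :=
  [[[0, 0, 0, 0, 0, 0, 0, 0, 0, 0, 0],
    [0, 0, 0, 0, 0, 0, 0, 0, 0, 0, 0],
    [0, 0, 0, 0, 0, 0, 0, 0, 0, 0, 0],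
    [38906363904, 0, 0, 0, 0, 0, 0, 0, 0, 0, 0],
    [-105293807616, 0, 0, 0, 0, 0, 0, 0, 0, 0, 0],
    [20841496576, 0, 0, 0, 0, 0, 0, 0, 0, 0, 0],
    [45545947136, 0, 0, 0, 0, 0, 0, 0, 0, 0, 0]],
   [[0, 0, 0, 0, 0, 0, 0, 0, 0, 0, 0],
    [-1321205760, 1981808640, 0, 0, 0, 0, 0, 0, 0, 0, 0],
    [-16129720320, -1981808640, 0, 0, 0, 0, 0, 0, 0, 0, 0],
    [-150921543680, 0, 0, 0, 0, 0, 0, 0, 0, 0, 0],
    [832069697536, 0, 0, 0, 0, 0, 0, 0, 0, 0, 0],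
    [-486221545472, 0, 0, 0, 0, 0, 0, 0, 0, 0, 0],
    [-250502709248, 0, 0, 0, 0, 0, 0, 0, 0, 0, 0]],
   [[0, 0, 0, 0, 0, 0, 0, 0, 0, 0, 0],
    [660602880, -990904320, 0, 0, 0, 0, 0, 0, 0, 0, 0],
    [72827535360, 2972712960, 0, 0, 0, 0, 0, 0, 0, 0, 0],
    [-59310604288, 0, 0, 0, 0, 0, 0, 0, 0, 0, 0],
    [-2233669517312, 0, 0, 0, 0, 0, 0, 0, 0, 0, 0],
    [2272351748096, 0, 0, 0, 0, 0, 0, 0, 0, 0, 0],
    [626256773120, 0, 0, 0, 0, 0, 0, 0, 0, 0, 0]],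
   [[330301440, -495452160, 0, 165150720, 0, 0, 0, 0, 0, 0, 0],
    [2908487680, 0, 0, 578945024, 0, 0, 0, 0, 0, 0, 0],
    [-101369118720, -1486356480, 0, 2484600832, 0, 0, 0, 0, 0, 0, 0],
    [972005048320, 0, 0, -3228696576, 0, 0, 0, 0, 0, 0, 0],
    [2608396894208, 0, 0, 0, 0, 0, 0, 0, 0, 0, 0],
    [-5185446346752, 0, 0, 0, 0, 0, 0, 0, 0, 0, 0],
    [-939385159680, 0, 0, 0, 0, 0, 0, 0, 0, 0, 0]],
   [[165150720, -247726080, 0, 82575360, 0, 0, 0, 0, 0, 0, 0],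
    [-13612482560, 0, 0, -289472512, 0, 0, 0, 0, 0, 0, 0],
    [62974525440, 247726080, 0, -3726901248, 0, 0, 0, 0, 0, 0, 0],
    [-1779000541184, 0, 0, 8071741440, 0, 0, 0, 0, 0, 0, 0],
    [-652036210688, 0, 0, 0, 0, 0, 0, 0, 0, 0, 0],
    [7154086969344, 0, 0, 0, 0, 0, 0, 0, 0, 0, 0],
    [939385159680, 0, 0, 0, 0, 0, 0, 0, 0, 0, 0]],
   [[363560960, 0, 0, 544768000, -2907340800, 1999011840, 0, 0, 0, 0, 0],
    [12987924480, 0, 0, -1986396160, 8385986560, -12470845440, 0, 0, 0, 0, 0],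
    [-70930595840, 0, 0, 2670624768, -5478645760, 5939363840, 0, 0, 0, 0, 0],
    [1519999909888, 0, 0, -8071741440, 0, 4532469760, 0, 0, 0, 0, 0],
    [-1923857022976, 0, 0, 0, 0, 0, 0, 0, 0, 0, 0],
    [-6520114642944, 0, 0, 0, 0, 0, 0, 0, 0, 0, 0],
    [-657569611776, 0, 0, 0, 0, 0, 0, 0, 0, 0, 0]],
   [[-426131456, 0, 0, 272384000, -1453670400, 4646977536, -3039559680, 0, 0, 0, 0],
    [14715322368, 0, 0, 993198080, -4192993280, -1059520512, 14201520128, 0, 0, 0, 0],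
    [96322093056, 0, 0, -1521336320, 8217968640, -5261574144, -9616818176, 0, 0, 0, 0],
    [-655193866240, 0, 0, 4035870720, 0, -11331174400, -1545142272, 0, 0, 0, 0],
    [2733671170048, 0, 0, 0, 0, 0, 0, 0, 0, 0, 0],
    [4083286867968, 0, 0, 0, 0, 0, 0, 0, 0, 0, 0],
    [328784805888, 0, 0, 0, 0, 0, 0, 0, 0, 0, 0]],
   [[-81747968, 0, 0, 112107520, -1106452480, 3822460928, -4201758720, 1455390720, 0, 0, 0],
    [-28826353664, 0, 0, 112107520, 0, 5885444096, -7168425984, -2782986240, 0, 0, 0],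
    [-32725172224, 0, 0, 605380608, -4108984320, -2149801984, 17174872064, 1327595520, 0, 0, 0],
    [97031634944, 0, 0, -1008967680, 0, 11331174400, 3862855680, 0, 0, 0, 0],
    [-1842486452224, 0, 0, 0, 0, 0, 0, 0, 0, 0, 0],
    [-1776292528128, 0, 0, 0, 0, 0, 0, 0, 0, 0, 0],
    [-117423144960, 0, 0, 0, 0, 0, 0, 0, 0, 0, 0]],
   [[370429952, 0, 0, 56053760, -553226240, 1607274496, -4372094976, 2891563008, 0, 0, 0],
    [10784530432, 0, 0, -56053760, 0, -1118986240, -240599040, 699793408, -922746880, 0, 0],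
    [-38848888832, 0, 0, -100896768, 684830720, 3692859392, -10950795264, -3463561216, 922746880, 0, 0],
    [28734218240, 0, 0, 100896768, 0, -5665587200, -3862855680, 0, 0, 0, 0],
    [741563232256, 0, 0, 0, 0, 0, 0, 0, 0, 0, 0],
    [529558388736, 0, 0, 0, 0, 0, 0, 0, 0, 0, 0],
    [29355786240, 0, 0, 0, 0, 0, 0, 0, 0, 0, 0]],
   [[-89329664, 0, 0, 0, 0, 182550528, -779358208, 1725702144, -1039564800, 0, 0],
    [4141953024, 0, 0, 0, 0, -121405440, 137216000, 33980416, 1500938240, 0, 0],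
    [38830424064, 0, 0, 0, 0, -1305772032, 2684907520, 3203948544, -1384120320, 0, 0],
    [-13408575488, 0, 0, 0, 0, 1416396800, 1931427840, 0, 0, 0, 0],
    [-182094893056, 0, 0, 0, 0, 0, 0, 0, 0, 0, 0],
    [-103505825792, 0, 0, 0, 0, 0, 0, 0, 0, 0, 0],
    [-4892631040, 0, 0, 0, 0, 0, 0, 0, 0, 0, 0]],
   [[-65017856, 0, 0, 0, 0, -60702720, 400287744, -23089152, -289095680, 0, 37617664],
    [-3544819712, 0, 0, 0, 0, 60702720, 32190464, 155934720, -519782400, 0, -37617664],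
    [-12929916928, 0, 0, 0, 0, 141639680, -53991424, -1270075392, 692060160, 0, 0],
    [1532948480, 0, 0, 0, 0, -141639680, -482856960, 0, 0, 0, 0],
    [25315469312, 0, 0, 0, 0, 0, 0, 0, 0, 0, 0],
    [11975047168, 0, 0, 0, 0, 0, 0, 0, 0, 0, 0],
    [489263104, 0, 0, 0, 0, 0, 0, 0, 0, 0, 0]],
   [[22239232, 0, 0, 0, 0, 0, 16095232, -172486656, 115343360, 0, 18808832],
    [622698496, 0, 0, 0, 0, 0, -16095232, 0, 0, 0, 18808832],
    [1534507008, 0, 0, 0, 0, 0, -48285696, 184020992, -115343360, 0, 0],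
    [0, 0, 0, 0, 0, 0, 48285696, 0, 0, 0, 0],
    [-1534507008, 0, 0, 0, 0, 0, 0, 0, 0, 0, 0],
    [-622698496, 0, 0, 0, 0, 0, 0, 0, 0, 0, 0],
    [-22239232, 0, 0, 0, 0, 0, 0, 0, 0, 0, 0]]]

theorem highL_part0 {x y z : ℝ} (x0 : 1 ≤ x) (x1 : x ≤ 3 / 2) (y0 : 0 ≤ y) (y1 : y ≤ 1 / 2) (z0 : 0 ≤ z) (z1 : z ≤ 1) :
    0 ≤ Coef.val highL [x, y, z] := by
  rcases le_total z (1 / 2 : ℝ) with h | h
  ·
    exact box_seg (2) (3) (2) (0) (1) (2) (0) (1) (2) (l := highL) (by decide +kernel) (by norm_num)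
      (by push_cast; linarith) (by push_cast; linarith) (by push_cast; linarith) (by push_cast; linarith) (by push_cast; linarith) (by push_cast; linarith)
  ·
    exact box_seg (2) (3) (2) (0) (1) (2) (1) (2) (2) (l := highL) (by decide +kernel) (by norm_num)
      (by push_cast; linarith) (by push_cast; linarith) (by push_cast; linarith) (by push_cast; linarith) (by push_cast; linarith) (by push_cast; linarith)

theorem highL_part1 {x y z : ℝ} (x0 : 1 ≤ x) (x1 : x ≤ 3 / 2) (y0 : 1 / 2 ≤ y) (y1 : y ≤ 1) (z0 : 0 ≤ z) (z1 : z ≤ 1 / 2) :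
    0 ≤ Coef.val highL [x, y, z] := by
  exact box_seg (2) (3) (2) (1) (2) (2) (0) (1) (2) (l := highL) (by decide +kernel) (by norm_num)
    (by push_cast; linarith) (by push_cast; linarith) (by push_cast; linarith) (by push_cast; linarith) (by push_cast; linarith) (by push_cast; linarith)

theorem highL_part2 {x y z : ℝ} (x0 : 1 ≤ x) (x1 : x ≤ 5 / 4) (y0 : 1 / 2 ≤ y) (y1 : y ≤ 1) (z0 : 1 / 2 ≤ z) (z1 : z ≤ 1) :
    0 ≤ Coef.val highL [x, y, z] := by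
  rcases le_total y (3 / 4 : ℝ) with h | h
  ·
    exact box_seg (4) (5) (4) (2) (3) (4) (1) (2) (2) (l := highL) (by decide +kernel) (by norm_num)
      (by push_cast; linarith) (by push_cast; linarith) (by push_cast; linarith) (by push_cast; linarith) (by push_cast; linarith) (by push_cast; linarith)
  ·
    rcases le_total z (3 / 4 : ℝ) with h | h
    ·
      exact box_seg (4) (5) (4) (3) (4) (4) (2) (3) (4) (l := highL) (by decide +kernel) (by norm_num)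
        (by push_cast; linarith) (by push_cast; linarith) (by push_cast; linarith) (by push_cast; linarith) (by push_cast; linarith) (by push_cast; linarith)
    ·
      exact box_seg (4) (5) (4) (3) (4) (4) (3) (4) (4) (l := highL) (by decide +kernel) (by norm_num)
        (by push_cast; linarith) (by push_cast; linarith) (by push_cast; linarith) (by push_cast; linarith) (by push_cast; linarith) (by push_cast; linarith)

theorem highL_part3 {x y z : ℝ} (x0 : 5 / 4 ≤ x) (x1 : x ≤ 3 / 2) (y0 : 1 / 2 ≤ y) (y1 : y ≤ 1) (z0 : 1 / 2 ≤ z) (z1 : z ≤ 1) :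
    0 ≤ Coef.val highL [x, y, z] := by
  rcases le_total y (3 / 4 : ℝ) with h | h
  ·
    exact box_seg (5) (6) (4) (2) (3) (4) (1) (2) (2) (l := highL) (by decide +kernel) (by norm_num)
      (by push_cast; linarith) (by push_cast; linarith) (by push_cast; linarith) (by push_cast; linarith) (by push_cast; linarith) (by push_cast; linarith)
  ·
    rcases le_total z (3 / 4 : ℝ) with h | h
    ·
      exact box_seg (5) (6) (4) (3) (4) (4) (2) (3) (4) (l := highL) (by decide +kernel) (by norm_num)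
        (by push_cast; linarith) (by push_cast; linarith) (by push_cast; linarith) (by push_cast; linarith) (by push_cast; linarith) (by push_cast; linarith)
    ·
      exact box_seg (5) (6) (4) (3) (4) (4) (3) (4) (4) (l := highL) (by decide +kernel) (by norm_num)
        (by push_cast; linarith) (by push_cast; linarith) (by push_cast; linarith) (by push_cast; linarith) (by push_cast; linarith) (by push_cast; linarith)

theorem highL_part4 {x y z : ℝ} (x0 : 3 / 2 ≤ x) (x1 : x ≤ 2) (y0 : 0 ≤ y) (y1 : y ≤ 1 / 2) (z0 : 0 ≤ z) (z1 : z ≤ 1 / 2) :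
    0 ≤ Coef.val highL [x, y, z] := by
  exact box_seg (3) (4) (2) (0) (1) (2) (0) (1) (2) (l := highL) (by decide +kernel) (by norm_num)
    (by push_cast; linarith) (by push_cast; linarith) (by push_cast; linarith) (by push_cast; linarith) (by push_cast; linarith) (by push_cast; linarith)

theorem highL_part5 {x y z : ℝ} (x0 : 3 / 2 ≤ x) (x1 : x ≤ 7 / 4) (y0 : 0 ≤ y) (y1 : y ≤ 1 / 4) (z0 : 1 / 2 ≤ z) (z1 : z ≤ 3 / 4) :
    0 ≤ Coef.val highL [x, y, z] := by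
  exact box_seg (6) (7) (4) (0) (1) (4) (2) (3) (4) (l := highL) (by decide +kernel) (by norm_num)
    (by push_cast; linarith) (by push_cast; linarith) (by push_cast; linarith) (by push_cast; linarith) (by push_cast; linarith) (by push_cast; linarith)

theorem highL_part6 {x y z : ℝ} (x0 : 3 / 2 ≤ x) (x1 : x ≤ 13 / 8) (y0 : 0 ≤ y) (y1 : y ≤ 1 / 4) (z0 : 3 / 4 ≤ z) (z1 : z ≤ 1) :
    0 ≤ Coef.val highL [x, y, z] := by
  rcases le_total y (1 / 8 : ℝ) with h | h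
  ·
    rcases le_total z (7 / 8 : ℝ) with h | h
    ·
      exact box_seg (12) (13) (8) (0) (1) (8) (6) (7) (8) (l := highL) (by decide +kernel) (by norm_num)
        (by push_cast; linarith) (by push_cast; linarith) (by push_cast; linarith) (by push_cast; linarith) (by push_cast; linarith) (by push_cast; linarith)
    ·
      exact box_seg (12) (13) (8) (0) (1) (8) (7) (8) (8) (l := highL) (by decide +kernel) (by norm_num)
        (by push_cast; linarith) (by push_cast; linarith) (by push_cast; linarith) (by push_cast; linarith) (by push_cast; linarith) (by push_cast; linarith)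
  ·
    exact box_seg (12) (13) (8) (1) (2) (8) (3) (4) (4) (l := highL) (by decide +kernel) (by norm_num)
      (by push_cast; linarith) (by push_cast; linarith) (by push_cast; linarith) (by push_cast; linarith) (by push_cast; linarith) (by push_cast; linarith)

theorem highL_part7 {x y z : ℝ} (x0 : 13 / 8 ≤ x) (x1 : x ≤ 7 / 4) (y0 : 0 ≤ y) (y1 : y ≤ 1 / 4) (z0 : 3 / 4 ≤ z) (z1 : z ≤ 1) :
    0 ≤ Coef.val highL [x, y, z] := by
  exact box_seg (13) (14) (8) (0) (1) (4) (3) (4) (4) (l := highL) (by decide +kernel) (by norm_num)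
    (by push_cast; linarith) (by push_cast; linarith) (by push_cast; linarith) (by push_cast; linarith) (by push_cast; linarith) (by push_cast; linarith)

theorem highL_part8 {x y z : ℝ} (x0 : 3 / 2 ≤ x) (x1 : x ≤ 7 / 4) (y0 : 1 / 4 ≤ y) (y1 : y ≤ 1 / 2) (z0 : 1 / 2 ≤ z) (z1 : z ≤ 1) :
    0 ≤ Coef.val highL [x, y, z] := by
  rcases le_total z (3 / 4 : ℝ) with h | h
  ·
    exact box_seg (6) (7) (4) (1) (2) (4) (2) (3) (4) (l := highL) (by decide +kernel) (by norm_num)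
      (by push_cast; linarith) (by push_cast; linarith) (by push_cast; linarith) (by push_cast; linarith) (by push_cast; linarith) (by push_cast; linarith)
  ·
    exact box_seg (6) (7) (4) (1) (2) (4) (3) (4) (4) (l := highL) (by decide +kernel) (by norm_num)
      (by push_cast; linarith) (by push_cast; linarith) (by push_cast; linarith) (by push_cast; linarith) (by push_cast; linarith) (by push_cast; linarith)

theorem highL_part9 {x y z : ℝ} (x0 : 7 / 4 ≤ x) (x1 : x ≤ 2) (y0 : 0 ≤ y) (y1 : y ≤ 1 / 2) (z0 : 1 / 2 ≤ z) (z1 : z ≤ 1) :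
    0 ≤ Coef.val highL [x, y, z] := by
  exact box_seg (7) (8) (4) (0) (1) (2) (1) (2) (2) (l := highL) (by decide +kernel) (by norm_num)
    (by push_cast; linarith) (by push_cast; linarith) (by push_cast; linarith) (by push_cast; linarith) (by push_cast; linarith) (by push_cast; linarith)

theorem highL_part10 {x y z : ℝ} (x0 : 3 / 2 ≤ x) (x1 : x ≤ 2) (y0 : 1 / 2 ≤ y) (y1 : y ≤ 1) (z0 : 0 ≤ z) (z1 : z ≤ 1 / 2) :
    0 ≤ Coef.val highL [x, y, z] := by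
  exact box_seg (3) (4) (2) (1) (2) (2) (0) (1) (2) (l := highL) (by decide +kernel) (by norm_num)
    (by push_cast; linarith) (by push_cast; linarith) (by push_cast; linarith) (by push_cast; linarith) (by push_cast; linarith) (by push_cast; linarith)

theorem highL_part11 {x y z : ℝ} (x0 : 3 / 2 ≤ x) (x1 : x ≤ 7 / 4) (y0 : 1 / 2 ≤ y) (y1 : y ≤ 1) (z0 : 1 / 2 ≤ z) (z1 : z ≤ 1) :
    0 ≤ Coef.val highL [x, y, z] := by
  rcases le_total y (3 / 4 : ℝ) with h | h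
  ·
    rcases le_total z (3 / 4 : ℝ) with h | h
    ·
      exact box_seg (6) (7) (4) (2) (3) (4) (2) (3) (4) (l := highL) (by decide +kernel) (by norm_num)
        (by push_cast; linarith) (by push_cast; linarith) (by push_cast; linarith) (by push_cast; linarith) (by push_cast; linarith) (by push_cast; linarith)
    ·
      exact box_seg (6) (7) (4) (2) (3) (4) (3) (4) (4) (l := highL) (by decide +kernel) (by norm_num)
        (by push_cast; linarith) (by push_cast; linarith) (by push_cast; linarith) (by push_cast; linarith) (by push_cast; linarith) (by push_cast; linarith)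
  ·
    exact box_seg (6) (7) (4) (3) (4) (4) (1) (2) (2) (l := highL) (by decide +kernel) (by norm_num)
      (by push_cast; linarith) (by push_cast; linarith) (by push_cast; linarith) (by push_cast; linarith) (by push_cast; linarith) (by push_cast; linarith)

theorem highL_part12 {x y z : ℝ} (x0 : 7 / 4 ≤ x) (x1 : x ≤ 2) (y0 : 1 / 2 ≤ y) (y1 : y ≤ 1) (z0 : 1 / 2 ≤ z) (z1 : z ≤ 1) :
    0 ≤ Coef.val highL [x, y, z] := by
  exact box_seg (7) (8) (4) (1) (2) (2) (1) (2) (2) (l := highL) (by decide +kernel) (by norm_num)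
    (by push_cast; linarith) (by push_cast; linarith) (by push_cast; linarith) (by push_cast; linarith) (by push_cast; linarith) (by push_cast; linarith)

theorem highL_part13 {x y z : ℝ} (x0 : 1 ≤ x) (x1 : x ≤ 3 / 2) (y0 : 0 ≤ y) (y1 : y ≤ 1) (z0 : 1 ≤ z) (z1 : z ≤ 2) :
    0 ≤ Coef.val highL [x, y, z] := by
  exact box_seg (2) (3) (2) (0) (1) (1) (1) (2) (1) (l := highL) (by decide +kernel) (by norm_num)
    (by push_cast; linarith) (by push_cast; linarith) (by push_cast; linarith) (by push_cast; linarith) (by push_cast; linarith) (by push_cast; linarith)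

theorem highL_part14 {x y z : ℝ} (x0 : 3 / 2 ≤ x) (x1 : x ≤ 2) (y0 : 0 ≤ y) (y1 : y ≤ 1 / 2) (z0 : 1 ≤ z) (z1 : z ≤ 2) :
    0 ≤ Coef.val highL [x, y, z] := by
  rcases le_total z (3 / 2 : ℝ) with h | h
  ·
    rcases le_total x (7 / 4 : ℝ) with h | h
    ·
      exact box_seg (6) (7) (4) (0) (1) (2) (2) (3) (2) (l := highL) (by decide +kernel) (by norm_num)
        (by push_cast; linarith) (by push_cast; linarith) (by push_cast; linarith) (by push_cast; linarith) (by push_cast; linarith) (by push_cast; linarith)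
    ·
      exact box_seg (7) (8) (4) (0) (1) (2) (2) (3) (2) (l := highL) (by decide +kernel) (by norm_num)
        (by push_cast; linarith) (by push_cast; linarith) (by push_cast; linarith) (by push_cast; linarith) (by push_cast; linarith) (by push_cast; linarith)
  ·
    exact box_seg (3) (4) (2) (0) (1) (2) (3) (4) (2) (l := highL) (by decide +kernel) (by norm_num)
      (by push_cast; linarith) (by push_cast; linarith) (by push_cast; linarith) (by push_cast; linarith) (by push_cast; linarith) (by push_cast; linarith)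

theorem highL_part15 {x y z : ℝ} (x0 : 3 / 2 ≤ x) (x1 : x ≤ 2) (y0 : 1 / 2 ≤ y) (y1 : y ≤ 1) (z0 : 1 ≤ z) (z1 : z ≤ 2) :
    0 ≤ Coef.val highL [x, y, z] := by
  exact box_seg (3) (4) (2) (1) (2) (2) (1) (2) (1) (l := highL) (by decide +kernel) (by norm_num)
    (by push_cast; linarith) (by push_cast; linarith) (by push_cast; linarith) (by push_cast; linarith) (by push_cast; linarith) (by push_cast; linarith)

theorem highL_part16 {x y z : ℝ} (x0 : 1 ≤ x) (x1 : x ≤ 2) (y0 : 0 ≤ y) (y1 : y ≤ 1) (z0 : 2 ≤ z) :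
    0 ≤ Coef.val highL [x, y, z] := by
  exact box_tail (1) (2) (1) (0) (1) (1) (2) (l := highL) (by decide +kernel) (by norm_num)
    (by push_cast; linarith) (by push_cast; linarith) (by push_cast; linarith) (by push_cast; linarith) (by push_cast; linarith)

theorem highL_nonneg {x y z : ℝ} (x0 : 1 ≤ x) (x1 : x ≤ 2) (y0 : 0 ≤ y) (y1 : y ≤ 1) (z0 : 0 ≤ z) :
    0 ≤ Coef.val highL [x, y, z] := by
  rcases le_total z (1 : ℝ) with h | h
  ·
    rcases le_total x (3 / 2 : ℝ) with h | h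
    ·
      rcases le_total y (1 / 2 : ℝ) with h | h
      ·
        exact highL_part0 (by linarith) (by linarith) (by linarith) (by linarith) (by linarith) (by linarith)
      ·
        rcases le_total z (1 / 2 : ℝ) with h | h
        ·
          exact highL_part1 (by linarith) (by linarith) (by linarith) (by linarith) (by linarith) (by linarith)
        ·
          rcases le_total x (5 / 4 : ℝ) with h | h
          ·
            exact highL_part2 (by linarith) (by linarith) (by linarith) (by linarith) (by linarith) (by linarith)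
          ·
            exact highL_part3 (by linarith) (by linarith) (by linarith) (by linarith) (by linarith) (by linarith)
    ·
      rcases le_total y (1 / 2 : ℝ) with h | h
      ·
        rcases le_total z (1 / 2 : ℝ) with h | h
        ·
          exact highL_part4 (by linarith) (by linarith) (by linarith) (by linarith) (by linarith) (by linarith)
        ·
          rcases le_total x (7 / 4 : ℝ) with h | h
          ·
            rcases le_total y (1 / 4 : ℝ) with h | h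
            ·
              rcases le_total z (3 / 4 : ℝ) with h | h
              ·
                exact highL_part5 (by linarith) (by linarith) (by linarith) (by linarith) (by linarith) (by linarith)
              ·
                rcases le_total x (13 / 8 : ℝ) with h | h
                ·
                  exact highL_part6 (by linarith) (by linarith) (by linarith) (by linarith) (by linarith) (by linarith)
                ·
                  exact highL_part7 (by linarith) (by linarith) (by linarith) (by linarith) (by linarith) (by linarith)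
            ·
              exact highL_part8 (by linarith) (by linarith) (by linarith) (by linarith) (by linarith) (by linarith)
          ·
            exact highL_part9 (by linarith) (by linarith) (by linarith) (by linarith) (by linarith) (by linarith)
      ·
        rcases le_total z (1 / 2 : ℝ) with h | h
        ·
          exact highL_part10 (by linarith) (by linarith) (by linarith) (by linarith) (by linarith) (by linarith)
        ·
          rcases le_total x (7 / 4 : ℝ) with h | h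
          ·
            exact highL_part11 (by linarith) (by linarith) (by linarith) (by linarith) (by linarith) (by linarith)
          ·
            exact highL_part12 (by linarith) (by linarith) (by linarith) (by linarith) (by linarith) (by linarith)
  ·
    rcases le_total z (2 : ℝ) with h | h
    ·
      rcases le_total x (3 / 2 : ℝ) with h | h
      ·
        exact highL_part13 (by linarith) (by linarith) (by linarith) (by linarith) (by linarith) (by linarith)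
      ·
        rcases le_total y (1 / 2 : ℝ) with h | h
        ·
          exact highL_part14 (by linarith) (by linarith) (by linarith) (by linarith) (by linarith) (by linarith)
        ·
          exact highL_part15 (by linarith) (by linarith) (by linarith) (by linarith) (by linarith) (by linarith)
    ·
      exact highL_part16 (by linarith) (by linarith) (by linarith) (by linarith) (by linarith)

theorem CS_high (S t u : ℝ) : (4096 : ℝ) * CS (S * u) S ((S ^ 2 - (2 - S) ^ 2 * t) / 4) =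
    (2 - S) * Coef.val highL [S, t, u] := by
  simp only [highL, CS, CS0, CS1, CS2, CS3, ev, Coef.val, List.headD_cons, List.tail_cons]
  push_cast
  ring

end

end Vale.Agent.P219.Aff.Eleven
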