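import Vale.Agent.P219.Aff.Ten.Box

/-!
# Checked coefficient lists for the chord inequality in dimension eleven, changing sign
-/

namespace Vale.Agent.P219.Aff.Eleven

open Vale.Agent.P219.Aff.Nine
open Vale.Agent.P219.Aff.Ten (box_seg box_tail)

noncomputable section

/-- The chord polynomial on the cone below the second cosine, the first one smaller. -/
def ppAboveL : List (List (List ℤ)) :=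
  [[[0, 0, 0, 80640, 0, 0, 0, 0, 0, 0, 0],
    [645120, -967680, 0, 0, 0, 0, 0, 0, 0, 0, 0],
    [645120, 0, 0, 0, 0, 0, 0, 0, 0, 0, 0],
    [0, 0, 0, 0, 0, 0, 0, 0, 0, 0, 0],
    [0, 0, 0, 0, 0, 0, 0, 0, 0, 0, 0],
    [0, 0, 0, 0, 0, 0, 0, 0, 0, 0, 0],
    [0, 0, 0, 0, 0, 0, 0, 0, 0, 0, 0],
    [0, 0, 0, 0, 0, 0, 0, 0, 0, 0, 0],
    [0, 0, 0, 0, 0, 0, 0, 0, 0, 0, 0],
    [0, 0, 0, 0, 0, 0, 0, 0, 0, 0, 0],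
    [0, 0, 0, 0, 0, 0, 0, 0, 0, 0, 0],
    [0, 0, 0, 0, 0, 0, 0, 0, 0, 0, 0]],
   [[0, 0, 0, 0, 0, 0, 0, 0, 0, 0, 0],
    [0, 0, 0, 0, 0, 0, 0, 0, 0, 0, 0],
    [0, 0, 0, 0, 0, 0, 0, 0, 0, 0, 0],
    [0, 0, 0, 0, 0, 0, 0, 0, 0, 0, 0],
    [0, 0, 0, 0, 0, 0, 0, 0, 0, 0, 0],
    [0, 0, 0, 0, 0, 0, 0, 0, 0, 0, 0],
    [0, 0, 0, 0, 0, 0, 0, 0, 0, 0, 0],
    [0, 0, 0, 0, 0, 0, 0, 0, 0, 0, 0],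
    [0, 0, 0, 0, 0, 0, 0, 0, 0, 0, 0],
    [0, 0, 0, 0, 0, 0, 0, 0, 0, 0, 0],
    [0, 0, 0, 0, 0, 0, 0, 0, 0, 0, 0],
    [0, 0, 0, 0, 0, 0, 0, 0, 0, 0, 0]],
   [[0, 0, 0, 316512, -905520, 976080, 0, 0, 0, 0, 0],
    [2517760, 483840, 0, -350336, -905520, 0, 0, 0, 0, 0, 0],
    [-322560, 0, 0, 316512, 0, 0, 0, 0, 0, 0, 0],
    [-322560, 483840, 0, 0, 0, 0, 0, 0, 0, 0, 0],
    [2517760, 0, 0, 0, 0, 0, 0, 0, 0, 0, 0],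
    [0, 0, 0, 0, 0, 0, 0, 0, 0, 0, 0],
    [0, 0, 0, 0, 0, 0, 0, 0, 0, 0, 0],
    [0, 0, 0, 0, 0, 0, 0, 0, 0, 0, 0],
    [0, 0, 0, 0, 0, 0, 0, 0, 0, 0, 0],
    [0, 0, 0, 0, 0, 0, 0, 0, 0, 0, 0],
    [0, 0, 0, 0, 0, 0, 0, 0, 0, 0, 0],
    [0, 0, 0, 0, 0, 0, 0, 0, 0, 0, 0]],
   [[0, 0, 0, 0, 0, 1187328, -1484160, 0, 0, 0, 0],
    [-9498624, 0, 0, 0, 0, 1187328, 0, 0, 0, 0, 0],
    [0, 0, 0, 0, 0, 0, 0, 0, 0, 0, 0],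
    [0, 0, 0, 0, 0, 0, 0, 0, 0, 0, 0],
    [0, 0, 0, 0, 0, 0, 0, 0, 0, 0, 0],
    [-9498624, 0, 0, 0, 0, 0, 0, 0, 0, 0, 0],
    [0, 0, 0, 0, 0, 0, 0, 0, 0, 0, 0],
    [0, 0, 0, 0, 0, 0, 0, 0, 0, 0, 0],
    [0, 0, 0, 0, 0, 0, 0, 0, 0, 0, 0],
    [0, 0, 0, 0, 0, 0, 0, 0, 0, 0, 0],
    [0, 0, 0, 0, 0, 0, 0, 0, 0, 0, 0],
    [0, 0, 0, 0, 0, 0, 0, 0, 0, 0, 0]],
   [[0, 0, 0, -178416, 324240, -790400, -1214280, 710640, 0, 0, 0],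
    [5523840, 0, 0, 350336, -2093840, 5773120, -1214280, 0, 0, 0, 0],
    [0, 0, 0, 869344, -2093840, -790400, 0, 0, 0, 0, 0],
    [-1420160, 0, 0, 350336, 324240, 0, 0, 0, 0, 0, 0],
    [-1420160, 0, 0, -178416, 0, 0, 0, 0, 0, 0, 0],
    [0, 0, 0, 0, 0, 0, 0, 0, 0, 0, 0],
    [5523840, 0, 0, 0, 0, 0, 0, 0, 0, 0, 0],
    [0, 0, 0, 0, 0, 0, 0, 0, 0, 0, 0],
    [0, 0, 0, 0, 0, 0, 0, 0, 0, 0, 0],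
    [0, 0, 0, 0, 0, 0, 0, 0, 0, 0, 0],
    [0, 0, 0, 0, 0, 0, 0, 0, 0, 0, 0],
    [0, 0, 0, 0, 0, 0, 0, 0, 0, 0, 0]],
   [[0, 0, 0, 0, 0, -445248, 624592, 1101632, 0, 0, 0],
    [20957184, 0, 0, 0, 0, 1038912, -6188128, 1101632, 0, 0, 0],
    [0, 0, 0, 0, 0, 1038912, 624592, 0, 0, 0, 0],
    [4749312, 0, 0, 0, 0, -445248, 0, 0, 0, 0, 0],
    [0, 0, 0, 0, 0, 0, 0, 0, 0, 0, 0],
    [4749312, 0, 0, 0, 0, 0, 0, 0, 0, 0, 0],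
    [0, 0, 0, 0, 0, 0, 0, 0, 0, 0, 0],
    [20957184, 0, 0, 0, 0, 0, 0, 0, 0, 0, 0],
    [0, 0, 0, 0, 0, 0, 0, 0, 0, 0, 0],
    [0, 0, 0, 0, 0, 0, 0, 0, 0, 0, 0],
    [0, 0, 0, 0, 0, 0, 0, 0, 0, 0, 0],
    [0, 0, 0, 0, 0, 0, 0, 0, 0, 0, 0]],
   [[0, 0, 0, 0, 32130, 151180, 583320, -203040, -507600, 0, 0],
    [-30846080, 0, 0, -43792, 1241170, -3202720, 1973560, 952800, -507600, 0, 0],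
    [0, 0, 0, -613088, 1401820, -1278440, 1973560, -203040, 0, 0, 0],
    [-3472000, 0, 0, -262752, 1401820, -3202720, 583320, 0, 0, 0, 0],
    [0, 0, 0, -613088, 1241170, 151180, 0, 0, 0, 0, 0],
    [0, 0, 0, -43792, 32130, 0, 0, 0, 0, 0, 0],
    [-3472000, 0, 0, 0, 0, 0, 0, 0, 0, 0, 0],
    [0, 0, 0, 0, 0, 0, 0, 0, 0, 0, 0],
    [-30846080, 0, 0, 0, 0, 0, 0, 0, 0, 0, 0],
    [0, 0, 0, 0, 0, 0, 0, 0, 0, 0, 0],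
    [0, 0, 0, 0, 0, 0, 0, 0, 0, 0, 0],
    [0, 0, 0, 0, 0, 0, 0, 0, 0, 0, 0]],
   [[0, 0, 0, 0, 0, -37104, 58744, -562080, 0, 0, 18368],
    [3015680, 0, 0, 0, 0, -779184, 3219808, -1258384, 450560, 0, 0],
    [0, 0, 0, 0, 0, -964704, 620464, -1258384, 0, 0, 0],
    [-8103936, 0, 0, 0, 0, -964704, 3219808, -562080, 0, 0, 0],
    [0, 0, 0, 0, 0, -779184, 58744, 0, 0, 0, 0],
    [0, 0, 0, 0, 0, -37104, 0, 0, 0, 0, 0],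
    [0, 0, 0, 0, 0, 0, 0, 0, 0, 0, 0],
    [-8103936, 0, 0, 0, 0, 0, 0, 0, 0, 0, 0],
    [0, 0, 0, 0, 0, 0, 0, 0, 0, 0, 0],
    [3015680, 0, 0, 0, 0, 0, 0, 0, 0, 0, 0],
    [0, 0, 0, 0, 0, 0, 0, 0, 0, 0, 0],
    [0, 0, 0, 0, 0, 0, 0, 0, 0, 0, 0]],
   [[0, 0, 0, 0, 0, 0, 5955, -76140, 253800, 0, 0],
    [13687040, 0, 0, 0, 0, 79040, -689165, -476400, 253800, 0, 0],
    [0, 0, 0, 0, 0, 790400, -659390, -152280, 253800, 0, 0],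
    [13687040, 0, 0, 0, 0, 474240, -659390, -476400, 253800, 0, 0],
    [0, 0, 0, 0, 0, 790400, -689165, -76140, 0, 0, 0],
    [0, 0, 0, 0, 0, 79040, 5955, 0, 0, 0, 0],
    [0, 0, 0, 0, 0, 0, 0, 0, 0, 0, 0],
    [0, 0, 0, 0, 0, 0, 0, 0, 0, 0, 0],
    [13687040, 0, 0, 0, 0, 0, 0, 0, 0, 0, 0],
    [0, 0, 0, 0, 0, 0, 0, 0, 0, 0, 0],
    [13687040, 0, 0, 0, 0, 0, 0, 0, 0, 0, 0],
    [0, 0, 0, 0, 0, 0, 0, 0, 0, 0, 0]],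
   [[0, 0, 0, 0, 0, 0, 0, 2816, 0, 0, -9184],
    [-5559808, 0, 0, 0, 0, 0, -31436, 350968, -225280, 0, 0],
    [0, 0, 0, 0, 0, 0, -251488, 365048, 0, 0, -9184],
    [-5559808, 0, 0, 0, 0, 0, -188616, 365048, -225280, 0, 0],
    [0, 0, 0, 0, 0, 0, -251488, 350968, 0, 0, 0],
    [0, 0, 0, 0, 0, 0, -31436, 2816, 0, 0, 0],
    [0, 0, 0, 0, 0, 0, 0, 0, 0, 0, 0],
    [0, 0, 0, 0, 0, 0, 0, 0, 0, 0, 0],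
    [0, 0, 0, 0, 0, 0, 0, 0, 0, 0, 0],
    [-5559808, 0, 0, 0, 0, 0, 0, 0, 0, 0, 0],
    [0, 0, 0, 0, 0, 0, 0, 0, 0, 0, 0],
    [-5559808, 0, 0, 0, 0, 0, 0, 0, 0, 0, 0]]]

theorem ppAboveL_nonneg {x y z : ℝ} (x0 : 0 ≤ x) (x1 : x ≤ 1) (y0 : 0 ≤ y) (y1 : y ≤ 1) (z0 : 0 ≤ z) (z1 : z ≤ 1) :
    0 ≤ Coef.val ppAboveL [x, y, z] := by
  exact box_seg (0) (1) (1) (0) (1) (1) (0) (1) (1) (l := ppAboveL) (by decide +kernel) (by norm_num)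
    (by push_cast; linarith) (by push_cast; linarith) (by push_cast; linarith) (by push_cast; linarith) (by push_cast; linarith) (by push_cast; linarith)

/-- The chord polynomial on the cone below the second cosine, the first one larger. -/
def ppBelowL : List (List (List ℤ)) :=
  [[[645120, 0, 0, 0, 0, 0, 0, 0, 0, 0, 0],
    [645120, -967680, 0, 0, 0, 0, 0, 0, 0, 0, 0],
    [0, 0, 0, 80640, 0, 0, 0, 0, 0, 0, 0],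
    [0, 0, 0, 0, 0, 0, 0, 0, 0, 0, 0],
    [0, 0, 0, 0, 0, 0, 0, 0, 0, 0, 0],
    [0, 0, 0, 0, 0, 0, 0, 0, 0, 0, 0],
    [0, 0, 0, 0, 0, 0, 0, 0, 0, 0, 0],
    [0, 0, 0, 0, 0, 0, 0, 0, 0, 0, 0],
    [0, 0, 0, 0, 0, 0, 0, 0, 0, 0, 0],
    [0, 0, 0, 0, 0, 0, 0, 0, 0, 0, 0],
    [0, 0, 0, 0, 0, 0, 0, 0, 0, 0, 0],
    [0, 0, 0, 0, 0, 0, 0, 0, 0, 0, 0]],
   [[0, 0, 0, 0, 0, 0, 0, 0, 0, 0, 0],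
    [0, 0, 0, 0, 0, 0, 0, 0, 0, 0, 0],
    [0, 0, 0, 0, 0, 0, 0, 0, 0, 0, 0],
    [0, 0, 0, 0, 0, 0, 0, 0, 0, 0, 0],
    [0, 0, 0, 0, 0, 0, 0, 0, 0, 0, 0],
    [0, 0, 0, 0, 0, 0, 0, 0, 0, 0, 0],
    [0, 0, 0, 0, 0, 0, 0, 0, 0, 0, 0],
    [0, 0, 0, 0, 0, 0, 0, 0, 0, 0, 0],
    [0, 0, 0, 0, 0, 0, 0, 0, 0, 0, 0],
    [0, 0, 0, 0, 0, 0, 0, 0, 0, 0, 0],
    [0, 0, 0, 0, 0, 0, 0, 0, 0, 0, 0],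
    [0, 0, 0, 0, 0, 0, 0, 0, 0, 0, 0]],
   [[2517760, 0, 0, 0, 0, 0, 0, 0, 0, 0, 0],
    [-322560, 483840, 0, 0, 0, 0, 0, 0, 0, 0, 0],
    [-322560, 0, 0, 316512, 0, 0, 0, 0, 0, 0, 0],
    [2517760, 483840, 0, -350336, -905520, 0, 0, 0, 0, 0, 0],
    [0, 0, 0, 316512, -905520, 976080, 0, 0, 0, 0, 0],
    [0, 0, 0, 0, 0, 0, 0, 0, 0, 0, 0],
    [0, 0, 0, 0, 0, 0, 0, 0, 0, 0, 0],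
    [0, 0, 0, 0, 0, 0, 0, 0, 0, 0, 0],
    [0, 0, 0, 0, 0, 0, 0, 0, 0, 0, 0],
    [0, 0, 0, 0, 0, 0, 0, 0, 0, 0, 0],
    [0, 0, 0, 0, 0, 0, 0, 0, 0, 0, 0],
    [0, 0, 0, 0, 0, 0, 0, 0, 0, 0, 0]],
   [[-9498624, 0, 0, 0, 0, 0, 0, 0, 0, 0, 0],
    [0, 0, 0, 0, 0, 0, 0, 0, 0, 0, 0],
    [0, 0, 0, 0, 0, 0, 0, 0, 0, 0, 0],
    [0, 0, 0, 0, 0, 0, 0, 0, 0, 0, 0],
    [-9498624, 0, 0, 0, 0, 1187328, 0, 0, 0, 0, 0],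
    [0, 0, 0, 0, 0, 1187328, -1484160, 0, 0, 0, 0],
    [0, 0, 0, 0, 0, 0, 0, 0, 0, 0, 0],
    [0, 0, 0, 0, 0, 0, 0, 0, 0, 0, 0],
    [0, 0, 0, 0, 0, 0, 0, 0, 0, 0, 0],
    [0, 0, 0, 0, 0, 0, 0, 0, 0, 0, 0],
    [0, 0, 0, 0, 0, 0, 0, 0, 0, 0, 0],
    [0, 0, 0, 0, 0, 0, 0, 0, 0, 0, 0]],
   [[5523840, 0, 0, 0, 0, 0, 0, 0, 0, 0, 0],
    [0, 0, 0, 0, 0, 0, 0, 0, 0, 0, 0],
    [-1420160, 0, 0, -178416, 0, 0, 0, 0, 0, 0, 0],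
    [-1420160, 0, 0, 350336, 324240, 0, 0, 0, 0, 0, 0],
    [0, 0, 0, 869344, -2093840, -790400, 0, 0, 0, 0, 0],
    [5523840, 0, 0, 350336, -2093840, 5773120, -1214280, 0, 0, 0, 0],
    [0, 0, 0, -178416, 324240, -790400, -1214280, 710640, 0, 0, 0],
    [0, 0, 0, 0, 0, 0, 0, 0, 0, 0, 0],
    [0, 0, 0, 0, 0, 0, 0, 0, 0, 0, 0],
    [0, 0, 0, 0, 0, 0, 0, 0, 0, 0, 0],
    [0, 0, 0, 0, 0, 0, 0, 0, 0, 0, 0],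
    [0, 0, 0, 0, 0, 0, 0, 0, 0, 0, 0]],
   [[20957184, 0, 0, 0, 0, 0, 0, 0, 0, 0, 0],
    [0, 0, 0, 0, 0, 0, 0, 0, 0, 0, 0],
    [4749312, 0, 0, 0, 0, 0, 0, 0, 0, 0, 0],
    [0, 0, 0, 0, 0, 0, 0, 0, 0, 0, 0],
    [4749312, 0, 0, 0, 0, -445248, 0, 0, 0, 0, 0],
    [0, 0, 0, 0, 0, 1038912, 624592, 0, 0, 0, 0],
    [20957184, 0, 0, 0, 0, 1038912, -6188128, 1101632, 0, 0, 0],
    [0, 0, 0, 0, 0, -445248, 624592, 1101632, 0, 0, 0],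
    [0, 0, 0, 0, 0, 0, 0, 0, 0, 0, 0],
    [0, 0, 0, 0, 0, 0, 0, 0, 0, 0, 0],
    [0, 0, 0, 0, 0, 0, 0, 0, 0, 0, 0],
    [0, 0, 0, 0, 0, 0, 0, 0, 0, 0, 0]],
   [[-30846080, 0, 0, 0, 0, 0, 0, 0, 0, 0, 0],
    [0, 0, 0, 0, 0, 0, 0, 0, 0, 0, 0],
    [-3472000, 0, 0, 0, 0, 0, 0, 0, 0, 0, 0],
    [0, 0, 0, -43792, 32130, 0, 0, 0, 0, 0, 0],
    [0, 0, 0, -613088, 1241170, 151180, 0, 0, 0, 0, 0],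
    [-3472000, 0, 0, -262752, 1401820, -3202720, 583320, 0, 0, 0, 0],
    [0, 0, 0, -613088, 1401820, -1278440, 1973560, -203040, 0, 0, 0],
    [-30846080, 0, 0, -43792, 1241170, -3202720, 1973560, 952800, -507600, 0, 0],
    [0, 0, 0, 0, 32130, 151180, 583320, -203040, -507600, 0, 0],
    [0, 0, 0, 0, 0, 0, 0, 0, 0, 0, 0],
    [0, 0, 0, 0, 0, 0, 0, 0, 0, 0, 0],
    [0, 0, 0, 0, 0, 0, 0, 0, 0, 0, 0]],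
   [[3015680, 0, 0, 0, 0, 0, 0, 0, 0, 0, 0],
    [0, 0, 0, 0, 0, 0, 0, 0, 0, 0, 0],
    [-8103936, 0, 0, 0, 0, 0, 0, 0, 0, 0, 0],
    [0, 0, 0, 0, 0, 0, 0, 0, 0, 0, 0],
    [0, 0, 0, 0, 0, -37104, 0, 0, 0, 0, 0],
    [0, 0, 0, 0, 0, -779184, 58744, 0, 0, 0, 0],
    [-8103936, 0, 0, 0, 0, -964704, 3219808, -562080, 0, 0, 0],
    [0, 0, 0, 0, 0, -964704, 620464, -1258384, 0, 0, 0],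
    [3015680, 0, 0, 0, 0, -779184, 3219808, -1258384, 450560, 0, 0],
    [0, 0, 0, 0, 0, -37104, 58744, -562080, 0, 0, 18368],
    [0, 0, 0, 0, 0, 0, 0, 0, 0, 0, 0],
    [0, 0, 0, 0, 0, 0, 0, 0, 0, 0, 0]],
   [[13687040, 0, 0, 0, 0, 0, 0, 0, 0, 0, 0],
    [0, 0, 0, 0, 0, 0, 0, 0, 0, 0, 0],
    [13687040, 0, 0, 0, 0, 0, 0, 0, 0, 0, 0],
    [0, 0, 0, 0, 0, 0, 0, 0, 0, 0, 0],
    [0, 0, 0, 0, 0, 0, 0, 0, 0, 0, 0],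
    [0, 0, 0, 0, 0, 79040, 5955, 0, 0, 0, 0],
    [0, 0, 0, 0, 0, 790400, -689165, -76140, 0, 0, 0],
    [13687040, 0, 0, 0, 0, 474240, -659390, -476400, 253800, 0, 0],
    [0, 0, 0, 0, 0, 790400, -659390, -152280, 253800, 0, 0],
    [13687040, 0, 0, 0, 0, 79040, -689165, -476400, 253800, 0, 0],
    [0, 0, 0, 0, 0, 0, 5955, -76140, 253800, 0, 0],
    [0, 0, 0, 0, 0, 0, 0, 0, 0, 0, 0]],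
   [[-5559808, 0, 0, 0, 0, 0, 0, 0, 0, 0, 0],
    [0, 0, 0, 0, 0, 0, 0, 0, 0, 0, 0],
    [-5559808, 0, 0, 0, 0, 0, 0, 0, 0, 0, 0],
    [0, 0, 0, 0, 0, 0, 0, 0, 0, 0, 0],
    [0, 0, 0, 0, 0, 0, 0, 0, 0, 0, 0],
    [0, 0, 0, 0, 0, 0, 0, 0, 0, 0, 0],
    [0, 0, 0, 0, 0, 0, -31436, 2816, 0, 0, 0],
    [0, 0, 0, 0, 0, 0, -251488, 350968, 0, 0, 0],
    [-5559808, 0, 0, 0, 0, 0, -188616, 365048, -225280, 0, 0],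
    [0, 0, 0, 0, 0, 0, -251488, 365048, 0, 0, -9184],
    [-5559808, 0, 0, 0, 0, 0, -31436, 350968, -225280, 0, 0],
    [0, 0, 0, 0, 0, 0, 0, 2816, 0, 0, -9184]]]

theorem ppBelowL_nonneg {x y z : ℝ} (x0 : 0 ≤ x) (x1 : x ≤ 1) (y0 : 0 ≤ y) (y1 : y ≤ 1) (z0 : 0 ≤ z) (z1 : z ≤ 1) :
    0 ≤ Coef.val ppBelowL [x, y, z] := by
  exact box_seg (0) (1) (1) (0) (1) (1) (0) (1) (1) (l := ppBelowL) (by decide +kernel) (by norm_num)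
    (by push_cast; linarith) (by push_cast; linarith) (by push_cast; linarith) (by push_cast; linarith) (by push_cast; linarith) (by push_cast; linarith)

/-- The chord polynomial with fixed signs. -/
def ppIslandL : List (List (List ℤ)) :=
  [[[0, 0, 0, 80640, 0, 976080, -1484160, 710640, 0, 0, 18368],
    [0, 0, 0, 0, -905520, 1187328, -1214280, 1101632, -507600, 0, 0],
    [0, 0, 0, 316512, 0, -790400, 624592, -203040, 0, 0, -9184],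
    [0, 0, 0, 0, 324240, -445248, 583320, -562080, 253800, 0, 0],
    [0, 0, 0, -178416, 0, 151180, 58744, -76140, 0, 0, 0],
    [0, 0, 0, 0, 32130, -37104, 5955, 2816, 0, 0, 0],
    [0, 0, 0, 0, 0, 0, 0, 0, 0, 0, 0],
    [0, 0, 0, 0, 0, 0, 0, 0, 0, 0, 0],
    [0, 0, 0, 0, 0, 0, 0, 0, 0, 0, 0],
    [0, 0, 0, 0, 0, 0, 0, 0, 0, 0, 0],
    [0, 0, 0, 0, 0, 0, 0, 0, 0, 0, 0],
    [0, 0, 0, 0, 0, 0, 0, 0, 0, 0, 0]],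
   [[0, 0, 0, 0, -905520, 1187328, -1214280, 1101632, -507600, 0, 0],
    [0, -967680, 0, -350336, 0, 5773120, -6188128, 952800, 450560, 0, 0],
    [645120, 0, 0, 0, -2093840, 1038912, 1973560, -1258384, 253800, 0, 0],
    [0, 483840, 0, 350336, 0, -3202720, 3219808, -476400, -225280, 0, 0],
    [2517760, 0, 0, 0, 1241170, -779184, -689165, 350968, 0, 0, 0],
    [-9498624, 0, 0, -43792, 0, 79040, -31436, 0, 0, 0, 0],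
    [5523840, 0, 0, 0, 0, 0, 0, 0, 0, 0, 0],
    [20957184, 0, 0, 0, 0, 0, 0, 0, 0, 0, 0],
    [-30846080, 0, 0, 0, 0, 0, 0, 0, 0, 0, 0],
    [3015680, 0, 0, 0, 0, 0, 0, 0, 0, 0, 0],
    [13687040, 0, 0, 0, 0, 0, 0, 0, 0, 0, 0],
    [-5559808, 0, 0, 0, 0, 0, 0, 0, 0, 0, 0]],
   [[0, 0, 0, 316512, 0, -790400, 624592, -203040, 0, 0, -9184],
    [645120, 0, 0, 0, -2093840, 1038912, 1973560, -1258384, 253800, 0, 0],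
    [0, 0, 0, 869344, 0, -1278440, 620464, -152280, 0, 0, 0],
    [-322560, 0, 0, 0, 1401820, -964704, -659390, 365048, 0, 0, 0],
    [0, 0, 0, -613088, 0, 790400, -251488, 0, 0, 0, 0],
    [0, 0, 0, 0, 0, 0, 0, 0, 0, 0, 0],
    [0, 0, 0, 0, 0, 0, 0, 0, 0, 0, 0],
    [0, 0, 0, 0, 0, 0, 0, 0, 0, 0, 0],
    [0, 0, 0, 0, 0, 0, 0, 0, 0, 0, 0],
    [0, 0, 0, 0, 0, 0, 0, 0, 0, 0, 0],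
    [0, 0, 0, 0, 0, 0, 0, 0, 0, 0, 0],
    [0, 0, 0, 0, 0, 0, 0, 0, 0, 0, 0]],
   [[0, 0, 0, 0, 324240, -445248, 583320, -562080, 253800, 0, 0],
    [0, 483840, 0, 350336, 0, -3202720, 3219808, -476400, -225280, 0, 0],
    [-322560, 0, 0, 0, 1401820, -964704, -659390, 365048, 0, 0, 0],
    [0, 0, 0, -262752, 0, 474240, -188616, 0, 0, 0, 0],
    [-1420160, 0, 0, 0, 0, 0, 0, 0, 0, 0, 0],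
    [4749312, 0, 0, 0, 0, 0, 0, 0, 0, 0, 0],
    [-3472000, 0, 0, 0, 0, 0, 0, 0, 0, 0, 0],
    [-8103936, 0, 0, 0, 0, 0, 0, 0, 0, 0, 0],
    [13687040, 0, 0, 0, 0, 0, 0, 0, 0, 0, 0],
    [-5559808, 0, 0, 0, 0, 0, 0, 0, 0, 0, 0],
    [0, 0, 0, 0, 0, 0, 0, 0, 0, 0, 0],
    [0, 0, 0, 0, 0, 0, 0, 0, 0, 0, 0]],
   [[0, 0, 0, -178416, 0, 151180, 58744, -76140, 0, 0, 0],
    [2517760, 0, 0, 0, 1241170, -779184, -689165, 350968, 0, 0, 0],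
    [0, 0, 0, -613088, 0, 790400, -251488, 0, 0, 0, 0],
    [-1420160, 0, 0, 0, 0, 0, 0, 0, 0, 0, 0],
    [0, 0, 0, 0, 0, 0, 0, 0, 0, 0, 0],
    [0, 0, 0, 0, 0, 0, 0, 0, 0, 0, 0],
    [0, 0, 0, 0, 0, 0, 0, 0, 0, 0, 0],
    [0, 0, 0, 0, 0, 0, 0, 0, 0, 0, 0],
    [0, 0, 0, 0, 0, 0, 0, 0, 0, 0, 0],
    [0, 0, 0, 0, 0, 0, 0, 0, 0, 0, 0],
    [0, 0, 0, 0, 0, 0, 0, 0, 0, 0, 0],
    [0, 0, 0, 0, 0, 0, 0, 0, 0, 0, 0]],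
   [[0, 0, 0, 0, 32130, -37104, 5955, 2816, 0, 0, 0],
    [-9498624, 0, 0, -43792, 0, 79040, -31436, 0, 0, 0, 0],
    [0, 0, 0, 0, 0, 0, 0, 0, 0, 0, 0],
    [4749312, 0, 0, 0, 0, 0, 0, 0, 0, 0, 0],
    [0, 0, 0, 0, 0, 0, 0, 0, 0, 0, 0],
    [0, 0, 0, 0, 0, 0, 0, 0, 0, 0, 0],
    [0, 0, 0, 0, 0, 0, 0, 0, 0, 0, 0],
    [0, 0, 0, 0, 0, 0, 0, 0, 0, 0, 0],
    [0, 0, 0, 0, 0, 0, 0, 0, 0, 0, 0],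
    [0, 0, 0, 0, 0, 0, 0, 0, 0, 0, 0],
    [0, 0, 0, 0, 0, 0, 0, 0, 0, 0, 0],
    [0, 0, 0, 0, 0, 0, 0, 0, 0, 0, 0]],
   [[0, 0, 0, 0, 0, 0, 0, 0, 0, 0, 0],
    [5523840, 0, 0, 0, 0, 0, 0, 0, 0, 0, 0],
    [0, 0, 0, 0, 0, 0, 0, 0, 0, 0, 0],
    [-3472000, 0, 0, 0, 0, 0, 0, 0, 0, 0, 0],
    [0, 0, 0, 0, 0, 0, 0, 0, 0, 0, 0],
    [0, 0, 0, 0, 0, 0, 0, 0, 0, 0, 0],
    [0, 0, 0, 0, 0, 0, 0, 0, 0, 0, 0],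
    [0, 0, 0, 0, 0, 0, 0, 0, 0, 0, 0],
    [0, 0, 0, 0, 0, 0, 0, 0, 0, 0, 0],
    [0, 0, 0, 0, 0, 0, 0, 0, 0, 0, 0],
    [0, 0, 0, 0, 0, 0, 0, 0, 0, 0, 0],
    [0, 0, 0, 0, 0, 0, 0, 0, 0, 0, 0]],
   [[0, 0, 0, 0, 0, 0, 0, 0, 0, 0, 0],
    [20957184, 0, 0, 0, 0, 0, 0, 0, 0, 0, 0],
    [0, 0, 0, 0, 0, 0, 0, 0, 0, 0, 0],
    [-8103936, 0, 0, 0, 0, 0, 0, 0, 0, 0, 0],
    [0, 0, 0, 0, 0, 0, 0, 0, 0, 0, 0],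
    [0, 0, 0, 0, 0, 0, 0, 0, 0, 0, 0],
    [0, 0, 0, 0, 0, 0, 0, 0, 0, 0, 0],
    [0, 0, 0, 0, 0, 0, 0, 0, 0, 0, 0],
    [0, 0, 0, 0, 0, 0, 0, 0, 0, 0, 0],
    [0, 0, 0, 0, 0, 0, 0, 0, 0, 0, 0],
    [0, 0, 0, 0, 0, 0, 0, 0, 0, 0, 0],
    [0, 0, 0, 0, 0, 0, 0, 0, 0, 0, 0]],
   [[0, 0, 0, 0, 0, 0, 0, 0, 0, 0, 0],
    [-30846080, 0, 0, 0, 0, 0, 0, 0, 0, 0, 0],
    [0, 0, 0, 0, 0, 0, 0, 0, 0, 0, 0],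
    [13687040, 0, 0, 0, 0, 0, 0, 0, 0, 0, 0],
    [0, 0, 0, 0, 0, 0, 0, 0, 0, 0, 0],
    [0, 0, 0, 0, 0, 0, 0, 0, 0, 0, 0],
    [0, 0, 0, 0, 0, 0, 0, 0, 0, 0, 0],
    [0, 0, 0, 0, 0, 0, 0, 0, 0, 0, 0],
    [0, 0, 0, 0, 0, 0, 0, 0, 0, 0, 0],
    [0, 0, 0, 0, 0, 0, 0, 0, 0, 0, 0],
    [0, 0, 0, 0, 0, 0, 0, 0, 0, 0, 0],
    [0, 0, 0, 0, 0, 0, 0, 0, 0, 0, 0]],
   [[0, 0, 0, 0, 0, 0, 0, 0, 0, 0, 0],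
    [3015680, 0, 0, 0, 0, 0, 0, 0, 0, 0, 0],
    [0, 0, 0, 0, 0, 0, 0, 0, 0, 0, 0],
    [-5559808, 0, 0, 0, 0, 0, 0, 0, 0, 0, 0],
    [0, 0, 0, 0, 0, 0, 0, 0, 0, 0, 0],
    [0, 0, 0, 0, 0, 0, 0, 0, 0, 0, 0],
    [0, 0, 0, 0, 0, 0, 0, 0, 0, 0, 0],
    [0, 0, 0, 0, 0, 0, 0, 0, 0, 0, 0],
    [0, 0, 0, 0, 0, 0, 0, 0, 0, 0, 0],
    [0, 0, 0, 0, 0, 0, 0, 0, 0, 0, 0],
    [0, 0, 0, 0, 0, 0, 0, 0, 0, 0, 0],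
    [0, 0, 0, 0, 0, 0, 0, 0, 0, 0, 0]],
   [[0, 0, 0, 0, 0, 0, 0, 0, 0, 0, 0],
    [13687040, 0, 0, 0, 0, 0, 0, 0, 0, 0, 0],
    [0, 0, 0, 0, 0, 0, 0, 0, 0, 0, 0],
    [0, 0, 0, 0, 0, 0, 0, 0, 0, 0, 0],
    [0, 0, 0, 0, 0, 0, 0, 0, 0, 0, 0],
    [0, 0, 0, 0, 0, 0, 0, 0, 0, 0, 0],
    [0, 0, 0, 0, 0, 0, 0, 0, 0, 0, 0],
    [0, 0, 0, 0, 0, 0, 0, 0, 0, 0, 0],
    [0, 0, 0, 0, 0, 0, 0, 0, 0, 0, 0],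
    [0, 0, 0, 0, 0, 0, 0, 0, 0, 0, 0],
    [0, 0, 0, 0, 0, 0, 0, 0, 0, 0, 0],
    [0, 0, 0, 0, 0, 0, 0, 0, 0, 0, 0]],
   [[0, 0, 0, 0, 0, 0, 0, 0, 0, 0, 0],
    [-5559808, 0, 0, 0, 0, 0, 0, 0, 0, 0, 0],
    [0, 0, 0, 0, 0, 0, 0, 0, 0, 0, 0],
    [0, 0, 0, 0, 0, 0, 0, 0, 0, 0, 0],
    [0, 0, 0, 0, 0, 0, 0, 0, 0, 0, 0],
    [0, 0, 0, 0, 0, 0, 0, 0, 0, 0, 0],
    [0, 0, 0, 0, 0, 0, 0, 0, 0, 0, 0],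
    [0, 0, 0, 0, 0, 0, 0, 0, 0, 0, 0],
    [0, 0, 0, 0, 0, 0, 0, 0, 0, 0, 0],
    [0, 0, 0, 0, 0, 0, 0, 0, 0, 0, 0],
    [0, 0, 0, 0, 0, 0, 0, 0, 0, 0, 0],
    [0, 0, 0, 0, 0, 0, 0, 0, 0, 0, 0]]]

theorem ppIslandL_nonneg {x y z : ℝ} (x0 : 0 ≤ x) (x1 : x ≤ 1) (y0 : 0 ≤ y) (y1 : y ≤ 1 / 8) (z0 : 5 / 4 ≤ z) (z1 : z ≤ 2) :
    0 ≤ Coef.val ppIslandL [x, y, z] := by
  exact box_seg (0) (1) (1) (0) (1) (8) (5) (8) (4) (l := ppIslandL) (by decide +kernel) (by norm_num)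
    (by push_cast; linarith) (by push_cast; linarith) (by push_cast; linarith) (by push_cast; linarith) (by push_cast; linarith) (by push_cast; linarith)

/-- The chord polynomial on the cone below the second cosine, the first one smaller. -/
def pmAboveL : List (List (List ℤ)) :=
  [[[0, 0, 0, 80640, 0, 0, 0, 0, 0, 0, 0],
    [645120, -967680, 0, 0, 0, 0, 0, 0, 0, 0, 0],
    [645120, 0, 0, 0, 0, 0, 0, 0, 0, 0, 0],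
    [0, 0, 0, 0, 0, 0, 0, 0, 0, 0, 0],
    [0, 0, 0, 0, 0, 0, 0, 0, 0, 0, 0],
    [0, 0, 0, 0, 0, 0, 0, 0, 0, 0, 0],
    [0, 0, 0, 0, 0, 0, 0, 0, 0, 0, 0],
    [0, 0, 0, 0, 0, 0, 0, 0, 0, 0, 0],
    [0, 0, 0, 0, 0, 0, 0, 0, 0, 0, 0],
    [0, 0, 0, 0, 0, 0, 0, 0, 0, 0, 0],
    [0, 0, 0, 0, 0, 0, 0, 0, 0, 0, 0],
    [0, 0, 0, 0, 0, 0, 0, 0, 0, 0, 0]],
   [[0, 0, 0, 0, 0, 0, 0, 0, 0, 0, 0],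
    [0, 0, 0, 0, 0, 0, 0, 0, 0, 0, 0],
    [0, 0, 0, 0, 0, 0, 0, 0, 0, 0, 0],
    [0, 0, 0, 0, 0, 0, 0, 0, 0, 0, 0],
    [0, 0, 0, 0, 0, 0, 0, 0, 0, 0, 0],
    [0, 0, 0, 0, 0, 0, 0, 0, 0, 0, 0],
    [0, 0, 0, 0, 0, 0, 0, 0, 0, 0, 0],
    [0, 0, 0, 0, 0, 0, 0, 0, 0, 0, 0],
    [0, 0, 0, 0, 0, 0, 0, 0, 0, 0, 0],
    [0, 0, 0, 0, 0, 0, 0, 0, 0, 0, 0],
    [0, 0, 0, 0, 0, 0, 0, 0, 0, 0, 0],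
    [0, 0, 0, 0, 0, 0, 0, 0, 0, 0, 0]],
   [[0, 0, 0, 316512, -1419600, 976080, 0, 0, 0, 0, 0],
    [2517760, 483840, 0, 0, -905520, 0, 0, 0, 0, 0, 0],
    [-322560, 0, 0, 316512, 0, 0, 0, 0, 0, 0, 0],
    [-322560, 483840, 0, 0, 0, 0, 0, 0, 0, 0, 0],
    [2517760, 0, 0, 0, 0, 0, 0, 0, 0, 0, 0],
    [0, 0, 0, 0, 0, 0, 0, 0, 0, 0, 0],
    [0, 0, 0, 0, 0, 0, 0, 0, 0, 0, 0],
    [0, 0, 0, 0, 0, 0, 0, 0, 0, 0, 0],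
    [0, 0, 0, 0, 0, 0, 0, 0, 0, 0, 0],
    [0, 0, 0, 0, 0, 0, 0, 0, 0, 0, 0],
    [0, 0, 0, 0, 0, 0, 0, 0, 0, 0, 0],
    [0, 0, 0, 0, 0, 0, 0, 0, 0, 0, 0]],
   [[0, 0, 0, 0, 0, 1780992, -1484160, 0, 0, 0, 0],
    [-9498624, 0, 0, 0, 0, 1187328, 0, 0, 0, 0, 0],
    [0, 0, 0, 0, 0, 0, 0, 0, 0, 0, 0],
    [0, 0, 0, 0, 0, 0, 0, 0, 0, 0, 0],
    [0, 0, 0, 0, 0, 0, 0, 0, 0, 0, 0],
    [-9498624, 0, 0, 0, 0, 0, 0, 0, 0, 0, 0],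
    [0, 0, 0, 0, 0, 0, 0, 0, 0, 0, 0],
    [0, 0, 0, 0, 0, 0, 0, 0, 0, 0, 0],
    [0, 0, 0, 0, 0, 0, 0, 0, 0, 0, 0],
    [0, 0, 0, 0, 0, 0, 0, 0, 0, 0, 0],
    [0, 0, 0, 0, 0, 0, 0, 0, 0, 0, 0],
    [0, 0, 0, 0, 0, 0, 0, 0, 0, 0, 0]],
   [[0, 0, 0, -178416, 838320, -790400, -1309560, 710640, 0, 0, 0],
    [5523840, 0, 0, 0, -2093840, 5140800, -1214280, 0, 0, 0, 0],
    [0, 0, 0, 869344, -1579760, -790400, 0, 0, 0, 0, 0],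
    [-1420160, 0, 0, 0, 324240, 0, 0, 0, 0, 0, 0],
    [-1420160, 0, 0, -178416, 0, 0, 0, 0, 0, 0, 0],
    [0, 0, 0, 0, 0, 0, 0, 0, 0, 0, 0],
    [5523840, 0, 0, 0, 0, 0, 0, 0, 0, 0, 0],
    [0, 0, 0, 0, 0, 0, 0, 0, 0, 0, 0],
    [0, 0, 0, 0, 0, 0, 0, 0, 0, 0, 0],
    [0, 0, 0, 0, 0, 0, 0, 0, 0, 0, 0],
    [0, 0, 0, 0, 0, 0, 0, 0, 0, 0, 0],
    [0, 0, 0, 0, 0, 0, 0, 0, 0, 0, 0]],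
   [[0, 0, 0, 0, 0, -1038912, 624592, 1056576, 0, 0, 0],
    [20957184, 0, 0, 0, 0, 1038912, -5936640, 1101632, 0, 0, 0],
    [0, 0, 0, 0, 0, 445248, 624592, 0, 0, 0, 0],
    [4749312, 0, 0, 0, 0, -445248, 0, 0, 0, 0, 0],
    [0, 0, 0, 0, 0, 0, 0, 0, 0, 0, 0],
    [4749312, 0, 0, 0, 0, 0, 0, 0, 0, 0, 0],
    [0, 0, 0, 0, 0, 0, 0, 0, 0, 0, 0],
    [20957184, 0, 0, 0, 0, 0, 0, 0, 0, 0, 0],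
    [0, 0, 0, 0, 0, 0, 0, 0, 0, 0, 0],
    [0, 0, 0, 0, 0, 0, 0, 0, 0, 0, 0],
    [0, 0, 0, 0, 0, 0, 0, 0, 0, 0, 0],
    [0, 0, 0, 0, 0, 0, 0, 0, 0, 0, 0]],
   [[0, 0, 0, 0, -32130, 151180, 678600, -203040, -507600, 0, 0],
    [-30846080, 0, 0, 0, 1241170, -2570400, 1973560, 952800, -507600, 0, 0],
    [0, 0, 0, -613088, 1016260, -1278440, 2068840, -203040, 0, 0, 0],
    [-3472000, 0, 0, 0, 1401820, -2570400, 583320, 0, 0, 0, 0],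
    [0, 0, 0, -613088, 1176910, 151180, 0, 0, 0, 0, 0],
    [0, 0, 0, 0, 32130, 0, 0, 0, 0, 0, 0],
    [-3472000, 0, 0, 0, 0, 0, 0, 0, 0, 0, 0],
    [0, 0, 0, 0, 0, 0, 0, 0, 0, 0, 0],
    [-30846080, 0, 0, 0, 0, 0, 0, 0, 0, 0, 0],
    [0, 0, 0, 0, 0, 0, 0, 0, 0, 0, 0],
    [0, 0, 0, 0, 0, 0, 0, 0, 0, 0, 0],
    [0, 0, 0, 0, 0, 0, 0, 0, 0, 0, 0]],
   [[0, 0, 0, 0, 0, 37104, 58744, -517024, 0, 0, 18368],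
    [3015680, 0, 0, 0, 0, -779184, 2968320, -1258384, 450560, 0, 0],
    [0, 0, 0, 0, 0, -519456, 620464, -1213328, 0, 0, 0],
    [-8103936, 0, 0, 0, 0, -964704, 2968320, -562080, 0, 0, 0],
    [0, 0, 0, 0, 0, -704976, 58744, 0, 0, 0, 0],
    [0, 0, 0, 0, 0, -37104, 0, 0, 0, 0, 0],
    [0, 0, 0, 0, 0, 0, 0, 0, 0, 0, 0],
    [-8103936, 0, 0, 0, 0, 0, 0, 0, 0, 0, 0],
    [0, 0, 0, 0, 0, 0, 0, 0, 0, 0, 0],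
    [3015680, 0, 0, 0, 0, 0, 0, 0, 0, 0, 0],
    [0, 0, 0, 0, 0, 0, 0, 0, 0, 0, 0],
    [0, 0, 0, 0, 0, 0, 0, 0, 0, 0, 0]],
   [[0, 0, 0, 0, 0, 0, -5955, -76140, 253800, 0, 0],
    [13687040, 0, 0, 0, 0, 0, -689165, -476400, 253800, 0, 0],
    [0, 0, 0, 0, 0, 790400, -730850, -152280, 253800, 0, 0],
    [13687040, 0, 0, 0, 0, 0, -659390, -476400, 253800, 0, 0],
    [0, 0, 0, 0, 0, 790400, -701075, -76140, 0, 0, 0],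
    [0, 0, 0, 0, 0, 0, 5955, 0, 0, 0, 0],
    [0, 0, 0, 0, 0, 0, 0, 0, 0, 0, 0],
    [0, 0, 0, 0, 0, 0, 0, 0, 0, 0, 0],
    [13687040, 0, 0, 0, 0, 0, 0, 0, 0, 0, 0],
    [0, 0, 0, 0, 0, 0, 0, 0, 0, 0, 0],
    [13687040, 0, 0, 0, 0, 0, 0, 0, 0, 0, 0],
    [0, 0, 0, 0, 0, 0, 0, 0, 0, 0, 0]],
   [[0, 0, 0, 0, 0, 0, 0, -2816, 0, 0, -9184],
    [-5559808, 0, 0, 0, 0, 0, 0, 350968, -225280, 0, 0],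
    [0, 0, 0, 0, 0, 0, -251488, 331256, 0, 0, -9184],
    [-5559808, 0, 0, 0, 0, 0, 0, 365048, -225280, 0, 0],
    [0, 0, 0, 0, 0, 0, -251488, 345336, 0, 0, 0],
    [0, 0, 0, 0, 0, 0, 0, 2816, 0, 0, 0],
    [0, 0, 0, 0, 0, 0, 0, 0, 0, 0, 0],
    [0, 0, 0, 0, 0, 0, 0, 0, 0, 0, 0],
    [0, 0, 0, 0, 0, 0, 0, 0, 0, 0, 0],
    [-5559808, 0, 0, 0, 0, 0, 0, 0, 0, 0, 0],
    [0, 0, 0, 0, 0, 0, 0, 0, 0, 0, 0],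
    [-5559808, 0, 0, 0, 0, 0, 0, 0, 0, 0, 0]]]

theorem pmAboveL_nonneg {x y z : ℝ} (x0 : 0 ≤ x) (x1 : x ≤ 1) (y0 : 0 ≤ y) (y1 : y ≤ 1) (z0 : 0 ≤ z) (z1 : z ≤ 1) :
    0 ≤ Coef.val pmAboveL [x, y, z] := by
  exact box_seg (0) (1) (1) (0) (1) (1) (0) (1) (1) (l := pmAboveL) (by decide +kernel) (by norm_num)
    (by push_cast; linarith) (by push_cast; linarith) (by push_cast; linarith) (by push_cast; linarith) (by push_cast; linarith) (by push_cast; linarith)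

/-- The chord polynomial on the cone below the second cosine, the first one larger. -/
def pmBelowL : List (List (List ℤ)) :=
  [[[645120, 0, 0, 0, 0, 0, 0, 0, 0, 0, 0],
    [645120, -967680, 0, 0, 0, 0, 0, 0, 0, 0, 0],
    [0, 0, 0, 80640, 0, 0, 0, 0, 0, 0, 0],
    [0, 0, 0, 0, 0, 0, 0, 0, 0, 0, 0],
    [0, 0, 0, 0, 0, 0, 0, 0, 0, 0, 0],
    [0, 0, 0, 0, 0, 0, 0, 0, 0, 0, 0],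
    [0, 0, 0, 0, 0, 0, 0, 0, 0, 0, 0],
    [0, 0, 0, 0, 0, 0, 0, 0, 0, 0, 0],
    [0, 0, 0, 0, 0, 0, 0, 0, 0, 0, 0],
    [0, 0, 0, 0, 0, 0, 0, 0, 0, 0, 0],
    [0, 0, 0, 0, 0, 0, 0, 0, 0, 0, 0],
    [0, 0, 0, 0, 0, 0, 0, 0, 0, 0, 0]],
   [[0, 0, 0, 0, 0, 0, 0, 0, 0, 0, 0],
    [0, 0, 0, 0, 0, 0, 0, 0, 0, 0, 0],
    [0, 0, 0, 0, 0, 0, 0, 0, 0, 0, 0],
    [0, 0, 0, 0, 0, 0, 0, 0, 0, 0, 0],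
    [0, 0, 0, 0, 0, 0, 0, 0, 0, 0, 0],
    [0, 0, 0, 0, 0, 0, 0, 0, 0, 0, 0],
    [0, 0, 0, 0, 0, 0, 0, 0, 0, 0, 0],
    [0, 0, 0, 0, 0, 0, 0, 0, 0, 0, 0],
    [0, 0, 0, 0, 0, 0, 0, 0, 0, 0, 0],
    [0, 0, 0, 0, 0, 0, 0, 0, 0, 0, 0],
    [0, 0, 0, 0, 0, 0, 0, 0, 0, 0, 0],
    [0, 0, 0, 0, 0, 0, 0, 0, 0, 0, 0]],
   [[2517760, 0, 0, 0, 0, 0, 0, 0, 0, 0, 0],
    [-322560, 483840, 0, 0, 0, 0, 0, 0, 0, 0, 0],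
    [-322560, 0, 0, 316512, 0, 0, 0, 0, 0, 0, 0],
    [2517760, 483840, 0, 0, -905520, 0, 0, 0, 0, 0, 0],
    [0, 0, 0, 316512, -1419600, 976080, 0, 0, 0, 0, 0],
    [0, 0, 0, 0, 0, 0, 0, 0, 0, 0, 0],
    [0, 0, 0, 0, 0, 0, 0, 0, 0, 0, 0],
    [0, 0, 0, 0, 0, 0, 0, 0, 0, 0, 0],
    [0, 0, 0, 0, 0, 0, 0, 0, 0, 0, 0],
    [0, 0, 0, 0, 0, 0, 0, 0, 0, 0, 0],
    [0, 0, 0, 0, 0, 0, 0, 0, 0, 0, 0],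
    [0, 0, 0, 0, 0, 0, 0, 0, 0, 0, 0]],
   [[-9498624, 0, 0, 0, 0, 0, 0, 0, 0, 0, 0],
    [0, 0, 0, 0, 0, 0, 0, 0, 0, 0, 0],
    [0, 0, 0, 0, 0, 0, 0, 0, 0, 0, 0],
    [0, 0, 0, 0, 0, 0, 0, 0, 0, 0, 0],
    [-9498624, 0, 0, 0, 0, 1187328, 0, 0, 0, 0, 0],
    [0, 0, 0, 0, 0, 1780992, -1484160, 0, 0, 0, 0],
    [0, 0, 0, 0, 0, 0, 0, 0, 0, 0, 0],
    [0, 0, 0, 0, 0, 0, 0, 0, 0, 0, 0],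
    [0, 0, 0, 0, 0, 0, 0, 0, 0, 0, 0],
    [0, 0, 0, 0, 0, 0, 0, 0, 0, 0, 0],
    [0, 0, 0, 0, 0, 0, 0, 0, 0, 0, 0],
    [0, 0, 0, 0, 0, 0, 0, 0, 0, 0, 0]],
   [[5523840, 0, 0, 0, 0, 0, 0, 0, 0, 0, 0],
    [0, 0, 0, 0, 0, 0, 0, 0, 0, 0, 0],
    [-1420160, 0, 0, -178416, 0, 0, 0, 0, 0, 0, 0],
    [-1420160, 0, 0, 0, 324240, 0, 0, 0, 0, 0, 0],
    [0, 0, 0, 869344, -1579760, -790400, 0, 0, 0, 0, 0],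
    [5523840, 0, 0, 0, -2093840, 5140800, -1214280, 0, 0, 0, 0],
    [0, 0, 0, -178416, 838320, -790400, -1309560, 710640, 0, 0, 0],
    [0, 0, 0, 0, 0, 0, 0, 0, 0, 0, 0],
    [0, 0, 0, 0, 0, 0, 0, 0, 0, 0, 0],
    [0, 0, 0, 0, 0, 0, 0, 0, 0, 0, 0],
    [0, 0, 0, 0, 0, 0, 0, 0, 0, 0, 0],
    [0, 0, 0, 0, 0, 0, 0, 0, 0, 0, 0]],
   [[20957184, 0, 0, 0, 0, 0, 0, 0, 0, 0, 0],
    [0, 0, 0, 0, 0, 0, 0, 0, 0, 0, 0],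
    [4749312, 0, 0, 0, 0, 0, 0, 0, 0, 0, 0],
    [0, 0, 0, 0, 0, 0, 0, 0, 0, 0, 0],
    [4749312, 0, 0, 0, 0, -445248, 0, 0, 0, 0, 0],
    [0, 0, 0, 0, 0, 445248, 624592, 0, 0, 0, 0],
    [20957184, 0, 0, 0, 0, 1038912, -5936640, 1101632, 0, 0, 0],
    [0, 0, 0, 0, 0, -1038912, 624592, 1056576, 0, 0, 0],
    [0, 0, 0, 0, 0, 0, 0, 0, 0, 0, 0],
    [0, 0, 0, 0, 0, 0, 0, 0, 0, 0, 0],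
    [0, 0, 0, 0, 0, 0, 0, 0, 0, 0, 0],
    [0, 0, 0, 0, 0, 0, 0, 0, 0, 0, 0]],
   [[-30846080, 0, 0, 0, 0, 0, 0, 0, 0, 0, 0],
    [0, 0, 0, 0, 0, 0, 0, 0, 0, 0, 0],
    [-3472000, 0, 0, 0, 0, 0, 0, 0, 0, 0, 0],
    [0, 0, 0, 0, 32130, 0, 0, 0, 0, 0, 0],
    [0, 0, 0, -613088, 1176910, 151180, 0, 0, 0, 0, 0],
    [-3472000, 0, 0, 0, 1401820, -2570400, 583320, 0, 0, 0, 0],
    [0, 0, 0, -613088, 1016260, -1278440, 2068840, -203040, 0, 0, 0],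
    [-30846080, 0, 0, 0, 1241170, -2570400, 1973560, 952800, -507600, 0, 0],
    [0, 0, 0, 0, -32130, 151180, 678600, -203040, -507600, 0, 0],
    [0, 0, 0, 0, 0, 0, 0, 0, 0, 0, 0],
    [0, 0, 0, 0, 0, 0, 0, 0, 0, 0, 0],
    [0, 0, 0, 0, 0, 0, 0, 0, 0, 0, 0]],
   [[3015680, 0, 0, 0, 0, 0, 0, 0, 0, 0, 0],
    [0, 0, 0, 0, 0, 0, 0, 0, 0, 0, 0],
    [-8103936, 0, 0, 0, 0, 0, 0, 0, 0, 0, 0],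
    [0, 0, 0, 0, 0, 0, 0, 0, 0, 0, 0],
    [0, 0, 0, 0, 0, -37104, 0, 0, 0, 0, 0],
    [0, 0, 0, 0, 0, -704976, 58744, 0, 0, 0, 0],
    [-8103936, 0, 0, 0, 0, -964704, 2968320, -562080, 0, 0, 0],
    [0, 0, 0, 0, 0, -519456, 620464, -1213328, 0, 0, 0],
    [3015680, 0, 0, 0, 0, -779184, 2968320, -1258384, 450560, 0, 0],
    [0, 0, 0, 0, 0, 37104, 58744, -517024, 0, 0, 18368],
    [0, 0, 0, 0, 0, 0, 0, 0, 0, 0, 0],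
    [0, 0, 0, 0, 0, 0, 0, 0, 0, 0, 0]],
   [[13687040, 0, 0, 0, 0, 0, 0, 0, 0, 0, 0],
    [0, 0, 0, 0, 0, 0, 0, 0, 0, 0, 0],
    [13687040, 0, 0, 0, 0, 0, 0, 0, 0, 0, 0],
    [0, 0, 0, 0, 0, 0, 0, 0, 0, 0, 0],
    [0, 0, 0, 0, 0, 0, 0, 0, 0, 0, 0],
    [0, 0, 0, 0, 0, 0, 5955, 0, 0, 0, 0],
    [0, 0, 0, 0, 0, 790400, -701075, -76140, 0, 0, 0],
    [13687040, 0, 0, 0, 0, 0, -659390, -476400, 253800, 0, 0],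
    [0, 0, 0, 0, 0, 790400, -730850, -152280, 253800, 0, 0],
    [13687040, 0, 0, 0, 0, 0, -689165, -476400, 253800, 0, 0],
    [0, 0, 0, 0, 0, 0, -5955, -76140, 253800, 0, 0],
    [0, 0, 0, 0, 0, 0, 0, 0, 0, 0, 0]],
   [[-5559808, 0, 0, 0, 0, 0, 0, 0, 0, 0, 0],
    [0, 0, 0, 0, 0, 0, 0, 0, 0, 0, 0],
    [-5559808, 0, 0, 0, 0, 0, 0, 0, 0, 0, 0],
    [0, 0, 0, 0, 0, 0, 0, 0, 0, 0, 0],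
    [0, 0, 0, 0, 0, 0, 0, 0, 0, 0, 0],
    [0, 0, 0, 0, 0, 0, 0, 0, 0, 0, 0],
    [0, 0, 0, 0, 0, 0, 0, 2816, 0, 0, 0],
    [0, 0, 0, 0, 0, 0, -251488, 345336, 0, 0, 0],
    [-5559808, 0, 0, 0, 0, 0, 0, 365048, -225280, 0, 0],
    [0, 0, 0, 0, 0, 0, -251488, 331256, 0, 0, -9184],
    [-5559808, 0, 0, 0, 0, 0, 0, 350968, -225280, 0, 0],
    [0, 0, 0, 0, 0, 0, 0, -2816, 0, 0, -9184]]]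

theorem pmBelowL_nonneg {x y z : ℝ} (x0 : 0 ≤ x) (x1 : x ≤ 1) (y0 : 0 ≤ y) (y1 : y ≤ 1) (z0 : 0 ≤ z) (z1 : z ≤ 1) :
    0 ≤ Coef.val pmBelowL [x, y, z] := by
  exact box_seg (0) (1) (1) (0) (1) (1) (0) (1) (1) (l := pmBelowL) (by decide +kernel) (by norm_num)
    (by push_cast; linarith) (by push_cast; linarith) (by push_cast; linarith) (by push_cast; linarith) (by push_cast; linarith) (by push_cast; linarith)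

/-- The chord polynomial with fixed signs. -/
def pmIslandL : List (List (List ℤ)) :=
  [[[0, 0, 0, 80640, 0, 976080, -1484160, 710640, 0, 0, 18368],
    [0, 0, 0, 0, -1419600, 1780992, -1309560, 1056576, -507600, 0, 0],
    [0, 0, 0, 316512, 0, -790400, 624592, -203040, 0, 0, -9184],
    [0, 0, 0, 0, 838320, -1038912, 678600, -517024, 253800, 0, 0],
    [0, 0, 0, -178416, 0, 151180, 58744, -76140, 0, 0, 0],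
    [0, 0, 0, 0, -32130, 37104, -5955, -2816, 0, 0, 0],
    [0, 0, 0, 0, 0, 0, 0, 0, 0, 0, 0],
    [0, 0, 0, 0, 0, 0, 0, 0, 0, 0, 0],
    [0, 0, 0, 0, 0, 0, 0, 0, 0, 0, 0],
    [0, 0, 0, 0, 0, 0, 0, 0, 0, 0, 0],
    [0, 0, 0, 0, 0, 0, 0, 0, 0, 0, 0],
    [0, 0, 0, 0, 0, 0, 0, 0, 0, 0, 0]],
   [[0, 0, 0, 0, -905520, 1187328, -1214280, 1101632, -507600, 0, 0],
    [0, -967680, 0, 0, 0, 5140800, -5936640, 952800, 450560, 0, 0],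
    [645120, 0, 0, 0, -2093840, 1038912, 1973560, -1258384, 253800, 0, 0],
    [0, 483840, 0, 0, 0, -2570400, 2968320, -476400, -225280, 0, 0],
    [2517760, 0, 0, 0, 1241170, -779184, -689165, 350968, 0, 0, 0],
    [-9498624, 0, 0, 0, 0, 0, 0, 0, 0, 0, 0],
    [5523840, 0, 0, 0, 0, 0, 0, 0, 0, 0, 0],
    [20957184, 0, 0, 0, 0, 0, 0, 0, 0, 0, 0],
    [-30846080, 0, 0, 0, 0, 0, 0, 0, 0, 0, 0],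
    [3015680, 0, 0, 0, 0, 0, 0, 0, 0, 0, 0],
    [13687040, 0, 0, 0, 0, 0, 0, 0, 0, 0, 0],
    [-5559808, 0, 0, 0, 0, 0, 0, 0, 0, 0, 0]],
   [[0, 0, 0, 316512, 0, -790400, 624592, -203040, 0, 0, -9184],
    [645120, 0, 0, 0, -1579760, 445248, 2068840, -1213328, 253800, 0, 0],
    [0, 0, 0, 869344, 0, -1278440, 620464, -152280, 0, 0, 0],
    [-322560, 0, 0, 0, 1016260, -519456, -730850, 331256, 0, 0, 0],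
    [0, 0, 0, -613088, 0, 790400, -251488, 0, 0, 0, 0],
    [0, 0, 0, 0, 0, 0, 0, 0, 0, 0, 0],
    [0, 0, 0, 0, 0, 0, 0, 0, 0, 0, 0],
    [0, 0, 0, 0, 0, 0, 0, 0, 0, 0, 0],
    [0, 0, 0, 0, 0, 0, 0, 0, 0, 0, 0],
    [0, 0, 0, 0, 0, 0, 0, 0, 0, 0, 0],
    [0, 0, 0, 0, 0, 0, 0, 0, 0, 0, 0],
    [0, 0, 0, 0, 0, 0, 0, 0, 0, 0, 0]],
   [[0, 0, 0, 0, 324240, -445248, 583320, -562080, 253800, 0, 0],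
    [0, 483840, 0, 0, 0, -2570400, 2968320, -476400, -225280, 0, 0],
    [-322560, 0, 0, 0, 1401820, -964704, -659390, 365048, 0, 0, 0],
    [0, 0, 0, 0, 0, 0, 0, 0, 0, 0, 0],
    [-1420160, 0, 0, 0, 0, 0, 0, 0, 0, 0, 0],
    [4749312, 0, 0, 0, 0, 0, 0, 0, 0, 0, 0],
    [-3472000, 0, 0, 0, 0, 0, 0, 0, 0, 0, 0],
    [-8103936, 0, 0, 0, 0, 0, 0, 0, 0, 0, 0],
    [13687040, 0, 0, 0, 0, 0, 0, 0, 0, 0, 0],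
    [-5559808, 0, 0, 0, 0, 0, 0, 0, 0, 0, 0],
    [0, 0, 0, 0, 0, 0, 0, 0, 0, 0, 0],
    [0, 0, 0, 0, 0, 0, 0, 0, 0, 0, 0]],
   [[0, 0, 0, -178416, 0, 151180, 58744, -76140, 0, 0, 0],
    [2517760, 0, 0, 0, 1176910, -704976, -701075, 345336, 0, 0, 0],
    [0, 0, 0, -613088, 0, 790400, -251488, 0, 0, 0, 0],
    [-1420160, 0, 0, 0, 0, 0, 0, 0, 0, 0, 0],
    [0, 0, 0, 0, 0, 0, 0, 0, 0, 0, 0],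
    [0, 0, 0, 0, 0, 0, 0, 0, 0, 0, 0],
    [0, 0, 0, 0, 0, 0, 0, 0, 0, 0, 0],
    [0, 0, 0, 0, 0, 0, 0, 0, 0, 0, 0],
    [0, 0, 0, 0, 0, 0, 0, 0, 0, 0, 0],
    [0, 0, 0, 0, 0, 0, 0, 0, 0, 0, 0],
    [0, 0, 0, 0, 0, 0, 0, 0, 0, 0, 0],
    [0, 0, 0, 0, 0, 0, 0, 0, 0, 0, 0]],
   [[0, 0, 0, 0, 32130, -37104, 5955, 2816, 0, 0, 0],
    [-9498624, 0, 0, 0, 0, 0, 0, 0, 0, 0, 0],
    [0, 0, 0, 0, 0, 0, 0, 0, 0, 0, 0],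
    [4749312, 0, 0, 0, 0, 0, 0, 0, 0, 0, 0],
    [0, 0, 0, 0, 0, 0, 0, 0, 0, 0, 0],
    [0, 0, 0, 0, 0, 0, 0, 0, 0, 0, 0],
    [0, 0, 0, 0, 0, 0, 0, 0, 0, 0, 0],
    [0, 0, 0, 0, 0, 0, 0, 0, 0, 0, 0],
    [0, 0, 0, 0, 0, 0, 0, 0, 0, 0, 0],
    [0, 0, 0, 0, 0, 0, 0, 0, 0, 0, 0],
    [0, 0, 0, 0, 0, 0, 0, 0, 0, 0, 0],
    [0, 0, 0, 0, 0, 0, 0, 0, 0, 0, 0]],
   [[0, 0, 0, 0, 0, 0, 0, 0, 0, 0, 0],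
    [5523840, 0, 0, 0, 0, 0, 0, 0, 0, 0, 0],
    [0, 0, 0, 0, 0, 0, 0, 0, 0, 0, 0],
    [-3472000, 0, 0, 0, 0, 0, 0, 0, 0, 0, 0],
    [0, 0, 0, 0, 0, 0, 0, 0, 0, 0, 0],
    [0, 0, 0, 0, 0, 0, 0, 0, 0, 0, 0],
    [0, 0, 0, 0, 0, 0, 0, 0, 0, 0, 0],
    [0, 0, 0, 0, 0, 0, 0, 0, 0, 0, 0],
    [0, 0, 0, 0, 0, 0, 0, 0, 0, 0, 0],
    [0, 0, 0, 0, 0, 0, 0, 0, 0, 0, 0],
    [0, 0, 0, 0, 0, 0, 0, 0, 0, 0, 0],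
    [0, 0, 0, 0, 0, 0, 0, 0, 0, 0, 0]],
   [[0, 0, 0, 0, 0, 0, 0, 0, 0, 0, 0],
    [20957184, 0, 0, 0, 0, 0, 0, 0, 0, 0, 0],
    [0, 0, 0, 0, 0, 0, 0, 0, 0, 0, 0],
    [-8103936, 0, 0, 0, 0, 0, 0, 0, 0, 0, 0],
    [0, 0, 0, 0, 0, 0, 0, 0, 0, 0, 0],
    [0, 0, 0, 0, 0, 0, 0, 0, 0, 0, 0],
    [0, 0, 0, 0, 0, 0, 0, 0, 0, 0, 0],
    [0, 0, 0, 0, 0, 0, 0, 0, 0, 0, 0],
    [0, 0, 0, 0, 0, 0, 0, 0, 0, 0, 0],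
    [0, 0, 0, 0, 0, 0, 0, 0, 0, 0, 0],
    [0, 0, 0, 0, 0, 0, 0, 0, 0, 0, 0],
    [0, 0, 0, 0, 0, 0, 0, 0, 0, 0, 0]],
   [[0, 0, 0, 0, 0, 0, 0, 0, 0, 0, 0],
    [-30846080, 0, 0, 0, 0, 0, 0, 0, 0, 0, 0],
    [0, 0, 0, 0, 0, 0, 0, 0, 0, 0, 0],
    [13687040, 0, 0, 0, 0, 0, 0, 0, 0, 0, 0],
    [0, 0, 0, 0, 0, 0, 0, 0, 0, 0, 0],
    [0, 0, 0, 0, 0, 0, 0, 0, 0, 0, 0],
    [0, 0, 0, 0, 0, 0, 0, 0, 0, 0, 0],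
    [0, 0, 0, 0, 0, 0, 0, 0, 0, 0, 0],
    [0, 0, 0, 0, 0, 0, 0, 0, 0, 0, 0],
    [0, 0, 0, 0, 0, 0, 0, 0, 0, 0, 0],
    [0, 0, 0, 0, 0, 0, 0, 0, 0, 0, 0],
    [0, 0, 0, 0, 0, 0, 0, 0, 0, 0, 0]],
   [[0, 0, 0, 0, 0, 0, 0, 0, 0, 0, 0],
    [3015680, 0, 0, 0, 0, 0, 0, 0, 0, 0, 0],
    [0, 0, 0, 0, 0, 0, 0, 0, 0, 0, 0],
    [-5559808, 0, 0, 0, 0, 0, 0, 0, 0, 0, 0],
    [0, 0, 0, 0, 0, 0, 0, 0, 0, 0, 0],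
    [0, 0, 0, 0, 0, 0, 0, 0, 0, 0, 0],
    [0, 0, 0, 0, 0, 0, 0, 0, 0, 0, 0],
    [0, 0, 0, 0, 0, 0, 0, 0, 0, 0, 0],
    [0, 0, 0, 0, 0, 0, 0, 0, 0, 0, 0],
    [0, 0, 0, 0, 0, 0, 0, 0, 0, 0, 0],
    [0, 0, 0, 0, 0, 0, 0, 0, 0, 0, 0],
    [0, 0, 0, 0, 0, 0, 0, 0, 0, 0, 0]],
   [[0, 0, 0, 0, 0, 0, 0, 0, 0, 0, 0],
    [13687040, 0, 0, 0, 0, 0, 0, 0, 0, 0, 0],
    [0, 0, 0, 0, 0, 0, 0, 0, 0, 0, 0],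
    [0, 0, 0, 0, 0, 0, 0, 0, 0, 0, 0],
    [0, 0, 0, 0, 0, 0, 0, 0, 0, 0, 0],
    [0, 0, 0, 0, 0, 0, 0, 0, 0, 0, 0],
    [0, 0, 0, 0, 0, 0, 0, 0, 0, 0, 0],
    [0, 0, 0, 0, 0, 0, 0, 0, 0, 0, 0],
    [0, 0, 0, 0, 0, 0, 0, 0, 0, 0, 0],
    [0, 0, 0, 0, 0, 0, 0, 0, 0, 0, 0],
    [0, 0, 0, 0, 0, 0, 0, 0, 0, 0, 0],
    [0, 0, 0, 0, 0, 0, 0, 0, 0, 0, 0]],
   [[0, 0, 0, 0, 0, 0, 0, 0, 0, 0, 0],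
    [-5559808, 0, 0, 0, 0, 0, 0, 0, 0, 0, 0],
    [0, 0, 0, 0, 0, 0, 0, 0, 0, 0, 0],
    [0, 0, 0, 0, 0, 0, 0, 0, 0, 0, 0],
    [0, 0, 0, 0, 0, 0, 0, 0, 0, 0, 0],
    [0, 0, 0, 0, 0, 0, 0, 0, 0, 0, 0],
    [0, 0, 0, 0, 0, 0, 0, 0, 0, 0, 0],
    [0, 0, 0, 0, 0, 0, 0, 0, 0, 0, 0],
    [0, 0, 0, 0, 0, 0, 0, 0, 0, 0, 0],
    [0, 0, 0, 0, 0, 0, 0, 0, 0, 0, 0],
    [0, 0, 0, 0, 0, 0, 0, 0, 0, 0, 0],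
    [0, 0, 0, 0, 0, 0, 0, 0, 0, 0, 0]]]

theorem pmIslandL_nonneg {x y z : ℝ} (x0 : 0 ≤ x) (x1 : x ≤ 1) (y0 : 0 ≤ y) (y1 : y ≤ 1 / 8) (z0 : 5 / 4 ≤ z) (z1 : z ≤ 2) :
    0 ≤ Coef.val pmIslandL [x, y, z] := by
  exact box_seg (0) (1) (1) (0) (1) (8) (5) (8) (4) (l := pmIslandL) (by decide +kernel) (by norm_num)
    (by push_cast; linarith) (by push_cast; linarith) (by push_cast; linarith) (by push_cast; linarith) (by push_cast; linarith) (by push_cast; linarith)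

end

end Vale.Agent.P219.Aff.Eleven
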