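import Vale.Agent.P219.Aff.Ten.Box

/-!
# Checked coefficient lists in dimension eleven: sign lemmas and edges
-/

namespace Vale.Agent.P219.Aff.Eleven

open Vale.Agent.P219.Aff.Nine
open Vale.Agent.P219.Aff.Ten (box_seg box_tail)

noncomputable section

/-- The numerator of the multiplier. -/
def etaL : List (List (List ℤ)) :=
  [[[1680, 0, 12201, -15460, 6345]],
   [[0, -32130, 37104, -5955, -2816]],
   [[10948, 0, -19760, 7859, 0]]]

theorem etaL_part0 {x y z : ℝ} (x0 : -1 ≤ x) (x1 : x ≤ 0) (y0 : 0 ≤ y) (y1 : y ≤ 1) (z0 : 0 ≤ z) (z1 : z ≤ 1) :
    0 ≤ Coef.val etaL [x, y, z] := by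
  exact box_seg (-1) (0) (1) (0) (1) (1) (0) (1) (1) (l := etaL) (by decide +kernel) (by norm_num)
    (by push_cast; linarith) (by push_cast; linarith) (by push_cast; linarith) (by push_cast; linarith) (by push_cast; linarith) (by push_cast; linarith)

theorem etaL_part1 {x y z : ℝ} (x0 : 0 ≤ x) (x1 : x ≤ 1 / 2) (y0 : 0 ≤ y) (y1 : y ≤ 1) (z0 : 0 ≤ z) (z1 : z ≤ 1) :
    0 ≤ Coef.val etaL [x, y, z] := by
  rcases le_total y (1 / 2 : ℝ) with h | h
  ·
    rcases le_total z (1 / 2 : ℝ) with h | h
    ·
      exact box_seg (0) (1) (2) (0) (1) (2) (0) (1) (2) (l := etaL) (by decide +kernel) (by norm_num)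
        (by push_cast; linarith) (by push_cast; linarith) (by push_cast; linarith) (by push_cast; linarith) (by push_cast; linarith) (by push_cast; linarith)
    ·
      exact box_seg (0) (1) (2) (0) (1) (2) (1) (2) (2) (l := etaL) (by decide +kernel) (by norm_num)
        (by push_cast; linarith) (by push_cast; linarith) (by push_cast; linarith) (by push_cast; linarith) (by push_cast; linarith) (by push_cast; linarith)
  ·
    rcases le_total z (1 / 2 : ℝ) with h | h
    ·
      exact box_seg (0) (1) (2) (1) (2) (2) (0) (1) (2) (l := etaL) (by decide +kernel) (by norm_num)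
        (by push_cast; linarith) (by push_cast; linarith) (by push_cast; linarith) (by push_cast; linarith) (by push_cast; linarith) (by push_cast; linarith)
    ·
      exact box_seg (0) (1) (2) (1) (2) (2) (1) (2) (2) (l := etaL) (by decide +kernel) (by norm_num)
        (by push_cast; linarith) (by push_cast; linarith) (by push_cast; linarith) (by push_cast; linarith) (by push_cast; linarith) (by push_cast; linarith)

theorem etaL_part2 {x y z : ℝ} (x0 : 1 / 2 ≤ x) (x1 : x ≤ 1) (y0 : 0 ≤ y) (y1 : y ≤ 1 / 2) (z0 : 0 ≤ z) (z1 : z ≤ 1 / 2) :
    0 ≤ Coef.val etaL [x, y, z] := by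
  exact box_seg (1) (2) (2) (0) (1) (2) (0) (1) (2) (l := etaL) (by decide +kernel) (by norm_num)
    (by push_cast; linarith) (by push_cast; linarith) (by push_cast; linarith) (by push_cast; linarith) (by push_cast; linarith) (by push_cast; linarith)

theorem etaL_part3 {x y z : ℝ} (x0 : 1 / 2 ≤ x) (x1 : x ≤ 3 / 4) (y0 : 0 ≤ y) (y1 : y ≤ 1 / 2) (z0 : 1 / 2 ≤ z) (z1 : z ≤ 1) :
    0 ≤ Coef.val etaL [x, y, z] := by
  exact box_seg (2) (3) (4) (0) (1) (2) (1) (2) (2) (l := etaL) (by decide +kernel) (by norm_num)
    (by push_cast; linarith) (by push_cast; linarith) (by push_cast; linarith) (by push_cast; linarith) (by push_cast; linarith) (by push_cast; linarith)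

theorem etaL_part4 {x y z : ℝ} (x0 : 3 / 4 ≤ x) (x1 : x ≤ 1) (y0 : 0 ≤ y) (y1 : y ≤ 1 / 4) (z0 : 1 / 2 ≤ z) (z1 : z ≤ 1) :
    0 ≤ Coef.val etaL [x, y, z] := by
  rcases le_total z (3 / 4 : ℝ) with h | h
  ·
    exact box_seg (3) (4) (4) (0) (1) (4) (2) (3) (4) (l := etaL) (by decide +kernel) (by norm_num)
      (by push_cast; linarith) (by push_cast; linarith) (by push_cast; linarith) (by push_cast; linarith) (by push_cast; linarith) (by push_cast; linarith)
  ·
    rcases le_total x (7 / 8 : ℝ) with h | h
    ·
      exact box_seg (6) (7) (8) (0) (1) (4) (3) (4) (4) (l := etaL) (by decide +kernel) (by norm_num)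
        (by push_cast; linarith) (by push_cast; linarith) (by push_cast; linarith) (by push_cast; linarith) (by push_cast; linarith) (by push_cast; linarith)
    ·
      rcases le_total y (1 / 8 : ℝ) with h | h
      ·
        rcases le_total z (7 / 8 : ℝ) with h | h
        ·
          exact box_seg (7) (8) (8) (0) (1) (8) (6) (7) (8) (l := etaL) (by decide +kernel) (by norm_num)
            (by push_cast; linarith) (by push_cast; linarith) (by push_cast; linarith) (by push_cast; linarith) (by push_cast; linarith) (by push_cast; linarith)
        ·
          exact box_seg (7) (8) (8) (0) (1) (8) (7) (8) (8) (l := etaL) (by decide +kernel) (by norm_num)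
            (by push_cast; linarith) (by push_cast; linarith) (by push_cast; linarith) (by push_cast; linarith) (by push_cast; linarith) (by push_cast; linarith)
      ·
        rcases le_total z (7 / 8 : ℝ) with h | h
        ·
          exact box_seg (7) (8) (8) (1) (2) (8) (6) (7) (8) (l := etaL) (by decide +kernel) (by norm_num)
            (by push_cast; linarith) (by push_cast; linarith) (by push_cast; linarith) (by push_cast; linarith) (by push_cast; linarith) (by push_cast; linarith)
        ·
          exact box_seg (7) (8) (8) (1) (2) (8) (7) (8) (8) (l := etaL) (by decide +kernel) (by norm_num)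
            (by push_cast; linarith) (by push_cast; linarith) (by push_cast; linarith) (by push_cast; linarith) (by push_cast; linarith) (by push_cast; linarith)

theorem etaL_part5 {x y z : ℝ} (x0 : 3 / 4 ≤ x) (x1 : x ≤ 1) (y0 : 1 / 4 ≤ y) (y1 : y ≤ 1 / 2) (z0 : 1 / 2 ≤ z) (z1 : z ≤ 1) :
    0 ≤ Coef.val etaL [x, y, z] := by
  rcases le_total z (3 / 4 : ℝ) with h | h
  ·
    exact box_seg (3) (4) (4) (1) (2) (4) (2) (3) (4) (l := etaL) (by decide +kernel) (by norm_num)
      (by push_cast; linarith) (by push_cast; linarith) (by push_cast; linarith) (by push_cast; linarith) (by push_cast; linarith) (by push_cast; linarith)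
  ·
    rcases le_total x (7 / 8 : ℝ) with h | h
    ·
      exact box_seg (6) (7) (8) (1) (2) (4) (3) (4) (4) (l := etaL) (by decide +kernel) (by norm_num)
        (by push_cast; linarith) (by push_cast; linarith) (by push_cast; linarith) (by push_cast; linarith) (by push_cast; linarith) (by push_cast; linarith)
    ·
      rcases le_total y (3 / 8 : ℝ) with h | h
      ·
        rcases le_total z (7 / 8 : ℝ) with h | h
        ·
          exact box_seg (7) (8) (8) (2) (3) (8) (6) (7) (8) (l := etaL) (by decide +kernel) (by norm_num)
            (by push_cast; linarith) (by push_cast; linarith) (by push_cast; linarith) (by push_cast; linarith) (by push_cast; linarith) (by push_cast; linarith)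
        ·
          exact box_seg (7) (8) (8) (2) (3) (8) (7) (8) (8) (l := etaL) (by decide +kernel) (by norm_num)
            (by push_cast; linarith) (by push_cast; linarith) (by push_cast; linarith) (by push_cast; linarith) (by push_cast; linarith) (by push_cast; linarith)
      ·
        rcases le_total z (7 / 8 : ℝ) with h | h
        ·
          exact box_seg (7) (8) (8) (3) (4) (8) (6) (7) (8) (l := etaL) (by decide +kernel) (by norm_num)
            (by push_cast; linarith) (by push_cast; linarith) (by push_cast; linarith) (by push_cast; linarith) (by push_cast; linarith) (by push_cast; linarith)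
        ·
          exact box_seg (7) (8) (8) (3) (4) (8) (7) (8) (8) (l := etaL) (by decide +kernel) (by norm_num)
            (by push_cast; linarith) (by push_cast; linarith) (by push_cast; linarith) (by push_cast; linarith) (by push_cast; linarith) (by push_cast; linarith)

theorem etaL_part6 {x y z : ℝ} (x0 : 1 / 2 ≤ x) (x1 : x ≤ 1) (y0 : 1 / 2 ≤ y) (y1 : y ≤ 1) (z0 : 0 ≤ z) (z1 : z ≤ 1 / 2) :
    0 ≤ Coef.val etaL [x, y, z] := by
  exact box_seg (1) (2) (2) (1) (2) (2) (0) (1) (2) (l := etaL) (by decide +kernel) (by norm_num)
    (by push_cast; linarith) (by push_cast; linarith) (by push_cast; linarith) (by push_cast; linarith) (by push_cast; linarith) (by push_cast; linarith)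

theorem etaL_part7 {x y z : ℝ} (x0 : 1 / 2 ≤ x) (x1 : x ≤ 3 / 4) (y0 : 1 / 2 ≤ y) (y1 : y ≤ 1) (z0 : 1 / 2 ≤ z) (z1 : z ≤ 1) :
    0 ≤ Coef.val etaL [x, y, z] := by
  exact box_seg (2) (3) (4) (1) (2) (2) (1) (2) (2) (l := etaL) (by decide +kernel) (by norm_num)
    (by push_cast; linarith) (by push_cast; linarith) (by push_cast; linarith) (by push_cast; linarith) (by push_cast; linarith) (by push_cast; linarith)

theorem etaL_part8 {x y z : ℝ} (x0 : 3 / 4 ≤ x) (x1 : x ≤ 1) (y0 : 1 / 2 ≤ y) (y1 : y ≤ 3 / 4) (z0 : 1 / 2 ≤ z) (z1 : z ≤ 1) :
    0 ≤ Coef.val etaL [x, y, z] := by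
  rcases le_total z (3 / 4 : ℝ) with h | h
  ·
    exact box_seg (3) (4) (4) (2) (3) (4) (2) (3) (4) (l := etaL) (by decide +kernel) (by norm_num)
      (by push_cast; linarith) (by push_cast; linarith) (by push_cast; linarith) (by push_cast; linarith) (by push_cast; linarith) (by push_cast; linarith)
  ·
    rcases le_total x (7 / 8 : ℝ) with h | h
    ·
      exact box_seg (6) (7) (8) (2) (3) (4) (3) (4) (4) (l := etaL) (by decide +kernel) (by norm_num)
        (by push_cast; linarith) (by push_cast; linarith) (by push_cast; linarith) (by push_cast; linarith) (by push_cast; linarith) (by push_cast; linarith)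
    ·
      rcases le_total y (5 / 8 : ℝ) with h | h
      ·
        rcases le_total z (7 / 8 : ℝ) with h | h
        ·
          exact box_seg (7) (8) (8) (4) (5) (8) (6) (7) (8) (l := etaL) (by decide +kernel) (by norm_num)
            (by push_cast; linarith) (by push_cast; linarith) (by push_cast; linarith) (by push_cast; linarith) (by push_cast; linarith) (by push_cast; linarith)
        ·
          exact box_seg (7) (8) (8) (4) (5) (8) (7) (8) (8) (l := etaL) (by decide +kernel) (by norm_num)
            (by push_cast; linarith) (by push_cast; linarith) (by push_cast; linarith) (by push_cast; linarith) (by push_cast; linarith) (by push_cast; linarith)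
      ·
        rcases le_total z (7 / 8 : ℝ) with h | h
        ·
          exact box_seg (7) (8) (8) (5) (6) (8) (6) (7) (8) (l := etaL) (by decide +kernel) (by norm_num)
            (by push_cast; linarith) (by push_cast; linarith) (by push_cast; linarith) (by push_cast; linarith) (by push_cast; linarith) (by push_cast; linarith)
        ·
          exact box_seg (7) (8) (8) (5) (6) (8) (7) (8) (8) (l := etaL) (by decide +kernel) (by norm_num)
            (by push_cast; linarith) (by push_cast; linarith) (by push_cast; linarith) (by push_cast; linarith) (by push_cast; linarith) (by push_cast; linarith)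

theorem etaL_part9 {x y z : ℝ} (x0 : 3 / 4 ≤ x) (x1 : x ≤ 1) (y0 : 3 / 4 ≤ y) (y1 : y ≤ 1) (z0 : 1 / 2 ≤ z) (z1 : z ≤ 1) :
    0 ≤ Coef.val etaL [x, y, z] := by
  rcases le_total z (3 / 4 : ℝ) with h | h
  ·
    exact box_seg (3) (4) (4) (3) (4) (4) (2) (3) (4) (l := etaL) (by decide +kernel) (by norm_num)
      (by push_cast; linarith) (by push_cast; linarith) (by push_cast; linarith) (by push_cast; linarith) (by push_cast; linarith) (by push_cast; linarith)
  ·
    rcases le_total x (7 / 8 : ℝ) with h | h
    ·
      exact box_seg (6) (7) (8) (3) (4) (4) (3) (4) (4) (l := etaL) (by decide +kernel) (by norm_num)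
        (by push_cast; linarith) (by push_cast; linarith) (by push_cast; linarith) (by push_cast; linarith) (by push_cast; linarith) (by push_cast; linarith)
    ·
      rcases le_total y (7 / 8 : ℝ) with h | h
      ·
        rcases le_total z (7 / 8 : ℝ) with h | h
        ·
          exact box_seg (7) (8) (8) (6) (7) (8) (6) (7) (8) (l := etaL) (by decide +kernel) (by norm_num)
            (by push_cast; linarith) (by push_cast; linarith) (by push_cast; linarith) (by push_cast; linarith) (by push_cast; linarith) (by push_cast; linarith)
        ·
          exact box_seg (7) (8) (8) (6) (7) (8) (7) (8) (8) (l := etaL) (by decide +kernel) (by norm_num)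
            (by push_cast; linarith) (by push_cast; linarith) (by push_cast; linarith) (by push_cast; linarith) (by push_cast; linarith) (by push_cast; linarith)
      ·
        rcases le_total z (7 / 8 : ℝ) with h | h
        ·
          exact box_seg (7) (8) (8) (7) (8) (8) (6) (7) (8) (l := etaL) (by decide +kernel) (by norm_num)
            (by push_cast; linarith) (by push_cast; linarith) (by push_cast; linarith) (by push_cast; linarith) (by push_cast; linarith) (by push_cast; linarith)
        ·
          exact box_seg (7) (8) (8) (7) (8) (8) (7) (8) (8) (l := etaL) (by decide +kernel) (by norm_num)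
            (by push_cast; linarith) (by push_cast; linarith) (by push_cast; linarith) (by push_cast; linarith) (by push_cast; linarith) (by push_cast; linarith)

theorem etaL_part10 {x y z : ℝ} (x0 : -1 ≤ x) (x1 : x ≤ -1 / 2) (y0 : 0 ≤ y) (y1 : y ≤ 1 / 2) (z0 : 1 ≤ z) (z1 : z ≤ 2) :
    0 ≤ Coef.val etaL [x, y, z] := by
  rcases le_total z (3 / 2 : ℝ) with h | h
  ·
    rcases le_total x (-3 / 4 : ℝ) with h | h
    ·
      rcases le_total y (1 / 4 : ℝ) with h | h
      ·
        rcases le_total z (5 / 4 : ℝ) with h | h
        ·
          exact box_seg (-4) (-3) (4) (0) (1) (4) (4) (5) (4) (l := etaL) (by decide +kernel) (by norm_num)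
            (by push_cast; linarith) (by push_cast; linarith) (by push_cast; linarith) (by push_cast; linarith) (by push_cast; linarith) (by push_cast; linarith)
        ·
          exact box_seg (-4) (-3) (4) (0) (1) (4) (5) (6) (4) (l := etaL) (by decide +kernel) (by norm_num)
            (by push_cast; linarith) (by push_cast; linarith) (by push_cast; linarith) (by push_cast; linarith) (by push_cast; linarith) (by push_cast; linarith)
      ·
        rcases le_total z (5 / 4 : ℝ) with h | h
        ·
          exact box_seg (-4) (-3) (4) (1) (2) (4) (4) (5) (4) (l := etaL) (by decide +kernel) (by norm_num)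
            (by push_cast; linarith) (by push_cast; linarith) (by push_cast; linarith) (by push_cast; linarith) (by push_cast; linarith) (by push_cast; linarith)
        ·
          exact box_seg (-4) (-3) (4) (1) (2) (4) (5) (6) (4) (l := etaL) (by decide +kernel) (by norm_num)
            (by push_cast; linarith) (by push_cast; linarith) (by push_cast; linarith) (by push_cast; linarith) (by push_cast; linarith) (by push_cast; linarith)
    ·
      exact box_seg (-3) (-2) (4) (0) (1) (2) (2) (3) (2) (l := etaL) (by decide +kernel) (by norm_num)
        (by push_cast; linarith) (by push_cast; linarith) (by push_cast; linarith) (by push_cast; linarith) (by push_cast; linarith) (by push_cast; linarith)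
  ·
    exact box_seg (-2) (-1) (2) (0) (1) (2) (3) (4) (2) (l := etaL) (by decide +kernel) (by norm_num)
      (by push_cast; linarith) (by push_cast; linarith) (by push_cast; linarith) (by push_cast; linarith) (by push_cast; linarith) (by push_cast; linarith)

theorem etaL_part11 {x y z : ℝ} (x0 : -1 ≤ x) (x1 : x ≤ -1 / 2) (y0 : 1 / 2 ≤ y) (y1 : y ≤ 1) (z0 : 1 ≤ z) (z1 : z ≤ 2) :
    0 ≤ Coef.val etaL [x, y, z] := by
  rcases le_total z (3 / 2 : ℝ) with h | h
  ·
    rcases le_total x (-3 / 4 : ℝ) with h | h
    ·
      rcases le_total y (3 / 4 : ℝ) with h | h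
      ·
        rcases le_total z (5 / 4 : ℝ) with h | h
        ·
          exact box_seg (-4) (-3) (4) (2) (3) (4) (4) (5) (4) (l := etaL) (by decide +kernel) (by norm_num)
            (by push_cast; linarith) (by push_cast; linarith) (by push_cast; linarith) (by push_cast; linarith) (by push_cast; linarith) (by push_cast; linarith)
        ·
          exact box_seg (-4) (-3) (4) (2) (3) (4) (5) (6) (4) (l := etaL) (by decide +kernel) (by norm_num)
            (by push_cast; linarith) (by push_cast; linarith) (by push_cast; linarith) (by push_cast; linarith) (by push_cast; linarith) (by push_cast; linarith)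
      ·
        rcases le_total z (5 / 4 : ℝ) with h | h
        ·
          exact box_seg (-4) (-3) (4) (3) (4) (4) (4) (5) (4) (l := etaL) (by decide +kernel) (by norm_num)
            (by push_cast; linarith) (by push_cast; linarith) (by push_cast; linarith) (by push_cast; linarith) (by push_cast; linarith) (by push_cast; linarith)
        ·
          exact box_seg (-4) (-3) (4) (3) (4) (4) (5) (6) (4) (l := etaL) (by decide +kernel) (by norm_num)
            (by push_cast; linarith) (by push_cast; linarith) (by push_cast; linarith) (by push_cast; linarith) (by push_cast; linarith) (by push_cast; linarith)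
    ·
      exact box_seg (-3) (-2) (4) (1) (2) (2) (2) (3) (2) (l := etaL) (by decide +kernel) (by norm_num)
        (by push_cast; linarith) (by push_cast; linarith) (by push_cast; linarith) (by push_cast; linarith) (by push_cast; linarith) (by push_cast; linarith)
  ·
    exact box_seg (-2) (-1) (2) (1) (2) (2) (3) (4) (2) (l := etaL) (by decide +kernel) (by norm_num)
      (by push_cast; linarith) (by push_cast; linarith) (by push_cast; linarith) (by push_cast; linarith) (by push_cast; linarith) (by push_cast; linarith)

theorem etaL_part12 {x y z : ℝ} (x0 : -1 / 2 ≤ x) (x1 : x ≤ 0) (y0 : 0 ≤ y) (y1 : y ≤ 1) (z0 : 1 ≤ z) (z1 : z ≤ 2) :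
    0 ≤ Coef.val etaL [x, y, z] := by
  exact box_seg (-1) (0) (2) (0) (1) (1) (1) (2) (1) (l := etaL) (by decide +kernel) (by norm_num)
    (by push_cast; linarith) (by push_cast; linarith) (by push_cast; linarith) (by push_cast; linarith) (by push_cast; linarith) (by push_cast; linarith)

theorem etaL_part13 {x y z : ℝ} (x0 : 0 ≤ x) (x1 : x ≤ 1) (y0 : 0 ≤ y) (y1 : y ≤ 1) (z0 : 1 ≤ z) (z1 : z ≤ 2) :
    0 ≤ Coef.val etaL [x, y, z] := by
  exact box_seg (0) (1) (1) (0) (1) (1) (1) (2) (1) (l := etaL) (by decide +kernel) (by norm_num)
    (by push_cast; linarith) (by push_cast; linarith) (by push_cast; linarith) (by push_cast; linarith) (by push_cast; linarith) (by push_cast; linarith)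

theorem etaL_part14 {x y z : ℝ} (x0 : -1 ≤ x) (x1 : x ≤ 1) (y0 : 0 ≤ y) (y1 : y ≤ 1) (z0 : 2 ≤ z) :
    0 ≤ Coef.val etaL [x, y, z] := by
  exact box_tail (-1) (1) (1) (0) (1) (1) (2) (l := etaL) (by decide +kernel) (by norm_num)
    (by push_cast; linarith) (by push_cast; linarith) (by push_cast; linarith) (by push_cast; linarith) (by push_cast; linarith)

theorem etaL_nonneg {x y z : ℝ} (x0 : -1 ≤ x) (x1 : x ≤ 1) (y0 : 0 ≤ y) (y1 : y ≤ 1) (z0 : 0 ≤ z) :
    0 ≤ Coef.val etaL [x, y, z] := by
  rcases le_total z (1 : ℝ) with h | h
  ·
    rcases le_total x (0 : ℝ) with h | h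
    ·
      exact etaL_part0 (by linarith) (by linarith) (by linarith) (by linarith) (by linarith) (by linarith)
    ·
      rcases le_total x (1 / 2 : ℝ) with h | h
      ·
        exact etaL_part1 (by linarith) (by linarith) (by linarith) (by linarith) (by linarith) (by linarith)
      ·
        rcases le_total y (1 / 2 : ℝ) with h | h
        ·
          rcases le_total z (1 / 2 : ℝ) with h | h
          ·
            exact etaL_part2 (by linarith) (by linarith) (by linarith) (by linarith) (by linarith) (by linarith)
          ·
            rcases le_total x (3 / 4 : ℝ) with h | h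
            ·
              exact etaL_part3 (by linarith) (by linarith) (by linarith) (by linarith) (by linarith) (by linarith)
            ·
              rcases le_total y (1 / 4 : ℝ) with h | h
              ·
                exact etaL_part4 (by linarith) (by linarith) (by linarith) (by linarith) (by linarith) (by linarith)
              ·
                exact etaL_part5 (by linarith) (by linarith) (by linarith) (by linarith) (by linarith) (by linarith)
        ·
          rcases le_total z (1 / 2 : ℝ) with h | h
          ·
            exact etaL_part6 (by linarith) (by linarith) (by linarith) (by linarith) (by linarith) (by linarith)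
          ·
            rcases le_total x (3 / 4 : ℝ) with h | h
            ·
              exact etaL_part7 (by linarith) (by linarith) (by linarith) (by linarith) (by linarith) (by linarith)
            ·
              rcases le_total y (3 / 4 : ℝ) with h | h
              ·
                exact etaL_part8 (by linarith) (by linarith) (by linarith) (by linarith) (by linarith) (by linarith)
              ·
                exact etaL_part9 (by linarith) (by linarith) (by linarith) (by linarith) (by linarith) (by linarith)
  ·
    rcases le_total z (2 : ℝ) with h | h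
    ·
      rcases le_total x (0 : ℝ) with h | h
      ·
        rcases le_total x (-1 / 2 : ℝ) with h | h
        ·
          rcases le_total y (1 / 2 : ℝ) with h | h
          ·
            exact etaL_part10 (by linarith) (by linarith) (by linarith) (by linarith) (by linarith) (by linarith)
          ·
            exact etaL_part11 (by linarith) (by linarith) (by linarith) (by linarith) (by linarith) (by linarith)
        ·
          exact etaL_part12 (by linarith) (by linarith) (by linarith) (by linarith) (by linarith) (by linarith)
      ·
        exact etaL_part13 (by linarith) (by linarith) (by linarith) (by linarith) (by linarith) (by linarith)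
    ·
      exact etaL_part14 (by linarith) (by linarith) (by linarith) (by linarith) (by linarith)

/-- Four minus the derivative in the squared distance, scaled. -/
def slackL : List (List (List ℤ)) :=
  [[[11760, 0, 61005, -61840, 19035, 0, 0, 0, 0, 9184]],
   [[0, -224910, 222624, -29775, -11264, 0, 0, 0, 0, 0]],
   [[98532, 0, -138320, 47154, 0, 0, 0, 0, 0, 0]]]

theorem slackL_nonneg {x y z : ℝ} (x0 : -1 ≤ x) (x1 : x ≤ 1) (y0 : 0 ≤ y) (y1 : y ≤ 1) (z0 : 0 ≤ z) :
    0 ≤ Coef.val slackL [x, y, z] := by
  rcases le_total z (1 : ℝ) with h | h
  ·
    rcases le_total x (0 : ℝ) with h | h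
    ·
      exact box_seg (-1) (0) (1) (0) (1) (1) (0) (1) (1) (l := slackL) (by decide +kernel) (by norm_num)
        (by push_cast; linarith) (by push_cast; linarith) (by push_cast; linarith) (by push_cast; linarith) (by push_cast; linarith) (by push_cast; linarith)
    ·
      rcases le_total x (1 / 2 : ℝ) with h | h
      ·
        exact box_seg (0) (1) (2) (0) (1) (1) (0) (1) (1) (l := slackL) (by decide +kernel) (by norm_num)
          (by push_cast; linarith) (by push_cast; linarith) (by push_cast; linarith) (by push_cast; linarith) (by push_cast; linarith) (by push_cast; linarith)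
      ·
        rcases le_total y (1 / 2 : ℝ) with h | h
        ·
          rcases le_total z (1 / 2 : ℝ) with h | h
          ·
            exact box_seg (1) (2) (2) (0) (1) (2) (0) (1) (2) (l := slackL) (by decide +kernel) (by norm_num)
              (by push_cast; linarith) (by push_cast; linarith) (by push_cast; linarith) (by push_cast; linarith) (by push_cast; linarith) (by push_cast; linarith)
          ·
            exact box_seg (1) (2) (2) (0) (1) (2) (1) (2) (2) (l := slackL) (by decide +kernel) (by norm_num)
              (by push_cast; linarith) (by push_cast; linarith) (by push_cast; linarith) (by push_cast; linarith) (by push_cast; linarith) (by push_cast; linarith)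
        ·
          rcases le_total z (1 / 2 : ℝ) with h | h
          ·
            exact box_seg (1) (2) (2) (1) (2) (2) (0) (1) (2) (l := slackL) (by decide +kernel) (by norm_num)
              (by push_cast; linarith) (by push_cast; linarith) (by push_cast; linarith) (by push_cast; linarith) (by push_cast; linarith) (by push_cast; linarith)
          ·
            exact box_seg (1) (2) (2) (1) (2) (2) (1) (2) (2) (l := slackL) (by decide +kernel) (by norm_num)
              (by push_cast; linarith) (by push_cast; linarith) (by push_cast; linarith) (by push_cast; linarith) (by push_cast; linarith) (by push_cast; linarith)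
  ·
    rcases le_total z (2 : ℝ) with h | h
    ·
      exact box_seg (-1) (1) (1) (0) (1) (1) (1) (2) (1) (l := slackL) (by decide +kernel) (by norm_num)
        (by push_cast; linarith) (by push_cast; linarith) (by push_cast; linarith) (by push_cast; linarith) (by push_cast; linarith) (by push_cast; linarith)
    ·
      exact box_tail (-1) (1) (1) (0) (1) (1) (2) (l := slackL) (by decide +kernel) (by norm_num)
        (by push_cast; linarith) (by push_cast; linarith) (by push_cast; linarith) (by push_cast; linarith) (by push_cast; linarith)

/-- Minus the derivative in the far cosine along rays. -/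
def negRayL : List (List (List ℤ)) :=
  [[[32130, -37104, 5955, 2816]],
   [[-21896, 0, 39520, -15718]]]

theorem negRayL_nonneg {x y z : ℝ} (x0 : 0 ≤ x) (x1 : x ≤ 1) (y0 : 0 ≤ y) (y1 : y ≤ 1) (z0 : 0 ≤ z) (z1 : z ≤ 4 / 5) :
    0 ≤ Coef.val negRayL [x, y, z] := by
  exact box_seg (0) (1) (1) (0) (1) (1) (0) (4) (5) (l := negRayL) (by decide +kernel) (by norm_num)
    (by push_cast; linarith) (by push_cast; linarith) (by push_cast; linarith) (by push_cast; linarith) (by push_cast; linarith) (by push_cast; linarith)

/-- Minus the derivative in the far cosine. -/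
def negPL : List (List (List ℤ)) :=
  [[[0, 32130, -37104, 5955, 2816]],
   [[-21896, 0, 39520, -15718, 0]]]

theorem negPMidL_nonneg {x y z : ℝ} (x0 : 0 ≤ x) (x1 : x ≤ 1) (y0 : 0 ≤ y) (y1 : y ≤ 1) (z0 : 4 / 5 ≤ z) (z1 : z ≤ 5 / 4) :
    0 ≤ Coef.val negPL [x, y, z] := by
  exact box_seg (0) (1) (1) (0) (1) (1) (16) (25) (20) (l := negPL) (by decide +kernel) (by norm_num)
    (by push_cast; linarith) (by push_cast; linarith) (by push_cast; linarith) (by push_cast; linarith) (by push_cast; linarith) (by push_cast; linarith)

theorem negPIslL_nonneg {x y z : ℝ} (x0 : 1 / 8 ≤ x) (x1 : x ≤ 1) (y0 : 0 ≤ y) (y1 : y ≤ 1) (z0 : 5 / 4 ≤ z) (z1 : z ≤ 2) :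
    0 ≤ Coef.val negPL [x, y, z] := by
  rcases le_total y (1 / 2 : ℝ) with h | h
  ·
    rcases le_total x (9 / 16 : ℝ) with h | h
    ·
      rcases le_total z (13 / 8 : ℝ) with h | h
      ·
        exact box_seg (2) (9) (16) (0) (1) (2) (10) (13) (8) (l := negPL) (by decide +kernel) (by norm_num)
          (by push_cast; linarith) (by push_cast; linarith) (by push_cast; linarith) (by push_cast; linarith) (by push_cast; linarith) (by push_cast; linarith)
      ·
        exact box_seg (2) (9) (16) (0) (1) (2) (13) (16) (8) (l := negPL) (by decide +kernel) (by norm_num)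
          (by push_cast; linarith) (by push_cast; linarith) (by push_cast; linarith) (by push_cast; linarith) (by push_cast; linarith) (by push_cast; linarith)
    ·
      exact box_seg (9) (16) (16) (0) (1) (2) (5) (8) (4) (l := negPL) (by decide +kernel) (by norm_num)
        (by push_cast; linarith) (by push_cast; linarith) (by push_cast; linarith) (by push_cast; linarith) (by push_cast; linarith) (by push_cast; linarith)
  ·
    rcases le_total x (9 / 16 : ℝ) with h | h
    ·
      rcases le_total z (13 / 8 : ℝ) with h | h
      ·
        exact box_seg (2) (9) (16) (1) (2) (2) (10) (13) (8) (l := negPL) (by decide +kernel) (by norm_num)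
          (by push_cast; linarith) (by push_cast; linarith) (by push_cast; linarith) (by push_cast; linarith) (by push_cast; linarith) (by push_cast; linarith)
      ·
        exact box_seg (2) (9) (16) (1) (2) (2) (13) (16) (8) (l := negPL) (by decide +kernel) (by norm_num)
          (by push_cast; linarith) (by push_cast; linarith) (by push_cast; linarith) (by push_cast; linarith) (by push_cast; linarith) (by push_cast; linarith)
    ·
      exact box_seg (9) (16) (16) (1) (2) (2) (5) (8) (4) (l := negPL) (by decide +kernel) (by norm_num)
        (by push_cast; linarith) (by push_cast; linarith) (by push_cast; linarith) (by push_cast; linarith) (by push_cast; linarith) (by push_cast; linarith)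

theorem negPFarL_nonneg {x y z : ℝ} (x0 : 0 ≤ x) (x1 : x ≤ 1) (y0 : 0 ≤ y) (y1 : y ≤ 1) (z0 : 2 ≤ z) :
    0 ≤ Coef.val negPL [x, y, z] := by
  exact box_tail (0) (1) (1) (0) (1) (1) (2) (l := negPL) (by decide +kernel) (by norm_num)
    (by push_cast; linarith) (by push_cast; linarith) (by push_cast; linarith) (by push_cast; linarith) (by push_cast; linarith)

/-- The kernel at a corner. -/
def cornPPL : List (List (List ℤ)) :=
  [[[252560, -895160, 1233500, -862020, 341700, -70580, 0, 2296]]]

theorem cornPPL_part0 {x y z : ℝ} (x0 : 0 ≤ x) (x1 : x ≤ 1) (y0 : 0 ≤ y) (y1 : y ≤ 1) (z0 : 0 ≤ z) (z1 : z ≤ 1) :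
    0 ≤ Coef.val cornPPL [x, y, z] := by
  rcases le_total x (1 / 2 : ℝ) with h | h
  ·
    rcases le_total y (1 / 2 : ℝ) with h | h
    ·
      rcases le_total z (1 / 2 : ℝ) with h | h
      ·
        exact box_seg (0) (1) (2) (0) (1) (2) (0) (1) (2) (l := cornPPL) (by decide +kernel) (by norm_num)
          (by push_cast; linarith) (by push_cast; linarith) (by push_cast; linarith) (by push_cast; linarith) (by push_cast; linarith) (by push_cast; linarith)
      ·
        exact box_seg (0) (1) (2) (0) (1) (2) (1) (2) (2) (l := cornPPL) (by decide +kernel) (by norm_num)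
          (by push_cast; linarith) (by push_cast; linarith) (by push_cast; linarith) (by push_cast; linarith) (by push_cast; linarith) (by push_cast; linarith)
    ·
      rcases le_total z (1 / 2 : ℝ) with h | h
      ·
        exact box_seg (0) (1) (2) (1) (2) (2) (0) (1) (2) (l := cornPPL) (by decide +kernel) (by norm_num)
          (by push_cast; linarith) (by push_cast; linarith) (by push_cast; linarith) (by push_cast; linarith) (by push_cast; linarith) (by push_cast; linarith)
      ·
        exact box_seg (0) (1) (2) (1) (2) (2) (1) (2) (2) (l := cornPPL) (by decide +kernel) (by norm_num)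
          (by push_cast; linarith) (by push_cast; linarith) (by push_cast; linarith) (by push_cast; linarith) (by push_cast; linarith) (by push_cast; linarith)
  ·
    rcases le_total y (1 / 2 : ℝ) with h | h
    ·
      rcases le_total z (1 / 2 : ℝ) with h | h
      ·
        exact box_seg (1) (2) (2) (0) (1) (2) (0) (1) (2) (l := cornPPL) (by decide +kernel) (by norm_num)
          (by push_cast; linarith) (by push_cast; linarith) (by push_cast; linarith) (by push_cast; linarith) (by push_cast; linarith) (by push_cast; linarith)
      ·
        exact box_seg (1) (2) (2) (0) (1) (2) (1) (2) (2) (l := cornPPL) (by decide +kernel) (by norm_num)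
          (by push_cast; linarith) (by push_cast; linarith) (by push_cast; linarith) (by push_cast; linarith) (by push_cast; linarith) (by push_cast; linarith)
    ·
      rcases le_total z (1 / 2 : ℝ) with h | h
      ·
        exact box_seg (1) (2) (2) (1) (2) (2) (0) (1) (2) (l := cornPPL) (by decide +kernel) (by norm_num)
          (by push_cast; linarith) (by push_cast; linarith) (by push_cast; linarith) (by push_cast; linarith) (by push_cast; linarith) (by push_cast; linarith)
      ·
        exact box_seg (1) (2) (2) (1) (2) (2) (1) (2) (2) (l := cornPPL) (by decide +kernel) (by norm_num)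
          (by push_cast; linarith) (by push_cast; linarith) (by push_cast; linarith) (by push_cast; linarith) (by push_cast; linarith) (by push_cast; linarith)

theorem cornPPL_part1 {x y z : ℝ} (x0 : 0 ≤ x) (x1 : x ≤ 1) (y0 : 0 ≤ y) (y1 : y ≤ 1) (z0 : 1 ≤ z) :
    0 ≤ Coef.val cornPPL [x, y, z] := by
  rcases le_total z (2 : ℝ) with h | h
  ·
    exact box_seg (0) (1) (1) (0) (1) (1) (1) (2) (1) (l := cornPPL) (by decide +kernel) (by norm_num)
      (by push_cast; linarith) (by push_cast; linarith) (by push_cast; linarith) (by push_cast; linarith) (by push_cast; linarith) (by push_cast; linarith)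
  ·
    exact box_tail (0) (1) (1) (0) (1) (1) (2) (l := cornPPL) (by decide +kernel) (by norm_num)
      (by push_cast; linarith) (by push_cast; linarith) (by push_cast; linarith) (by push_cast; linarith) (by push_cast; linarith)

theorem cornPPL_nonneg {x y z : ℝ} (x0 : 0 ≤ x) (x1 : x ≤ 1) (y0 : 0 ≤ y) (y1 : y ≤ 1) (z0 : 0 ≤ z) :
    0 ≤ Coef.val cornPPL [x, y, z] := by
  rcases le_total z (1 : ℝ) with h | h
  ·
    exact cornPPL_part0 (by linarith) (by linarith) (by linarith) (by linarith) (by linarith) (by linarith)
  ·
    exact cornPPL_part1 (by linarith) (by linarith) (by linarith) (by linarith) (by linarith)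

/-- The kernel at a corner. -/
def cornMML : List (List (List ℤ)) :=
  [[[252560, 895160, -250660, -926180, 150300, 183220, 0, 2296]]]

theorem cornMML_part0 {x y z : ℝ} (x0 : 0 ≤ x) (x1 : x ≤ 1) (y0 : 0 ≤ y) (y1 : y ≤ 1) (z0 : 0 ≤ z) (z1 : z ≤ 1) :
    0 ≤ Coef.val cornMML [x, y, z] := by
  exact box_seg (0) (1) (1) (0) (1) (1) (0) (1) (1) (l := cornMML) (by decide +kernel) (by norm_num)
    (by push_cast; linarith) (by push_cast; linarith) (by push_cast; linarith) (by push_cast; linarith) (by push_cast; linarith) (by push_cast; linarith)

theorem cornMML_part1 {x y z : ℝ} (x0 : 0 ≤ x) (x1 : x ≤ 1) (y0 : 0 ≤ y) (y1 : y ≤ 1) (z0 : 1 ≤ z) (z1 : z ≤ 2) :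
    0 ≤ Coef.val cornMML [x, y, z] := by
  rcases le_total x (1 / 2 : ℝ) with h | h
  ·
    rcases le_total y (1 / 2 : ℝ) with h | h
    ·
      rcases le_total z (3 / 2 : ℝ) with h | h
      ·
        exact box_seg (0) (1) (2) (0) (1) (2) (2) (3) (2) (l := cornMML) (by decide +kernel) (by norm_num)
          (by push_cast; linarith) (by push_cast; linarith) (by push_cast; linarith) (by push_cast; linarith) (by push_cast; linarith) (by push_cast; linarith)
      ·
        exact box_seg (0) (1) (2) (0) (1) (2) (3) (4) (2) (l := cornMML) (by decide +kernel) (by norm_num)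
          (by push_cast; linarith) (by push_cast; linarith) (by push_cast; linarith) (by push_cast; linarith) (by push_cast; linarith) (by push_cast; linarith)
    ·
      rcases le_total z (3 / 2 : ℝ) with h | h
      ·
        exact box_seg (0) (1) (2) (1) (2) (2) (2) (3) (2) (l := cornMML) (by decide +kernel) (by norm_num)
          (by push_cast; linarith) (by push_cast; linarith) (by push_cast; linarith) (by push_cast; linarith) (by push_cast; linarith) (by push_cast; linarith)
      ·
        exact box_seg (0) (1) (2) (1) (2) (2) (3) (4) (2) (l := cornMML) (by decide +kernel) (by norm_num)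
          (by push_cast; linarith) (by push_cast; linarith) (by push_cast; linarith) (by push_cast; linarith) (by push_cast; linarith) (by push_cast; linarith)
  ·
    rcases le_total y (1 / 2 : ℝ) with h | h
    ·
      rcases le_total z (3 / 2 : ℝ) with h | h
      ·
        exact box_seg (1) (2) (2) (0) (1) (2) (2) (3) (2) (l := cornMML) (by decide +kernel) (by norm_num)
          (by push_cast; linarith) (by push_cast; linarith) (by push_cast; linarith) (by push_cast; linarith) (by push_cast; linarith) (by push_cast; linarith)
      ·
        exact box_seg (1) (2) (2) (0) (1) (2) (3) (4) (2) (l := cornMML) (by decide +kernel) (by norm_num)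
          (by push_cast; linarith) (by push_cast; linarith) (by push_cast; linarith) (by push_cast; linarith) (by push_cast; linarith) (by push_cast; linarith)
    ·
      rcases le_total z (3 / 2 : ℝ) with h | h
      ·
        exact box_seg (1) (2) (2) (1) (2) (2) (2) (3) (2) (l := cornMML) (by decide +kernel) (by norm_num)
          (by push_cast; linarith) (by push_cast; linarith) (by push_cast; linarith) (by push_cast; linarith) (by push_cast; linarith) (by push_cast; linarith)
      ·
        exact box_seg (1) (2) (2) (1) (2) (2) (3) (4) (2) (l := cornMML) (by decide +kernel) (by norm_num)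
          (by push_cast; linarith) (by push_cast; linarith) (by push_cast; linarith) (by push_cast; linarith) (by push_cast; linarith) (by push_cast; linarith)

theorem cornMML_part2 {x y z : ℝ} (x0 : 0 ≤ x) (x1 : x ≤ 1) (y0 : 0 ≤ y) (y1 : y ≤ 1) (z0 : 2 ≤ z) :
    0 ≤ Coef.val cornMML [x, y, z] := by
  exact box_tail (0) (1) (1) (0) (1) (1) (2) (l := cornMML) (by decide +kernel) (by norm_num)
    (by push_cast; linarith) (by push_cast; linarith) (by push_cast; linarith) (by push_cast; linarith) (by push_cast; linarith)

theorem cornMML_nonneg {x y z : ℝ} (x0 : 0 ≤ x) (x1 : x ≤ 1) (y0 : 0 ≤ y) (y1 : y ≤ 1) (z0 : 0 ≤ z) :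
    0 ≤ Coef.val cornMML [x, y, z] := by
  rcases le_total z (1 : ℝ) with h | h
  ·
    exact cornMML_part0 (by linarith) (by linarith) (by linarith) (by linarith) (by linarith) (by linarith)
  ·
    rcases le_total z (2 : ℝ) with h | h
    ·
      exact cornMML_part1 (by linarith) (by linarith) (by linarith) (by linarith) (by linarith) (by linarith)
    ·
      exact cornMML_part2 (by linarith) (by linarith) (by linarith) (by linarith) (by linarith)

/-- The kernel at a corner. -/
def cornPML : List (List (List ℤ)) :=
  [[[252560, 0, -793780, 590060, 7800, -56320, 0, 2296]]]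

theorem cornPML_part0 {x y z : ℝ} (x0 : 0 ≤ x) (x1 : x ≤ 1) (y0 : 0 ≤ y) (y1 : y ≤ 1) (z0 : 0 ≤ z) (z1 : z ≤ 1) :
    0 ≤ Coef.val cornPML [x, y, z] := by
  exact box_seg (0) (1) (1) (0) (1) (1) (0) (1) (1) (l := cornPML) (by decide +kernel) (by norm_num)
    (by push_cast; linarith) (by push_cast; linarith) (by push_cast; linarith) (by push_cast; linarith) (by push_cast; linarith) (by push_cast; linarith)

theorem cornPML_part1 {x y z : ℝ} (x0 : 0 ≤ x) (x1 : x ≤ 1 / 2) (y0 : 0 ≤ y) (y1 : y ≤ 1 / 2) (z0 : 1 ≤ z) (z1 : z ≤ 3 / 2) :
    0 ≤ Coef.val cornPML [x, y, z] := by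
  rcases le_total x (1 / 4 : ℝ) with h | h
  ·
    rcases le_total y (1 / 4 : ℝ) with h | h
    ·
      rcases le_total z (5 / 4 : ℝ) with h | h
      ·
        exact box_seg (0) (1) (4) (0) (1) (4) (4) (5) (4) (l := cornPML) (by decide +kernel) (by norm_num)
          (by push_cast; linarith) (by push_cast; linarith) (by push_cast; linarith) (by push_cast; linarith) (by push_cast; linarith) (by push_cast; linarith)
      ·
        exact box_seg (0) (1) (4) (0) (1) (4) (5) (6) (4) (l := cornPML) (by decide +kernel) (by norm_num)
          (by push_cast; linarith) (by push_cast; linarith) (by push_cast; linarith) (by push_cast; linarith) (by push_cast; linarith) (by push_cast; linarith)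
    ·
      rcases le_total z (5 / 4 : ℝ) with h | h
      ·
        exact box_seg (0) (1) (4) (1) (2) (4) (4) (5) (4) (l := cornPML) (by decide +kernel) (by norm_num)
          (by push_cast; linarith) (by push_cast; linarith) (by push_cast; linarith) (by push_cast; linarith) (by push_cast; linarith) (by push_cast; linarith)
      ·
        exact box_seg (0) (1) (4) (1) (2) (4) (5) (6) (4) (l := cornPML) (by decide +kernel) (by norm_num)
          (by push_cast; linarith) (by push_cast; linarith) (by push_cast; linarith) (by push_cast; linarith) (by push_cast; linarith) (by push_cast; linarith)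
  ·
    rcases le_total y (1 / 4 : ℝ) with h | h
    ·
      rcases le_total z (5 / 4 : ℝ) with h | h
      ·
        exact box_seg (1) (2) (4) (0) (1) (4) (4) (5) (4) (l := cornPML) (by decide +kernel) (by norm_num)
          (by push_cast; linarith) (by push_cast; linarith) (by push_cast; linarith) (by push_cast; linarith) (by push_cast; linarith) (by push_cast; linarith)
      ·
        exact box_seg (1) (2) (4) (0) (1) (4) (5) (6) (4) (l := cornPML) (by decide +kernel) (by norm_num)
          (by push_cast; linarith) (by push_cast; linarith) (by push_cast; linarith) (by push_cast; linarith) (by push_cast; linarith) (by push_cast; linarith)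
    ·
      rcases le_total z (5 / 4 : ℝ) with h | h
      ·
        exact box_seg (1) (2) (4) (1) (2) (4) (4) (5) (4) (l := cornPML) (by decide +kernel) (by norm_num)
          (by push_cast; linarith) (by push_cast; linarith) (by push_cast; linarith) (by push_cast; linarith) (by push_cast; linarith) (by push_cast; linarith)
      ·
        exact box_seg (1) (2) (4) (1) (2) (4) (5) (6) (4) (l := cornPML) (by decide +kernel) (by norm_num)
          (by push_cast; linarith) (by push_cast; linarith) (by push_cast; linarith) (by push_cast; linarith) (by push_cast; linarith) (by push_cast; linarith)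

theorem cornPML_part2 {x y z : ℝ} (x0 : 0 ≤ x) (x1 : x ≤ 1 / 2) (y0 : 0 ≤ y) (y1 : y ≤ 1 / 2) (z0 : 3 / 2 ≤ z) (z1 : z ≤ 2) :
    0 ≤ Coef.val cornPML [x, y, z] := by
  exact box_seg (0) (1) (2) (0) (1) (2) (3) (4) (2) (l := cornPML) (by decide +kernel) (by norm_num)
    (by push_cast; linarith) (by push_cast; linarith) (by push_cast; linarith) (by push_cast; linarith) (by push_cast; linarith) (by push_cast; linarith)

theorem cornPML_part3 {x y z : ℝ} (x0 : 0 ≤ x) (x1 : x ≤ 1 / 2) (y0 : 1 / 2 ≤ y) (y1 : y ≤ 1) (z0 : 1 ≤ z) (z1 : z ≤ 3 / 2) :
    0 ≤ Coef.val cornPML [x, y, z] := by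
  rcases le_total x (1 / 4 : ℝ) with h | h
  ·
    rcases le_total y (3 / 4 : ℝ) with h | h
    ·
      rcases le_total z (5 / 4 : ℝ) with h | h
      ·
        exact box_seg (0) (1) (4) (2) (3) (4) (4) (5) (4) (l := cornPML) (by decide +kernel) (by norm_num)
          (by push_cast; linarith) (by push_cast; linarith) (by push_cast; linarith) (by push_cast; linarith) (by push_cast; linarith) (by push_cast; linarith)
      ·
        exact box_seg (0) (1) (4) (2) (3) (4) (5) (6) (4) (l := cornPML) (by decide +kernel) (by norm_num)
          (by push_cast; linarith) (by push_cast; linarith) (by push_cast; linarith) (by push_cast; linarith) (by push_cast; linarith) (by push_cast; linarith)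
    ·
      rcases le_total z (5 / 4 : ℝ) with h | h
      ·
        exact box_seg (0) (1) (4) (3) (4) (4) (4) (5) (4) (l := cornPML) (by decide +kernel) (by norm_num)
          (by push_cast; linarith) (by push_cast; linarith) (by push_cast; linarith) (by push_cast; linarith) (by push_cast; linarith) (by push_cast; linarith)
      ·
        exact box_seg (0) (1) (4) (3) (4) (4) (5) (6) (4) (l := cornPML) (by decide +kernel) (by norm_num)
          (by push_cast; linarith) (by push_cast; linarith) (by push_cast; linarith) (by push_cast; linarith) (by push_cast; linarith) (by push_cast; linarith)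
  ·
    rcases le_total y (3 / 4 : ℝ) with h | h
    ·
      rcases le_total z (5 / 4 : ℝ) with h | h
      ·
        exact box_seg (1) (2) (4) (2) (3) (4) (4) (5) (4) (l := cornPML) (by decide +kernel) (by norm_num)
          (by push_cast; linarith) (by push_cast; linarith) (by push_cast; linarith) (by push_cast; linarith) (by push_cast; linarith) (by push_cast; linarith)
      ·
        exact box_seg (1) (2) (4) (2) (3) (4) (5) (6) (4) (l := cornPML) (by decide +kernel) (by norm_num)
          (by push_cast; linarith) (by push_cast; linarith) (by push_cast; linarith) (by push_cast; linarith) (by push_cast; linarith) (by push_cast; linarith)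
    ·
      rcases le_total z (5 / 4 : ℝ) with h | h
      ·
        exact box_seg (1) (2) (4) (3) (4) (4) (4) (5) (4) (l := cornPML) (by decide +kernel) (by norm_num)
          (by push_cast; linarith) (by push_cast; linarith) (by push_cast; linarith) (by push_cast; linarith) (by push_cast; linarith) (by push_cast; linarith)
      ·
        exact box_seg (1) (2) (4) (3) (4) (4) (5) (6) (4) (l := cornPML) (by decide +kernel) (by norm_num)
          (by push_cast; linarith) (by push_cast; linarith) (by push_cast; linarith) (by push_cast; linarith) (by push_cast; linarith) (by push_cast; linarith)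

theorem cornPML_part4 {x y z : ℝ} (x0 : 0 ≤ x) (x1 : x ≤ 1 / 2) (y0 : 1 / 2 ≤ y) (y1 : y ≤ 1) (z0 : 3 / 2 ≤ z) (z1 : z ≤ 2) :
    0 ≤ Coef.val cornPML [x, y, z] := by
  exact box_seg (0) (1) (2) (1) (2) (2) (3) (4) (2) (l := cornPML) (by decide +kernel) (by norm_num)
    (by push_cast; linarith) (by push_cast; linarith) (by push_cast; linarith) (by push_cast; linarith) (by push_cast; linarith) (by push_cast; linarith)

theorem cornPML_part5 {x y z : ℝ} (x0 : 1 / 2 ≤ x) (x1 : x ≤ 1) (y0 : 0 ≤ y) (y1 : y ≤ 1 / 2) (z0 : 1 ≤ z) (z1 : z ≤ 3 / 2) :
    0 ≤ Coef.val cornPML [x, y, z] := by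
  rcases le_total x (3 / 4 : ℝ) with h | h
  ·
    rcases le_total y (1 / 4 : ℝ) with h | h
    ·
      rcases le_total z (5 / 4 : ℝ) with h | h
      ·
        exact box_seg (2) (3) (4) (0) (1) (4) (4) (5) (4) (l := cornPML) (by decide +kernel) (by norm_num)
          (by push_cast; linarith) (by push_cast; linarith) (by push_cast; linarith) (by push_cast; linarith) (by push_cast; linarith) (by push_cast; linarith)
      ·
        exact box_seg (2) (3) (4) (0) (1) (4) (5) (6) (4) (l := cornPML) (by decide +kernel) (by norm_num)
          (by push_cast; linarith) (by push_cast; linarith) (by push_cast; linarith) (by push_cast; linarith) (by push_cast; linarith) (by push_cast; linarith)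
    ·
      rcases le_total z (5 / 4 : ℝ) with h | h
      ·
        exact box_seg (2) (3) (4) (1) (2) (4) (4) (5) (4) (l := cornPML) (by decide +kernel) (by norm_num)
          (by push_cast; linarith) (by push_cast; linarith) (by push_cast; linarith) (by push_cast; linarith) (by push_cast; linarith) (by push_cast; linarith)
      ·
        exact box_seg (2) (3) (4) (1) (2) (4) (5) (6) (4) (l := cornPML) (by decide +kernel) (by norm_num)
          (by push_cast; linarith) (by push_cast; linarith) (by push_cast; linarith) (by push_cast; linarith) (by push_cast; linarith) (by push_cast; linarith)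
  ·
    rcases le_total y (1 / 4 : ℝ) with h | h
    ·
      rcases le_total z (5 / 4 : ℝ) with h | h
      ·
        exact box_seg (3) (4) (4) (0) (1) (4) (4) (5) (4) (l := cornPML) (by decide +kernel) (by norm_num)
          (by push_cast; linarith) (by push_cast; linarith) (by push_cast; linarith) (by push_cast; linarith) (by push_cast; linarith) (by push_cast; linarith)
      ·
        exact box_seg (3) (4) (4) (0) (1) (4) (5) (6) (4) (l := cornPML) (by decide +kernel) (by norm_num)
          (by push_cast; linarith) (by push_cast; linarith) (by push_cast; linarith) (by push_cast; linarith) (by push_cast; linarith) (by push_cast; linarith)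
    ·
      rcases le_total z (5 / 4 : ℝ) with h | h
      ·
        exact box_seg (3) (4) (4) (1) (2) (4) (4) (5) (4) (l := cornPML) (by decide +kernel) (by norm_num)
          (by push_cast; linarith) (by push_cast; linarith) (by push_cast; linarith) (by push_cast; linarith) (by push_cast; linarith) (by push_cast; linarith)
      ·
        exact box_seg (3) (4) (4) (1) (2) (4) (5) (6) (4) (l := cornPML) (by decide +kernel) (by norm_num)
          (by push_cast; linarith) (by push_cast; linarith) (by push_cast; linarith) (by push_cast; linarith) (by push_cast; linarith) (by push_cast; linarith)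

theorem cornPML_part6 {x y z : ℝ} (x0 : 1 / 2 ≤ x) (x1 : x ≤ 1) (y0 : 0 ≤ y) (y1 : y ≤ 1 / 2) (z0 : 3 / 2 ≤ z) (z1 : z ≤ 2) :
    0 ≤ Coef.val cornPML [x, y, z] := by
  exact box_seg (1) (2) (2) (0) (1) (2) (3) (4) (2) (l := cornPML) (by decide +kernel) (by norm_num)
    (by push_cast; linarith) (by push_cast; linarith) (by push_cast; linarith) (by push_cast; linarith) (by push_cast; linarith) (by push_cast; linarith)

theorem cornPML_part7 {x y z : ℝ} (x0 : 1 / 2 ≤ x) (x1 : x ≤ 1) (y0 : 1 / 2 ≤ y) (y1 : y ≤ 1) (z0 : 1 ≤ z) (z1 : z ≤ 3 / 2) :
    0 ≤ Coef.val cornPML [x, y, z] := by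
  rcases le_total x (3 / 4 : ℝ) with h | h
  ·
    rcases le_total y (3 / 4 : ℝ) with h | h
    ·
      rcases le_total z (5 / 4 : ℝ) with h | h
      ·
        exact box_seg (2) (3) (4) (2) (3) (4) (4) (5) (4) (l := cornPML) (by decide +kernel) (by norm_num)
          (by push_cast; linarith) (by push_cast; linarith) (by push_cast; linarith) (by push_cast; linarith) (by push_cast; linarith) (by push_cast; linarith)
      ·
        exact box_seg (2) (3) (4) (2) (3) (4) (5) (6) (4) (l := cornPML) (by decide +kernel) (by norm_num)
          (by push_cast; linarith) (by push_cast; linarith) (by push_cast; linarith) (by push_cast; linarith) (by push_cast; linarith) (by push_cast; linarith)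
    ·
      rcases le_total z (5 / 4 : ℝ) with h | h
      ·
        exact box_seg (2) (3) (4) (3) (4) (4) (4) (5) (4) (l := cornPML) (by decide +kernel) (by norm_num)
          (by push_cast; linarith) (by push_cast; linarith) (by push_cast; linarith) (by push_cast; linarith) (by push_cast; linarith) (by push_cast; linarith)
      ·
        exact box_seg (2) (3) (4) (3) (4) (4) (5) (6) (4) (l := cornPML) (by decide +kernel) (by norm_num)
          (by push_cast; linarith) (by push_cast; linarith) (by push_cast; linarith) (by push_cast; linarith) (by push_cast; linarith) (by push_cast; linarith)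
  ·
    rcases le_total y (3 / 4 : ℝ) with h | h
    ·
      rcases le_total z (5 / 4 : ℝ) with h | h
      ·
        exact box_seg (3) (4) (4) (2) (3) (4) (4) (5) (4) (l := cornPML) (by decide +kernel) (by norm_num)
          (by push_cast; linarith) (by push_cast; linarith) (by push_cast; linarith) (by push_cast; linarith) (by push_cast; linarith) (by push_cast; linarith)
      ·
        exact box_seg (3) (4) (4) (2) (3) (4) (5) (6) (4) (l := cornPML) (by decide +kernel) (by norm_num)
          (by push_cast; linarith) (by push_cast; linarith) (by push_cast; linarith) (by push_cast; linarith) (by push_cast; linarith) (by push_cast; linarith)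
    ·
      rcases le_total z (5 / 4 : ℝ) with h | h
      ·
        exact box_seg (3) (4) (4) (3) (4) (4) (4) (5) (4) (l := cornPML) (by decide +kernel) (by norm_num)
          (by push_cast; linarith) (by push_cast; linarith) (by push_cast; linarith) (by push_cast; linarith) (by push_cast; linarith) (by push_cast; linarith)
      ·
        exact box_seg (3) (4) (4) (3) (4) (4) (5) (6) (4) (l := cornPML) (by decide +kernel) (by norm_num)
          (by push_cast; linarith) (by push_cast; linarith) (by push_cast; linarith) (by push_cast; linarith) (by push_cast; linarith) (by push_cast; linarith)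

theorem cornPML_part8 {x y z : ℝ} (x0 : 1 / 2 ≤ x) (x1 : x ≤ 1) (y0 : 1 / 2 ≤ y) (y1 : y ≤ 1) (z0 : 3 / 2 ≤ z) (z1 : z ≤ 2) :
    0 ≤ Coef.val cornPML [x, y, z] := by
  exact box_seg (1) (2) (2) (1) (2) (2) (3) (4) (2) (l := cornPML) (by decide +kernel) (by norm_num)
    (by push_cast; linarith) (by push_cast; linarith) (by push_cast; linarith) (by push_cast; linarith) (by push_cast; linarith) (by push_cast; linarith)

theorem cornPML_part9 {x y z : ℝ} (x0 : 0 ≤ x) (x1 : x ≤ 1) (y0 : 0 ≤ y) (y1 : y ≤ 1) (z0 : 2 ≤ z) :
    0 ≤ Coef.val cornPML [x, y, z] := by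
  rcases le_total z (3 : ℝ) with h | h
  ·
    exact box_seg (0) (1) (1) (0) (1) (1) (2) (3) (1) (l := cornPML) (by decide +kernel) (by norm_num)
      (by push_cast; linarith) (by push_cast; linarith) (by push_cast; linarith) (by push_cast; linarith) (by push_cast; linarith) (by push_cast; linarith)
  ·
    exact box_tail (0) (1) (1) (0) (1) (1) (3) (l := cornPML) (by decide +kernel) (by norm_num)
      (by push_cast; linarith) (by push_cast; linarith) (by push_cast; linarith) (by push_cast; linarith) (by push_cast; linarith)

theorem cornPML_nonneg {x y z : ℝ} (x0 : 0 ≤ x) (x1 : x ≤ 1) (y0 : 0 ≤ y) (y1 : y ≤ 1) (z0 : 0 ≤ z) :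
    0 ≤ Coef.val cornPML [x, y, z] := by
  rcases le_total z (1 : ℝ) with h | h
  ·
    exact cornPML_part0 (by linarith) (by linarith) (by linarith) (by linarith) (by linarith) (by linarith)
  ·
    rcases le_total z (2 : ℝ) with h | h
    ·
      rcases le_total x (1 / 2 : ℝ) with h | h
      ·
        rcases le_total y (1 / 2 : ℝ) with h | h
        ·
          rcases le_total z (3 / 2 : ℝ) with h | h
          ·
            exact cornPML_part1 (by linarith) (by linarith) (by linarith) (by linarith) (by linarith) (by linarith)
          ·
            exact cornPML_part2 (by linarith) (by linarith) (by linarith) (by linarith) (by linarith) (by linarith)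
        ·
          rcases le_total z (3 / 2 : ℝ) with h | h
          ·
            exact cornPML_part3 (by linarith) (by linarith) (by linarith) (by linarith) (by linarith) (by linarith)
          ·
            exact cornPML_part4 (by linarith) (by linarith) (by linarith) (by linarith) (by linarith) (by linarith)
      ·
        rcases le_total y (1 / 2 : ℝ) with h | h
        ·
          rcases le_total z (3 / 2 : ℝ) with h | h
          ·
            exact cornPML_part5 (by linarith) (by linarith) (by linarith) (by linarith) (by linarith) (by linarith)
          ·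
            exact cornPML_part6 (by linarith) (by linarith) (by linarith) (by linarith) (by linarith) (by linarith)
        ·
          rcases le_total z (3 / 2 : ℝ) with h | h
          ·
            exact cornPML_part7 (by linarith) (by linarith) (by linarith) (by linarith) (by linarith) (by linarith)
          ·
            exact cornPML_part8 (by linarith) (by linarith) (by linarith) (by linarith) (by linarith) (by linarith)
    ·
      exact cornPML_part9 (by linarith) (by linarith) (by linarith) (by linarith) (by linarith)

/-- The derivative of the boundary weight. -/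
def gmonoL : List (List (List ℤ)) :=
  [[[10080, 0, 133140, -593664, 542500, 1519488, -2994040, 1389952]]]

theorem gmonoL_nonneg {x y z : ℝ} (x0 : 0 ≤ x) (x1 : x ≤ 1) (y0 : 0 ≤ y) (y1 : y ≤ 1) (z0 : 0 ≤ z) (z1 : z ≤ 1) :
    0 ≤ Coef.val gmonoL [x, y, z] := by
  rcases le_total x (1 / 2 : ℝ) with h | h
  ·
    rcases le_total y (1 / 2 : ℝ) with h | h
    ·
      rcases le_total z (1 / 2 : ℝ) with h | h
      ·
        exact box_seg (0) (1) (2) (0) (1) (2) (0) (1) (2) (l := gmonoL) (by decide +kernel) (by norm_num)
          (by push_cast; linarith) (by push_cast; linarith) (by push_cast; linarith) (by push_cast; linarith) (by push_cast; linarith) (by push_cast; linarith)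
      ·
        exact box_seg (0) (1) (2) (0) (1) (2) (1) (2) (2) (l := gmonoL) (by decide +kernel) (by norm_num)
          (by push_cast; linarith) (by push_cast; linarith) (by push_cast; linarith) (by push_cast; linarith) (by push_cast; linarith) (by push_cast; linarith)
    ·
      rcases le_total z (1 / 2 : ℝ) with h | h
      ·
        exact box_seg (0) (1) (2) (1) (2) (2) (0) (1) (2) (l := gmonoL) (by decide +kernel) (by norm_num)
          (by push_cast; linarith) (by push_cast; linarith) (by push_cast; linarith) (by push_cast; linarith) (by push_cast; linarith) (by push_cast; linarith)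
      ·
        exact box_seg (0) (1) (2) (1) (2) (2) (1) (2) (2) (l := gmonoL) (by decide +kernel) (by norm_num)
          (by push_cast; linarith) (by push_cast; linarith) (by push_cast; linarith) (by push_cast; linarith) (by push_cast; linarith) (by push_cast; linarith)
  ·
    rcases le_total y (1 / 2 : ℝ) with h | h
    ·
      rcases le_total z (1 / 2 : ℝ) with h | h
      ·
        exact box_seg (1) (2) (2) (0) (1) (2) (0) (1) (2) (l := gmonoL) (by decide +kernel) (by norm_num)
          (by push_cast; linarith) (by push_cast; linarith) (by push_cast; linarith) (by push_cast; linarith) (by push_cast; linarith) (by push_cast; linarith)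
      ·
        exact box_seg (1) (2) (2) (0) (1) (2) (1) (2) (2) (l := gmonoL) (by decide +kernel) (by norm_num)
          (by push_cast; linarith) (by push_cast; linarith) (by push_cast; linarith) (by push_cast; linarith) (by push_cast; linarith) (by push_cast; linarith)
    ·
      rcases le_total z (1 / 2 : ℝ) with h | h
      ·
        exact box_seg (1) (2) (2) (1) (2) (2) (0) (1) (2) (l := gmonoL) (by decide +kernel) (by norm_num)
          (by push_cast; linarith) (by push_cast; linarith) (by push_cast; linarith) (by push_cast; linarith) (by push_cast; linarith) (by push_cast; linarith)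
      ·
        exact box_seg (1) (2) (2) (1) (2) (2) (1) (2) (2) (l := gmonoL) (by decide +kernel) (by norm_num)
          (by push_cast; linarith) (by push_cast; linarith) (by push_cast; linarith) (by push_cast; linarith) (by push_cast; linarith) (by push_cast; linarith)

/-- The chord inequality at a corner. -/
def cornChordL : List (List (List ℤ)) :=
  [[[221056, -120960, 0, 252560, -895160, 1233500, -862020, 341700, -70580, 0, 2296]]]

theorem cornChordL_nonneg {x y z : ℝ} (x0 : 0 ≤ x) (x1 : x ≤ 1) (y0 : 0 ≤ y) (y1 : y ≤ 1) (z0 : 0 ≤ z) :
    0 ≤ Coef.val cornChordL [x, y, z] := by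
  rcases le_total z (1 : ℝ) with h | h
  ·
    exact box_seg (0) (1) (1) (0) (1) (1) (0) (1) (1) (l := cornChordL) (by decide +kernel) (by norm_num)
      (by push_cast; linarith) (by push_cast; linarith) (by push_cast; linarith) (by push_cast; linarith) (by push_cast; linarith) (by push_cast; linarith)
  ·
    rcases le_total z (2 : ℝ) with h | h
    ·
      exact box_seg (0) (1) (1) (0) (1) (1) (1) (2) (1) (l := cornChordL) (by decide +kernel) (by norm_num)
        (by push_cast; linarith) (by push_cast; linarith) (by push_cast; linarith) (by push_cast; linarith) (by push_cast; linarith) (by push_cast; linarith)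
    ·
      exact box_tail (0) (1) (1) (0) (1) (1) (2) (l := cornChordL) (by decide +kernel) (by norm_num)
        (by push_cast; linarith) (by push_cast; linarith) (by push_cast; linarith) (by push_cast; linarith) (by push_cast; linarith)

end

end Vale.Agent.P219.Aff.Eleven
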