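import Vale.Agent.P219.Aff.Ten.Box

/-!
# Checked coefficient lists for the kernel in dimension eleven
-/

namespace Vale.Agent.P219.Aff.Eleven

open Vale.Agent.P219.Aff.Nine
open Vale.Agent.P219.Aff.Ten (box_seg box_tail)

noncomputable section

/-- The symmetrised kernel with fixed signs. -/
def kppL : List (List (List ℤ)) :=
  [[[80640, 0, 976080, -1484160, 710640, 0, 0, 18368],
    [0, -905520, 1187328, -1214280, 1101632, -507600, 0, 0],
    [316512, 0, -790400, 624592, -203040, 0, 0, -9184],
    [0, 324240, -445248, 583320, -562080, 253800, 0, 0],
    [-178416, 0, 151180, 58744, -76140, 0, 0, 0],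
    [0, 32130, -37104, 5955, 2816, 0, 0, 0]],
   [[0, -905520, 1187328, -1214280, 1101632, -507600, 0, 0],
    [-350336, 0, 5773120, -6188128, 952800, 450560, 0, 0],
    [0, -2093840, 1038912, 1973560, -1258384, 253800, 0, 0],
    [350336, 0, -3202720, 3219808, -476400, -225280, 0, 0],
    [0, 1241170, -779184, -689165, 350968, 0, 0, 0],
    [-43792, 0, 79040, -31436, 0, 0, 0, 0]],
   [[316512, 0, -790400, 624592, -203040, 0, 0, -9184],
    [0, -2093840, 1038912, 1973560, -1258384, 253800, 0, 0],
    [869344, 0, -1278440, 620464, -152280, 0, 0, 0],
    [0, 1401820, -964704, -659390, 365048, 0, 0, 0],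
    [-613088, 0, 790400, -251488, 0, 0, 0, 0],
    [0, 0, 0, 0, 0, 0, 0, 0]],
   [[0, 324240, -445248, 583320, -562080, 253800, 0, 0],
    [350336, 0, -3202720, 3219808, -476400, -225280, 0, 0],
    [0, 1401820, -964704, -659390, 365048, 0, 0, 0],
    [-262752, 0, 474240, -188616, 0, 0, 0, 0],
    [0, 0, 0, 0, 0, 0, 0, 0],
    [0, 0, 0, 0, 0, 0, 0, 0]],
   [[-178416, 0, 151180, 58744, -76140, 0, 0, 0],
    [0, 1241170, -779184, -689165, 350968, 0, 0, 0],
    [-613088, 0, 790400, -251488, 0, 0, 0, 0],
    [0, 0, 0, 0, 0, 0, 0, 0],
    [0, 0, 0, 0, 0, 0, 0, 0],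
    [0, 0, 0, 0, 0, 0, 0, 0]],
   [[0, 32130, -37104, 5955, 2816, 0, 0, 0],
    [-43792, 0, 79040, -31436, 0, 0, 0, 0],
    [0, 0, 0, 0, 0, 0, 0, 0],
    [0, 0, 0, 0, 0, 0, 0, 0],
    [0, 0, 0, 0, 0, 0, 0, 0],
    [0, 0, 0, 0, 0, 0, 0, 0]]]

theorem kppL_part0 {x y z : ℝ} (x0 : -1 ≤ x) (x1 : x ≤ 0) (y0 : -1 ≤ y) (y1 : y ≤ 1) (z0 : 0 ≤ z) (z1 : z ≤ 1) :
    0 ≤ Coef.val kppL [x, y, z] := by
  rcases le_total y (0 : ℝ) with h | h
  ·
    exact box_seg (-1) (0) (1) (-1) (0) (1) (0) (1) (1) (l := kppL) (by decide +kernel) (by norm_num)
      (by push_cast; linarith) (by push_cast; linarith) (by push_cast; linarith) (by push_cast; linarith) (by push_cast; linarith) (by push_cast; linarith)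
  ·
    rcases le_total x (-1 / 2 : ℝ) with h | h
    ·
      rcases le_total y (1 / 2 : ℝ) with h | h
      ·
        exact box_seg (-2) (-1) (2) (0) (1) (2) (0) (1) (1) (l := kppL) (by decide +kernel) (by norm_num)
          (by push_cast; linarith) (by push_cast; linarith) (by push_cast; linarith) (by push_cast; linarith) (by push_cast; linarith) (by push_cast; linarith)
      ·
        exact box_seg (-2) (-1) (2) (1) (2) (2) (0) (1) (1) (l := kppL) (by decide +kernel) (by norm_num)
          (by push_cast; linarith) (by push_cast; linarith) (by push_cast; linarith) (by push_cast; linarith) (by push_cast; linarith) (by push_cast; linarith)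
    ·
      exact box_seg (-1) (0) (2) (0) (1) (1) (0) (1) (1) (l := kppL) (by decide +kernel) (by norm_num)
        (by push_cast; linarith) (by push_cast; linarith) (by push_cast; linarith) (by push_cast; linarith) (by push_cast; linarith) (by push_cast; linarith)

theorem kppL_part1 {x y z : ℝ} (x0 : 0 ≤ x) (x1 : x ≤ 1) (y0 : -1 ≤ y) (y1 : y ≤ 0) (z0 : 0 ≤ z) (z1 : z ≤ 1) :
    0 ≤ Coef.val kppL [x, y, z] := by
  rcases le_total x (1 / 2 : ℝ) with h | h
  ·
    exact box_seg (0) (1) (2) (-1) (0) (1) (0) (1) (1) (l := kppL) (by decide +kernel) (by norm_num)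
      (by push_cast; linarith) (by push_cast; linarith) (by push_cast; linarith) (by push_cast; linarith) (by push_cast; linarith) (by push_cast; linarith)
  ·
    exact box_seg (1) (2) (2) (-1) (0) (1) (0) (1) (1) (l := kppL) (by decide +kernel) (by norm_num)
      (by push_cast; linarith) (by push_cast; linarith) (by push_cast; linarith) (by push_cast; linarith) (by push_cast; linarith) (by push_cast; linarith)

theorem kppL_part2 {x y z : ℝ} (x0 : 0 ≤ x) (x1 : x ≤ 1) (y0 : 0 ≤ y) (y1 : y ≤ 1) (z0 : 0 ≤ z) (z1 : z ≤ 1) :
    0 ≤ Coef.val kppL [x, y, z] := by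
  rcases le_total x (1 / 2 : ℝ) with h | h
  ·
    rcases le_total y (1 / 2 : ℝ) with h | h
    ·
      rcases le_total z (1 / 2 : ℝ) with h | h
      ·
        exact box_seg (0) (1) (2) (0) (1) (2) (0) (1) (2) (l := kppL) (by decide +kernel) (by norm_num)
          (by push_cast; linarith) (by push_cast; linarith) (by push_cast; linarith) (by push_cast; linarith) (by push_cast; linarith) (by push_cast; linarith)
      ·
        exact box_seg (0) (1) (2) (0) (1) (2) (1) (2) (2) (l := kppL) (by decide +kernel) (by norm_num)
          (by push_cast; linarith) (by push_cast; linarith) (by push_cast; linarith) (by push_cast; linarith) (by push_cast; linarith) (by push_cast; linarith)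
    ·
      rcases le_total z (1 / 2 : ℝ) with h | h
      ·
        exact box_seg (0) (1) (2) (1) (2) (2) (0) (1) (2) (l := kppL) (by decide +kernel) (by norm_num)
          (by push_cast; linarith) (by push_cast; linarith) (by push_cast; linarith) (by push_cast; linarith) (by push_cast; linarith) (by push_cast; linarith)
      ·
        exact box_seg (0) (1) (2) (1) (2) (2) (1) (2) (2) (l := kppL) (by decide +kernel) (by norm_num)
          (by push_cast; linarith) (by push_cast; linarith) (by push_cast; linarith) (by push_cast; linarith) (by push_cast; linarith) (by push_cast; linarith)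
  ·
    rcases le_total y (1 / 2 : ℝ) with h | h
    ·
      rcases le_total z (1 / 2 : ℝ) with h | h
      ·
        exact box_seg (1) (2) (2) (0) (1) (2) (0) (1) (2) (l := kppL) (by decide +kernel) (by norm_num)
          (by push_cast; linarith) (by push_cast; linarith) (by push_cast; linarith) (by push_cast; linarith) (by push_cast; linarith) (by push_cast; linarith)
      ·
        exact box_seg (1) (2) (2) (0) (1) (2) (1) (2) (2) (l := kppL) (by decide +kernel) (by norm_num)
          (by push_cast; linarith) (by push_cast; linarith) (by push_cast; linarith) (by push_cast; linarith) (by push_cast; linarith) (by push_cast; linarith)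
    ·
      rcases le_total z (1 / 2 : ℝ) with h | h
      ·
        exact box_seg (1) (2) (2) (1) (2) (2) (0) (1) (2) (l := kppL) (by decide +kernel) (by norm_num)
          (by push_cast; linarith) (by push_cast; linarith) (by push_cast; linarith) (by push_cast; linarith) (by push_cast; linarith) (by push_cast; linarith)
      ·
        exact box_seg (1) (2) (2) (1) (2) (2) (1) (2) (2) (l := kppL) (by decide +kernel) (by norm_num)
          (by push_cast; linarith) (by push_cast; linarith) (by push_cast; linarith) (by push_cast; linarith) (by push_cast; linarith) (by push_cast; linarith)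

theorem kppL_part3 {x y z : ℝ} (x0 : -1 ≤ x) (x1 : x ≤ 0) (y0 : -1 ≤ y) (y1 : y ≤ 0) (z0 : 1 ≤ z) (z1 : z ≤ 2) :
    0 ≤ Coef.val kppL [x, y, z] := by
  rcases le_total x (-1 / 2 : ℝ) with h | h
  ·
    rcases le_total y (-1 / 2 : ℝ) with h | h
    ·
      rcases le_total z (3 / 2 : ℝ) with h | h
      ·
        exact box_seg (-2) (-1) (2) (-2) (-1) (2) (2) (3) (2) (l := kppL) (by decide +kernel) (by norm_num)
          (by push_cast; linarith) (by push_cast; linarith) (by push_cast; linarith) (by push_cast; linarith) (by push_cast; linarith) (by push_cast; linarith)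
      ·
        exact box_seg (-2) (-1) (2) (-2) (-1) (2) (3) (4) (2) (l := kppL) (by decide +kernel) (by norm_num)
          (by push_cast; linarith) (by push_cast; linarith) (by push_cast; linarith) (by push_cast; linarith) (by push_cast; linarith) (by push_cast; linarith)
    ·
      exact box_seg (-2) (-1) (2) (-1) (0) (2) (1) (2) (1) (l := kppL) (by decide +kernel) (by norm_num)
        (by push_cast; linarith) (by push_cast; linarith) (by push_cast; linarith) (by push_cast; linarith) (by push_cast; linarith) (by push_cast; linarith)
  ·
    exact box_seg (-1) (0) (2) (-1) (0) (1) (1) (2) (1) (l := kppL) (by decide +kernel) (by norm_num)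
      (by push_cast; linarith) (by push_cast; linarith) (by push_cast; linarith) (by push_cast; linarith) (by push_cast; linarith) (by push_cast; linarith)

theorem kppL_part4 {x y z : ℝ} (x0 : -1 ≤ x) (x1 : x ≤ -1 / 2) (y0 : 0 ≤ y) (y1 : y ≤ 1) (z0 : 1 ≤ z) (z1 : z ≤ 2) :
    0 ≤ Coef.val kppL [x, y, z] := by
  rcases le_total y (1 / 2 : ℝ) with h | h
  ·
    exact box_seg (-2) (-1) (2) (0) (1) (2) (1) (2) (1) (l := kppL) (by decide +kernel) (by norm_num)
      (by push_cast; linarith) (by push_cast; linarith) (by push_cast; linarith) (by push_cast; linarith) (by push_cast; linarith) (by push_cast; linarith)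
  ·
    rcases le_total z (3 / 2 : ℝ) with h | h
    ·
      rcases le_total x (-3 / 4 : ℝ) with h | h
      ·
        rcases le_total y (3 / 4 : ℝ) with h | h
        ·
          exact box_seg (-4) (-3) (4) (2) (3) (4) (2) (3) (2) (l := kppL) (by decide +kernel) (by norm_num)
            (by push_cast; linarith) (by push_cast; linarith) (by push_cast; linarith) (by push_cast; linarith) (by push_cast; linarith) (by push_cast; linarith)
        ·
          rcases le_total z (5 / 4 : ℝ) with h | h
          ·
            exact box_seg (-4) (-3) (4) (3) (4) (4) (4) (5) (4) (l := kppL) (by decide +kernel) (by norm_num)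
              (by push_cast; linarith) (by push_cast; linarith) (by push_cast; linarith) (by push_cast; linarith) (by push_cast; linarith) (by push_cast; linarith)
          ·
            exact box_seg (-4) (-3) (4) (3) (4) (4) (5) (6) (4) (l := kppL) (by decide +kernel) (by norm_num)
              (by push_cast; linarith) (by push_cast; linarith) (by push_cast; linarith) (by push_cast; linarith) (by push_cast; linarith) (by push_cast; linarith)
      ·
        rcases le_total y (3 / 4 : ℝ) with h | h
        ·
          exact box_seg (-3) (-2) (4) (2) (3) (4) (2) (3) (2) (l := kppL) (by decide +kernel) (by norm_num)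
            (by push_cast; linarith) (by push_cast; linarith) (by push_cast; linarith) (by push_cast; linarith) (by push_cast; linarith) (by push_cast; linarith)
        ·
          rcases le_total z (5 / 4 : ℝ) with h | h
          ·
            exact box_seg (-3) (-2) (4) (3) (4) (4) (4) (5) (4) (l := kppL) (by decide +kernel) (by norm_num)
              (by push_cast; linarith) (by push_cast; linarith) (by push_cast; linarith) (by push_cast; linarith) (by push_cast; linarith) (by push_cast; linarith)
          ·
            exact box_seg (-3) (-2) (4) (3) (4) (4) (5) (6) (4) (l := kppL) (by decide +kernel) (by norm_num)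
              (by push_cast; linarith) (by push_cast; linarith) (by push_cast; linarith) (by push_cast; linarith) (by push_cast; linarith) (by push_cast; linarith)
    ·
      exact box_seg (-2) (-1) (2) (1) (2) (2) (3) (4) (2) (l := kppL) (by decide +kernel) (by norm_num)
        (by push_cast; linarith) (by push_cast; linarith) (by push_cast; linarith) (by push_cast; linarith) (by push_cast; linarith) (by push_cast; linarith)

theorem kppL_part5 {x y z : ℝ} (x0 : -1 / 2 ≤ x) (x1 : x ≤ 0) (y0 : 0 ≤ y) (y1 : y ≤ 1) (z0 : 1 ≤ z) (z1 : z ≤ 2) :
    0 ≤ Coef.val kppL [x, y, z] := by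
  rcases le_total y (1 / 2 : ℝ) with h | h
  ·
    exact box_seg (-1) (0) (2) (0) (1) (2) (1) (2) (1) (l := kppL) (by decide +kernel) (by norm_num)
      (by push_cast; linarith) (by push_cast; linarith) (by push_cast; linarith) (by push_cast; linarith) (by push_cast; linarith) (by push_cast; linarith)
  ·
    rcases le_total z (3 / 2 : ℝ) with h | h
    ·
      exact box_seg (-1) (0) (2) (1) (2) (2) (2) (3) (2) (l := kppL) (by decide +kernel) (by norm_num)
        (by push_cast; linarith) (by push_cast; linarith) (by push_cast; linarith) (by push_cast; linarith) (by push_cast; linarith) (by push_cast; linarith)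
    ·
      exact box_seg (-1) (0) (2) (1) (2) (2) (3) (4) (2) (l := kppL) (by decide +kernel) (by norm_num)
        (by push_cast; linarith) (by push_cast; linarith) (by push_cast; linarith) (by push_cast; linarith) (by push_cast; linarith) (by push_cast; linarith)

theorem kppL_part6 {x y z : ℝ} (x0 : 0 ≤ x) (x1 : x ≤ 1 / 2) (y0 : -1 ≤ y) (y1 : y ≤ 0) (z0 : 1 ≤ z) (z1 : z ≤ 2) :
    0 ≤ Coef.val kppL [x, y, z] := by
  exact box_seg (0) (1) (2) (-1) (0) (1) (1) (2) (1) (l := kppL) (by decide +kernel) (by norm_num)
    (by push_cast; linarith) (by push_cast; linarith) (by push_cast; linarith) (by push_cast; linarith) (by push_cast; linarith) (by push_cast; linarith)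

theorem kppL_part7 {x y z : ℝ} (x0 : 1 / 2 ≤ x) (x1 : x ≤ 1) (y0 : -1 ≤ y) (y1 : y ≤ 0) (z0 : 1 ≤ z) (z1 : z ≤ 2) :
    0 ≤ Coef.val kppL [x, y, z] := by
  rcases le_total y (-1 / 2 : ℝ) with h | h
  ·
    rcases le_total z (3 / 2 : ℝ) with h | h
    ·
      rcases le_total x (3 / 4 : ℝ) with h | h
      ·
        exact box_seg (2) (3) (4) (-2) (-1) (2) (2) (3) (2) (l := kppL) (by decide +kernel) (by norm_num)
          (by push_cast; linarith) (by push_cast; linarith) (by push_cast; linarith) (by push_cast; linarith) (by push_cast; linarith) (by push_cast; linarith)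
      ·
        rcases le_total y (-3 / 4 : ℝ) with h | h
        ·
          rcases le_total z (5 / 4 : ℝ) with h | h
          ·
            exact box_seg (3) (4) (4) (-4) (-3) (4) (4) (5) (4) (l := kppL) (by decide +kernel) (by norm_num)
              (by push_cast; linarith) (by push_cast; linarith) (by push_cast; linarith) (by push_cast; linarith) (by push_cast; linarith) (by push_cast; linarith)
          ·
            exact box_seg (3) (4) (4) (-4) (-3) (4) (5) (6) (4) (l := kppL) (by decide +kernel) (by norm_num)
              (by push_cast; linarith) (by push_cast; linarith) (by push_cast; linarith) (by push_cast; linarith) (by push_cast; linarith) (by push_cast; linarith)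
        ·
          rcases le_total z (5 / 4 : ℝ) with h | h
          ·
            exact box_seg (3) (4) (4) (-3) (-2) (4) (4) (5) (4) (l := kppL) (by decide +kernel) (by norm_num)
              (by push_cast; linarith) (by push_cast; linarith) (by push_cast; linarith) (by push_cast; linarith) (by push_cast; linarith) (by push_cast; linarith)
          ·
            exact box_seg (3) (4) (4) (-3) (-2) (4) (5) (6) (4) (l := kppL) (by decide +kernel) (by norm_num)
              (by push_cast; linarith) (by push_cast; linarith) (by push_cast; linarith) (by push_cast; linarith) (by push_cast; linarith) (by push_cast; linarith)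
    ·
      exact box_seg (1) (2) (2) (-2) (-1) (2) (3) (4) (2) (l := kppL) (by decide +kernel) (by norm_num)
        (by push_cast; linarith) (by push_cast; linarith) (by push_cast; linarith) (by push_cast; linarith) (by push_cast; linarith) (by push_cast; linarith)
  ·
    rcases le_total z (3 / 2 : ℝ) with h | h
    ·
      exact box_seg (1) (2) (2) (-1) (0) (2) (2) (3) (2) (l := kppL) (by decide +kernel) (by norm_num)
        (by push_cast; linarith) (by push_cast; linarith) (by push_cast; linarith) (by push_cast; linarith) (by push_cast; linarith) (by push_cast; linarith)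
    ·
      exact box_seg (1) (2) (2) (-1) (0) (2) (3) (4) (2) (l := kppL) (by decide +kernel) (by norm_num)
        (by push_cast; linarith) (by push_cast; linarith) (by push_cast; linarith) (by push_cast; linarith) (by push_cast; linarith) (by push_cast; linarith)

theorem kppL_part8 {x y z : ℝ} (x0 : 0 ≤ x) (x1 : x ≤ 1) (y0 : 0 ≤ y) (y1 : y ≤ 1) (z0 : 1 ≤ z) (z1 : z ≤ 2) :
    0 ≤ Coef.val kppL [x, y, z] := by
  exact box_seg (0) (1) (1) (0) (1) (1) (1) (2) (1) (l := kppL) (by decide +kernel) (by norm_num)
    (by push_cast; linarith) (by push_cast; linarith) (by push_cast; linarith) (by push_cast; linarith) (by push_cast; linarith) (by push_cast; linarith)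

theorem kppL_part9 {x y z : ℝ} (x0 : -1 ≤ x) (x1 : x ≤ 1) (y0 : -1 ≤ y) (y1 : y ≤ 1) (z0 : 2 ≤ z) :
    0 ≤ Coef.val kppL [x, y, z] := by
  rcases le_total z (3 : ℝ) with h | h
  ·
    exact box_seg (-1) (1) (1) (-1) (1) (1) (2) (3) (1) (l := kppL) (by decide +kernel) (by norm_num)
      (by push_cast; linarith) (by push_cast; linarith) (by push_cast; linarith) (by push_cast; linarith) (by push_cast; linarith) (by push_cast; linarith)
  ·
    exact box_tail (-1) (1) (1) (-1) (1) (1) (3) (l := kppL) (by decide +kernel) (by norm_num)
      (by push_cast; linarith) (by push_cast; linarith) (by push_cast; linarith) (by push_cast; linarith) (by push_cast; linarith)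

theorem kppL_nonneg {x y z : ℝ} (x0 : -1 ≤ x) (x1 : x ≤ 1) (y0 : -1 ≤ y) (y1 : y ≤ 1) (z0 : 0 ≤ z) :
    0 ≤ Coef.val kppL [x, y, z] := by
  rcases le_total z (1 : ℝ) with h | h
  ·
    rcases le_total x (0 : ℝ) with h | h
    ·
      exact kppL_part0 (by linarith) (by linarith) (by linarith) (by linarith) (by linarith) (by linarith)
    ·
      rcases le_total y (0 : ℝ) with h | h
      ·
        exact kppL_part1 (by linarith) (by linarith) (by linarith) (by linarith) (by linarith) (by linarith)
      ·
        exact kppL_part2 (by linarith) (by linarith) (by linarith) (by linarith) (by linarith) (by linarith)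
  ·
    rcases le_total z (2 : ℝ) with h | h
    ·
      rcases le_total x (0 : ℝ) with h | h
      ·
        rcases le_total y (0 : ℝ) with h | h
        ·
          exact kppL_part3 (by linarith) (by linarith) (by linarith) (by linarith) (by linarith) (by linarith)
        ·
          rcases le_total x (-1 / 2 : ℝ) with h | h
          ·
            exact kppL_part4 (by linarith) (by linarith) (by linarith) (by linarith) (by linarith) (by linarith)
          ·
            exact kppL_part5 (by linarith) (by linarith) (by linarith) (by linarith) (by linarith) (by linarith)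
      ·
        rcases le_total y (0 : ℝ) with h | h
        ·
          rcases le_total x (1 / 2 : ℝ) with h | h
          ·
            exact kppL_part6 (by linarith) (by linarith) (by linarith) (by linarith) (by linarith) (by linarith)
          ·
            exact kppL_part7 (by linarith) (by linarith) (by linarith) (by linarith) (by linarith) (by linarith)
        ·
          exact kppL_part8 (by linarith) (by linarith) (by linarith) (by linarith) (by linarith) (by linarith)
    ·
      exact kppL_part9 (by linarith) (by linarith) (by linarith) (by linarith) (by linarith)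

/-- The symmetrised kernel with fixed signs. -/
def kpmL : List (List (List ℤ)) :=
  [[[80640, 0, 976080, -1484160, 710640, 0, 0, 18368],
    [0, -1419600, 1780992, -1309560, 1056576, -507600, 0, 0],
    [316512, 0, -790400, 624592, -203040, 0, 0, -9184],
    [0, 838320, -1038912, 678600, -517024, 253800, 0, 0],
    [-178416, 0, 151180, 58744, -76140, 0, 0, 0],
    [0, -32130, 37104, -5955, -2816, 0, 0, 0]],
   [[0, -905520, 1187328, -1214280, 1101632, -507600, 0, 0],
    [0, 0, 5140800, -5936640, 952800, 450560, 0, 0],
    [0, -2093840, 1038912, 1973560, -1258384, 253800, 0, 0],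
    [0, 0, -2570400, 2968320, -476400, -225280, 0, 0],
    [0, 1241170, -779184, -689165, 350968, 0, 0, 0],
    [0, 0, 0, 0, 0, 0, 0, 0]],
   [[316512, 0, -790400, 624592, -203040, 0, 0, -9184],
    [0, -1579760, 445248, 2068840, -1213328, 253800, 0, 0],
    [869344, 0, -1278440, 620464, -152280, 0, 0, 0],
    [0, 1016260, -519456, -730850, 331256, 0, 0, 0],
    [-613088, 0, 790400, -251488, 0, 0, 0, 0],
    [0, 0, 0, 0, 0, 0, 0, 0]],
   [[0, 324240, -445248, 583320, -562080, 253800, 0, 0],
    [0, 0, -2570400, 2968320, -476400, -225280, 0, 0],
    [0, 1401820, -964704, -659390, 365048, 0, 0, 0],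
    [0, 0, 0, 0, 0, 0, 0, 0],
    [0, 0, 0, 0, 0, 0, 0, 0],
    [0, 0, 0, 0, 0, 0, 0, 0]],
   [[-178416, 0, 151180, 58744, -76140, 0, 0, 0],
    [0, 1176910, -704976, -701075, 345336, 0, 0, 0],
    [-613088, 0, 790400, -251488, 0, 0, 0, 0],
    [0, 0, 0, 0, 0, 0, 0, 0],
    [0, 0, 0, 0, 0, 0, 0, 0],
    [0, 0, 0, 0, 0, 0, 0, 0]],
   [[0, 32130, -37104, 5955, 2816, 0, 0, 0],
    [0, 0, 0, 0, 0, 0, 0, 0],
    [0, 0, 0, 0, 0, 0, 0, 0],
    [0, 0, 0, 0, 0, 0, 0, 0],
    [0, 0, 0, 0, 0, 0, 0, 0],
    [0, 0, 0, 0, 0, 0, 0, 0]]]

theorem kpmL_part0 {x y z : ℝ} (x0 : -1 ≤ x) (x1 : x ≤ 0) (y0 : -1 ≤ y) (y1 : y ≤ 1) (z0 : 0 ≤ z) (z1 : z ≤ 1) :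
    0 ≤ Coef.val kpmL [x, y, z] := by
  rcases le_total y (0 : ℝ) with h | h
  ·
    exact box_seg (-1) (0) (1) (-1) (0) (1) (0) (1) (1) (l := kpmL) (by decide +kernel) (by norm_num)
      (by push_cast; linarith) (by push_cast; linarith) (by push_cast; linarith) (by push_cast; linarith) (by push_cast; linarith) (by push_cast; linarith)
  ·
    rcases le_total x (-1 / 2 : ℝ) with h | h
    ·
      rcases le_total y (1 / 2 : ℝ) with h | h
      ·
        exact box_seg (-2) (-1) (2) (0) (1) (2) (0) (1) (1) (l := kpmL) (by decide +kernel) (by norm_num)
          (by push_cast; linarith) (by push_cast; linarith) (by push_cast; linarith) (by push_cast; linarith) (by push_cast; linarith) (by push_cast; linarith)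
      ·
        exact box_seg (-2) (-1) (2) (1) (2) (2) (0) (1) (1) (l := kpmL) (by decide +kernel) (by norm_num)
          (by push_cast; linarith) (by push_cast; linarith) (by push_cast; linarith) (by push_cast; linarith) (by push_cast; linarith) (by push_cast; linarith)
    ·
      exact box_seg (-1) (0) (2) (0) (1) (1) (0) (1) (1) (l := kpmL) (by decide +kernel) (by norm_num)
        (by push_cast; linarith) (by push_cast; linarith) (by push_cast; linarith) (by push_cast; linarith) (by push_cast; linarith) (by push_cast; linarith)

theorem kpmL_part1 {x y z : ℝ} (x0 : 0 ≤ x) (x1 : x ≤ 1) (y0 : -1 ≤ y) (y1 : y ≤ 1) (z0 : 0 ≤ z) (z1 : z ≤ 1) :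
    0 ≤ Coef.val kpmL [x, y, z] := by
  rcases le_total y (0 : ℝ) with h | h
  ·
    rcases le_total x (1 / 2 : ℝ) with h | h
    ·
      exact box_seg (0) (1) (2) (-1) (0) (1) (0) (1) (1) (l := kpmL) (by decide +kernel) (by norm_num)
        (by push_cast; linarith) (by push_cast; linarith) (by push_cast; linarith) (by push_cast; linarith) (by push_cast; linarith) (by push_cast; linarith)
    ·
      exact box_seg (1) (2) (2) (-1) (0) (1) (0) (1) (1) (l := kpmL) (by decide +kernel) (by norm_num)
        (by push_cast; linarith) (by push_cast; linarith) (by push_cast; linarith) (by push_cast; linarith) (by push_cast; linarith) (by push_cast; linarith)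
  ·
    rcases le_total x (1 / 2 : ℝ) with h | h
    ·
      rcases le_total y (1 / 2 : ℝ) with h | h
      ·
        exact box_seg (0) (1) (2) (0) (1) (2) (0) (1) (1) (l := kpmL) (by decide +kernel) (by norm_num)
          (by push_cast; linarith) (by push_cast; linarith) (by push_cast; linarith) (by push_cast; linarith) (by push_cast; linarith) (by push_cast; linarith)
      ·
        rcases le_total z (1 / 2 : ℝ) with h | h
        ·
          exact box_seg (0) (1) (2) (1) (2) (2) (0) (1) (2) (l := kpmL) (by decide +kernel) (by norm_num)
            (by push_cast; linarith) (by push_cast; linarith) (by push_cast; linarith) (by push_cast; linarith) (by push_cast; linarith) (by push_cast; linarith)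
        ·
          exact box_seg (0) (1) (2) (1) (2) (2) (1) (2) (2) (l := kpmL) (by decide +kernel) (by norm_num)
            (by push_cast; linarith) (by push_cast; linarith) (by push_cast; linarith) (by push_cast; linarith) (by push_cast; linarith) (by push_cast; linarith)
    ·
      rcases le_total y (1 / 2 : ℝ) with h | h
      ·
        exact box_seg (1) (2) (2) (0) (1) (2) (0) (1) (1) (l := kpmL) (by decide +kernel) (by norm_num)
          (by push_cast; linarith) (by push_cast; linarith) (by push_cast; linarith) (by push_cast; linarith) (by push_cast; linarith) (by push_cast; linarith)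
      ·
        rcases le_total z (1 / 2 : ℝ) with h | h
        ·
          exact box_seg (1) (2) (2) (1) (2) (2) (0) (1) (2) (l := kpmL) (by decide +kernel) (by norm_num)
            (by push_cast; linarith) (by push_cast; linarith) (by push_cast; linarith) (by push_cast; linarith) (by push_cast; linarith) (by push_cast; linarith)
        ·
          exact box_seg (1) (2) (2) (1) (2) (2) (1) (2) (2) (l := kpmL) (by decide +kernel) (by norm_num)
            (by push_cast; linarith) (by push_cast; linarith) (by push_cast; linarith) (by push_cast; linarith) (by push_cast; linarith) (by push_cast; linarith)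

theorem kpmL_part2 {x y z : ℝ} (x0 : -1 ≤ x) (x1 : x ≤ 0) (y0 : -1 ≤ y) (y1 : y ≤ 0) (z0 : 1 ≤ z) (z1 : z ≤ 2) :
    0 ≤ Coef.val kpmL [x, y, z] := by
  rcases le_total x (-1 / 2 : ℝ) with h | h
  ·
    rcases le_total y (-1 / 2 : ℝ) with h | h
    ·
      rcases le_total z (3 / 2 : ℝ) with h | h
      ·
        exact box_seg (-2) (-1) (2) (-2) (-1) (2) (2) (3) (2) (l := kpmL) (by decide +kernel) (by norm_num)
          (by push_cast; linarith) (by push_cast; linarith) (by push_cast; linarith) (by push_cast; linarith) (by push_cast; linarith) (by push_cast; linarith)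
      ·
        exact box_seg (-2) (-1) (2) (-2) (-1) (2) (3) (4) (2) (l := kpmL) (by decide +kernel) (by norm_num)
          (by push_cast; linarith) (by push_cast; linarith) (by push_cast; linarith) (by push_cast; linarith) (by push_cast; linarith) (by push_cast; linarith)
    ·
      exact box_seg (-2) (-1) (2) (-1) (0) (2) (1) (2) (1) (l := kpmL) (by decide +kernel) (by norm_num)
        (by push_cast; linarith) (by push_cast; linarith) (by push_cast; linarith) (by push_cast; linarith) (by push_cast; linarith) (by push_cast; linarith)
  ·
    exact box_seg (-1) (0) (2) (-1) (0) (1) (1) (2) (1) (l := kpmL) (by decide +kernel) (by norm_num)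
      (by push_cast; linarith) (by push_cast; linarith) (by push_cast; linarith) (by push_cast; linarith) (by push_cast; linarith) (by push_cast; linarith)

theorem kpmL_part3 {x y z : ℝ} (x0 : -1 ≤ x) (x1 : x ≤ -1 / 2) (y0 : 0 ≤ y) (y1 : y ≤ 1) (z0 : 1 ≤ z) (z1 : z ≤ 2) :
    0 ≤ Coef.val kpmL [x, y, z] := by
  rcases le_total y (1 / 2 : ℝ) with h | h
  ·
    exact box_seg (-2) (-1) (2) (0) (1) (2) (1) (2) (1) (l := kpmL) (by decide +kernel) (by norm_num)
      (by push_cast; linarith) (by push_cast; linarith) (by push_cast; linarith) (by push_cast; linarith) (by push_cast; linarith) (by push_cast; linarith)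
  ·
    rcases le_total z (3 / 2 : ℝ) with h | h
    ·
      rcases le_total x (-3 / 4 : ℝ) with h | h
      ·
        rcases le_total y (3 / 4 : ℝ) with h | h
        ·
          exact box_seg (-4) (-3) (4) (2) (3) (4) (2) (3) (2) (l := kpmL) (by decide +kernel) (by norm_num)
            (by push_cast; linarith) (by push_cast; linarith) (by push_cast; linarith) (by push_cast; linarith) (by push_cast; linarith) (by push_cast; linarith)
        ·
          rcases le_total z (5 / 4 : ℝ) with h | h
          ·
            exact box_seg (-4) (-3) (4) (3) (4) (4) (4) (5) (4) (l := kpmL) (by decide +kernel) (by norm_num)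
              (by push_cast; linarith) (by push_cast; linarith) (by push_cast; linarith) (by push_cast; linarith) (by push_cast; linarith) (by push_cast; linarith)
          ·
            exact box_seg (-4) (-3) (4) (3) (4) (4) (5) (6) (4) (l := kpmL) (by decide +kernel) (by norm_num)
              (by push_cast; linarith) (by push_cast; linarith) (by push_cast; linarith) (by push_cast; linarith) (by push_cast; linarith) (by push_cast; linarith)
      ·
        rcases le_total y (3 / 4 : ℝ) with h | h
        ·
          exact box_seg (-3) (-2) (4) (2) (3) (4) (2) (3) (2) (l := kpmL) (by decide +kernel) (by norm_num)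
            (by push_cast; linarith) (by push_cast; linarith) (by push_cast; linarith) (by push_cast; linarith) (by push_cast; linarith) (by push_cast; linarith)
        ·
          rcases le_total z (5 / 4 : ℝ) with h | h
          ·
            exact box_seg (-3) (-2) (4) (3) (4) (4) (4) (5) (4) (l := kpmL) (by decide +kernel) (by norm_num)
              (by push_cast; linarith) (by push_cast; linarith) (by push_cast; linarith) (by push_cast; linarith) (by push_cast; linarith) (by push_cast; linarith)
          ·
            exact box_seg (-3) (-2) (4) (3) (4) (4) (5) (6) (4) (l := kpmL) (by decide +kernel) (by norm_num)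
              (by push_cast; linarith) (by push_cast; linarith) (by push_cast; linarith) (by push_cast; linarith) (by push_cast; linarith) (by push_cast; linarith)
    ·
      exact box_seg (-2) (-1) (2) (1) (2) (2) (3) (4) (2) (l := kpmL) (by decide +kernel) (by norm_num)
        (by push_cast; linarith) (by push_cast; linarith) (by push_cast; linarith) (by push_cast; linarith) (by push_cast; linarith) (by push_cast; linarith)

theorem kpmL_part4 {x y z : ℝ} (x0 : -1 / 2 ≤ x) (x1 : x ≤ 0) (y0 : 0 ≤ y) (y1 : y ≤ 1) (z0 : 1 ≤ z) (z1 : z ≤ 2) :
    0 ≤ Coef.val kpmL [x, y, z] := by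
  rcases le_total y (1 / 2 : ℝ) with h | h
  ·
    exact box_seg (-1) (0) (2) (0) (1) (2) (1) (2) (1) (l := kpmL) (by decide +kernel) (by norm_num)
      (by push_cast; linarith) (by push_cast; linarith) (by push_cast; linarith) (by push_cast; linarith) (by push_cast; linarith) (by push_cast; linarith)
  ·
    rcases le_total z (3 / 2 : ℝ) with h | h
    ·
      rcases le_total x (-1 / 4 : ℝ) with h | h
      ·
        rcases le_total y (3 / 4 : ℝ) with h | h
        ·
          exact box_seg (-2) (-1) (4) (2) (3) (4) (2) (3) (2) (l := kpmL) (by decide +kernel) (by norm_num)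
            (by push_cast; linarith) (by push_cast; linarith) (by push_cast; linarith) (by push_cast; linarith) (by push_cast; linarith) (by push_cast; linarith)
        ·
          rcases le_total z (5 / 4 : ℝ) with h | h
          ·
            exact box_seg (-2) (-1) (4) (3) (4) (4) (4) (5) (4) (l := kpmL) (by decide +kernel) (by norm_num)
              (by push_cast; linarith) (by push_cast; linarith) (by push_cast; linarith) (by push_cast; linarith) (by push_cast; linarith) (by push_cast; linarith)
          ·
            exact box_seg (-2) (-1) (4) (3) (4) (4) (5) (6) (4) (l := kpmL) (by decide +kernel) (by norm_num)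
              (by push_cast; linarith) (by push_cast; linarith) (by push_cast; linarith) (by push_cast; linarith) (by push_cast; linarith) (by push_cast; linarith)
      ·
        exact box_seg (-1) (0) (4) (1) (2) (2) (2) (3) (2) (l := kpmL) (by decide +kernel) (by norm_num)
          (by push_cast; linarith) (by push_cast; linarith) (by push_cast; linarith) (by push_cast; linarith) (by push_cast; linarith) (by push_cast; linarith)
    ·
      exact box_seg (-1) (0) (2) (1) (2) (2) (3) (4) (2) (l := kpmL) (by decide +kernel) (by norm_num)
        (by push_cast; linarith) (by push_cast; linarith) (by push_cast; linarith) (by push_cast; linarith) (by push_cast; linarith) (by push_cast; linarith)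

theorem kpmL_part5 {x y z : ℝ} (x0 : 0 ≤ x) (x1 : x ≤ 1) (y0 : -1 ≤ y) (y1 : y ≤ 0) (z0 : 1 ≤ z) (z1 : z ≤ 2) :
    0 ≤ Coef.val kpmL [x, y, z] := by
  rcases le_total x (1 / 2 : ℝ) with h | h
  ·
    exact box_seg (0) (1) (2) (-1) (0) (1) (1) (2) (1) (l := kpmL) (by decide +kernel) (by norm_num)
      (by push_cast; linarith) (by push_cast; linarith) (by push_cast; linarith) (by push_cast; linarith) (by push_cast; linarith) (by push_cast; linarith)
  ·
    rcases le_total y (-1 / 2 : ℝ) with h | h
    ·
      rcases le_total z (3 / 2 : ℝ) with h | h
      ·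
        rcases le_total x (3 / 4 : ℝ) with h | h
        ·
          exact box_seg (2) (3) (4) (-2) (-1) (2) (2) (3) (2) (l := kpmL) (by decide +kernel) (by norm_num)
            (by push_cast; linarith) (by push_cast; linarith) (by push_cast; linarith) (by push_cast; linarith) (by push_cast; linarith) (by push_cast; linarith)
        ·
          rcases le_total y (-3 / 4 : ℝ) with h | h
          ·
            rcases le_total z (5 / 4 : ℝ) with h | h
            ·
              exact box_seg (3) (4) (4) (-4) (-3) (4) (4) (5) (4) (l := kpmL) (by decide +kernel) (by norm_num)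
                (by push_cast; linarith) (by push_cast; linarith) (by push_cast; linarith) (by push_cast; linarith) (by push_cast; linarith) (by push_cast; linarith)
            ·
              exact box_seg (3) (4) (4) (-4) (-3) (4) (5) (6) (4) (l := kpmL) (by decide +kernel) (by norm_num)
                (by push_cast; linarith) (by push_cast; linarith) (by push_cast; linarith) (by push_cast; linarith) (by push_cast; linarith) (by push_cast; linarith)
          ·
            exact box_seg (3) (4) (4) (-3) (-2) (4) (2) (3) (2) (l := kpmL) (by decide +kernel) (by norm_num)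
              (by push_cast; linarith) (by push_cast; linarith) (by push_cast; linarith) (by push_cast; linarith) (by push_cast; linarith) (by push_cast; linarith)
      ·
        exact box_seg (1) (2) (2) (-2) (-1) (2) (3) (4) (2) (l := kpmL) (by decide +kernel) (by norm_num)
          (by push_cast; linarith) (by push_cast; linarith) (by push_cast; linarith) (by push_cast; linarith) (by push_cast; linarith) (by push_cast; linarith)
    ·
      rcases le_total z (3 / 2 : ℝ) with h | h
      ·
        exact box_seg (1) (2) (2) (-1) (0) (2) (2) (3) (2) (l := kpmL) (by decide +kernel) (by norm_num)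
          (by push_cast; linarith) (by push_cast; linarith) (by push_cast; linarith) (by push_cast; linarith) (by push_cast; linarith) (by push_cast; linarith)
      ·
        exact box_seg (1) (2) (2) (-1) (0) (2) (3) (4) (2) (l := kpmL) (by decide +kernel) (by norm_num)
          (by push_cast; linarith) (by push_cast; linarith) (by push_cast; linarith) (by push_cast; linarith) (by push_cast; linarith) (by push_cast; linarith)

theorem kpmL_part6 {x y z : ℝ} (x0 : 0 ≤ x) (x1 : x ≤ 1) (y0 : 0 ≤ y) (y1 : y ≤ 1) (z0 : 1 ≤ z) (z1 : z ≤ 2) :
    0 ≤ Coef.val kpmL [x, y, z] := by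
  rcases le_total x (1 / 2 : ℝ) with h | h
  ·
    exact box_seg (0) (1) (2) (0) (1) (1) (1) (2) (1) (l := kpmL) (by decide +kernel) (by norm_num)
      (by push_cast; linarith) (by push_cast; linarith) (by push_cast; linarith) (by push_cast; linarith) (by push_cast; linarith) (by push_cast; linarith)
  ·
    rcases le_total y (1 / 2 : ℝ) with h | h
    ·
      exact box_seg (1) (2) (2) (0) (1) (2) (1) (2) (1) (l := kpmL) (by decide +kernel) (by norm_num)
        (by push_cast; linarith) (by push_cast; linarith) (by push_cast; linarith) (by push_cast; linarith) (by push_cast; linarith) (by push_cast; linarith)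
    ·
      rcases le_total z (3 / 2 : ℝ) with h | h
      ·
        exact box_seg (1) (2) (2) (1) (2) (2) (2) (3) (2) (l := kpmL) (by decide +kernel) (by norm_num)
          (by push_cast; linarith) (by push_cast; linarith) (by push_cast; linarith) (by push_cast; linarith) (by push_cast; linarith) (by push_cast; linarith)
      ·
        exact box_seg (1) (2) (2) (1) (2) (2) (3) (4) (2) (l := kpmL) (by decide +kernel) (by norm_num)
          (by push_cast; linarith) (by push_cast; linarith) (by push_cast; linarith) (by push_cast; linarith) (by push_cast; linarith) (by push_cast; linarith)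

theorem kpmL_part7 {x y z : ℝ} (x0 : -1 ≤ x) (x1 : x ≤ 1) (y0 : -1 ≤ y) (y1 : y ≤ 1) (z0 : 2 ≤ z) :
    0 ≤ Coef.val kpmL [x, y, z] := by
  rcases le_total z (3 : ℝ) with h | h
  ·
    exact box_seg (-1) (1) (1) (-1) (1) (1) (2) (3) (1) (l := kpmL) (by decide +kernel) (by norm_num)
      (by push_cast; linarith) (by push_cast; linarith) (by push_cast; linarith) (by push_cast; linarith) (by push_cast; linarith) (by push_cast; linarith)
  ·
    exact box_tail (-1) (1) (1) (-1) (1) (1) (3) (l := kpmL) (by decide +kernel) (by norm_num)
      (by push_cast; linarith) (by push_cast; linarith) (by push_cast; linarith) (by push_cast; linarith) (by push_cast; linarith)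

theorem kpmL_nonneg {x y z : ℝ} (x0 : -1 ≤ x) (x1 : x ≤ 1) (y0 : -1 ≤ y) (y1 : y ≤ 1) (z0 : 0 ≤ z) :
    0 ≤ Coef.val kpmL [x, y, z] := by
  rcases le_total z (1 : ℝ) with h | h
  ·
    rcases le_total x (0 : ℝ) with h | h
    ·
      exact kpmL_part0 (by linarith) (by linarith) (by linarith) (by linarith) (by linarith) (by linarith)
    ·
      exact kpmL_part1 (by linarith) (by linarith) (by linarith) (by linarith) (by linarith) (by linarith)
  ·
    rcases le_total z (2 : ℝ) with h | h
    ·
      rcases le_total x (0 : ℝ) with h | h
      ·
        rcases le_total y (0 : ℝ) with h | h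
        ·
          exact kpmL_part2 (by linarith) (by linarith) (by linarith) (by linarith) (by linarith) (by linarith)
        ·
          rcases le_total x (-1 / 2 : ℝ) with h | h
          ·
            exact kpmL_part3 (by linarith) (by linarith) (by linarith) (by linarith) (by linarith) (by linarith)
          ·
            exact kpmL_part4 (by linarith) (by linarith) (by linarith) (by linarith) (by linarith) (by linarith)
      ·
        rcases le_total y (0 : ℝ) with h | h
        ·
          exact kpmL_part5 (by linarith) (by linarith) (by linarith) (by linarith) (by linarith) (by linarith)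
        ·
          exact kpmL_part6 (by linarith) (by linarith) (by linarith) (by linarith) (by linarith) (by linarith)
    ·
      exact kpmL_part7 (by linarith) (by linarith) (by linarith) (by linarith) (by linarith)

/-- The symmetrised kernel with fixed signs. -/
def kmmL : List (List (List ℤ)) :=
  [[[80640, 0, 976080, -1484160, 710640, 0, 0, 18368],
    [0, -1419600, 1780992, -1309560, 1056576, -507600, 0, 0],
    [316512, 0, -790400, 624592, -203040, 0, 0, -9184],
    [0, 838320, -1038912, 678600, -517024, 253800, 0, 0],
    [-178416, 0, 151180, 58744, -76140, 0, 0, 0],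
    [0, -32130, 37104, -5955, -2816, 0, 0, 0]],
   [[0, -1419600, 1780992, -1309560, 1056576, -507600, 0, 0],
    [350336, 0, 4508480, -5685152, 952800, 450560, 0, 0],
    [0, -1579760, 445248, 2068840, -1213328, 253800, 0, 0],
    [-350336, 0, -1938080, 2716832, -476400, -225280, 0, 0],
    [0, 1176910, -704976, -701075, 345336, 0, 0, 0],
    [43792, 0, -79040, 31436, 0, 0, 0, 0]],
   [[316512, 0, -790400, 624592, -203040, 0, 0, -9184],
    [0, -1579760, 445248, 2068840, -1213328, 253800, 0, 0],
    [869344, 0, -1278440, 620464, -152280, 0, 0, 0],
    [0, 1016260, -519456, -730850, 331256, 0, 0, 0],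
    [-613088, 0, 790400, -251488, 0, 0, 0, 0],
    [0, 0, 0, 0, 0, 0, 0, 0]],
   [[0, 838320, -1038912, 678600, -517024, 253800, 0, 0],
    [-350336, 0, -1938080, 2716832, -476400, -225280, 0, 0],
    [0, 1016260, -519456, -730850, 331256, 0, 0, 0],
    [262752, 0, -474240, 188616, 0, 0, 0, 0],
    [0, 0, 0, 0, 0, 0, 0, 0],
    [0, 0, 0, 0, 0, 0, 0, 0]],
   [[-178416, 0, 151180, 58744, -76140, 0, 0, 0],
    [0, 1176910, -704976, -701075, 345336, 0, 0, 0],
    [-613088, 0, 790400, -251488, 0, 0, 0, 0],
    [0, 0, 0, 0, 0, 0, 0, 0],
    [0, 0, 0, 0, 0, 0, 0, 0],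
    [0, 0, 0, 0, 0, 0, 0, 0]],
   [[0, -32130, 37104, -5955, -2816, 0, 0, 0],
    [43792, 0, -79040, 31436, 0, 0, 0, 0],
    [0, 0, 0, 0, 0, 0, 0, 0],
    [0, 0, 0, 0, 0, 0, 0, 0],
    [0, 0, 0, 0, 0, 0, 0, 0],
    [0, 0, 0, 0, 0, 0, 0, 0]]]

theorem kmmL_part0 {x y z : ℝ} (x0 : -1 ≤ x) (x1 : x ≤ 0) (y0 : -1 ≤ y) (y1 : y ≤ 1) (z0 : 0 ≤ z) (z1 : z ≤ 1) :
    0 ≤ Coef.val kmmL [x, y, z] := by
  rcases le_total y (0 : ℝ) with h | h
  ·
    exact box_seg (-1) (0) (1) (-1) (0) (1) (0) (1) (1) (l := kmmL) (by decide +kernel) (by norm_num)
      (by push_cast; linarith) (by push_cast; linarith) (by push_cast; linarith) (by push_cast; linarith) (by push_cast; linarith) (by push_cast; linarith)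
  ·
    rcases le_total x (-1 / 2 : ℝ) with h | h
    ·
      rcases le_total y (1 / 2 : ℝ) with h | h
      ·
        exact box_seg (-2) (-1) (2) (0) (1) (2) (0) (1) (1) (l := kmmL) (by decide +kernel) (by norm_num)
          (by push_cast; linarith) (by push_cast; linarith) (by push_cast; linarith) (by push_cast; linarith) (by push_cast; linarith) (by push_cast; linarith)
      ·
        exact box_seg (-2) (-1) (2) (1) (2) (2) (0) (1) (1) (l := kmmL) (by decide +kernel) (by norm_num)
          (by push_cast; linarith) (by push_cast; linarith) (by push_cast; linarith) (by push_cast; linarith) (by push_cast; linarith) (by push_cast; linarith)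
    ·
      exact box_seg (-1) (0) (2) (0) (1) (1) (0) (1) (1) (l := kmmL) (by decide +kernel) (by norm_num)
        (by push_cast; linarith) (by push_cast; linarith) (by push_cast; linarith) (by push_cast; linarith) (by push_cast; linarith) (by push_cast; linarith)

theorem kmmL_part1 {x y z : ℝ} (x0 : 0 ≤ x) (x1 : x ≤ 1) (y0 : -1 ≤ y) (y1 : y ≤ 0) (z0 : 0 ≤ z) (z1 : z ≤ 1) :
    0 ≤ Coef.val kmmL [x, y, z] := by
  rcases le_total x (1 / 2 : ℝ) with h | h
  ·
    exact box_seg (0) (1) (2) (-1) (0) (1) (0) (1) (1) (l := kmmL) (by decide +kernel) (by norm_num)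
      (by push_cast; linarith) (by push_cast; linarith) (by push_cast; linarith) (by push_cast; linarith) (by push_cast; linarith) (by push_cast; linarith)
  ·
    exact box_seg (1) (2) (2) (-1) (0) (1) (0) (1) (1) (l := kmmL) (by decide +kernel) (by norm_num)
      (by push_cast; linarith) (by push_cast; linarith) (by push_cast; linarith) (by push_cast; linarith) (by push_cast; linarith) (by push_cast; linarith)

theorem kmmL_part2 {x y z : ℝ} (x0 : 0 ≤ x) (x1 : x ≤ 1) (y0 : 0 ≤ y) (y1 : y ≤ 1) (z0 : 0 ≤ z) (z1 : z ≤ 1) :
    0 ≤ Coef.val kmmL [x, y, z] := by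
  rcases le_total x (1 / 2 : ℝ) with h | h
  ·
    rcases le_total y (1 / 2 : ℝ) with h | h
    ·
      exact box_seg (0) (1) (2) (0) (1) (2) (0) (1) (1) (l := kmmL) (by decide +kernel) (by norm_num)
        (by push_cast; linarith) (by push_cast; linarith) (by push_cast; linarith) (by push_cast; linarith) (by push_cast; linarith) (by push_cast; linarith)
    ·
      exact box_seg (0) (1) (2) (1) (2) (2) (0) (1) (1) (l := kmmL) (by decide +kernel) (by norm_num)
        (by push_cast; linarith) (by push_cast; linarith) (by push_cast; linarith) (by push_cast; linarith) (by push_cast; linarith) (by push_cast; linarith)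
  ·
    rcases le_total y (1 / 2 : ℝ) with h | h
    ·
      exact box_seg (1) (2) (2) (0) (1) (2) (0) (1) (1) (l := kmmL) (by decide +kernel) (by norm_num)
        (by push_cast; linarith) (by push_cast; linarith) (by push_cast; linarith) (by push_cast; linarith) (by push_cast; linarith) (by push_cast; linarith)
    ·
      rcases le_total z (1 / 2 : ℝ) with h | h
      ·
        exact box_seg (1) (2) (2) (1) (2) (2) (0) (1) (2) (l := kmmL) (by decide +kernel) (by norm_num)
          (by push_cast; linarith) (by push_cast; linarith) (by push_cast; linarith) (by push_cast; linarith) (by push_cast; linarith) (by push_cast; linarith)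
      ·
        rcases le_total x (3 / 4 : ℝ) with h | h
        ·
          exact box_seg (2) (3) (4) (1) (2) (2) (1) (2) (2) (l := kmmL) (by decide +kernel) (by norm_num)
            (by push_cast; linarith) (by push_cast; linarith) (by push_cast; linarith) (by push_cast; linarith) (by push_cast; linarith) (by push_cast; linarith)
        ·
          rcases le_total y (3 / 4 : ℝ) with h | h
          ·
            exact box_seg (3) (4) (4) (2) (3) (4) (1) (2) (2) (l := kmmL) (by decide +kernel) (by norm_num)
              (by push_cast; linarith) (by push_cast; linarith) (by push_cast; linarith) (by push_cast; linarith) (by push_cast; linarith) (by push_cast; linarith)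
          ·
            rcases le_total z (3 / 4 : ℝ) with h | h
            ·
              exact box_seg (3) (4) (4) (3) (4) (4) (2) (3) (4) (l := kmmL) (by decide +kernel) (by norm_num)
                (by push_cast; linarith) (by push_cast; linarith) (by push_cast; linarith) (by push_cast; linarith) (by push_cast; linarith) (by push_cast; linarith)
            ·
              exact box_seg (3) (4) (4) (3) (4) (4) (3) (4) (4) (l := kmmL) (by decide +kernel) (by norm_num)
                (by push_cast; linarith) (by push_cast; linarith) (by push_cast; linarith) (by push_cast; linarith) (by push_cast; linarith) (by push_cast; linarith)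

theorem kmmL_part3 {x y z : ℝ} (x0 : -1 ≤ x) (x1 : x ≤ 0) (y0 : -1 ≤ y) (y1 : y ≤ 0) (z0 : 1 ≤ z) (z1 : z ≤ 2) :
    0 ≤ Coef.val kmmL [x, y, z] := by
  rcases le_total x (-1 / 2 : ℝ) with h | h
  ·
    rcases le_total y (-1 / 2 : ℝ) with h | h
    ·
      rcases le_total z (3 / 2 : ℝ) with h | h
      ·
        exact box_seg (-2) (-1) (2) (-2) (-1) (2) (2) (3) (2) (l := kmmL) (by decide +kernel) (by norm_num)
          (by push_cast; linarith) (by push_cast; linarith) (by push_cast; linarith) (by push_cast; linarith) (by push_cast; linarith) (by push_cast; linarith)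
      ·
        exact box_seg (-2) (-1) (2) (-2) (-1) (2) (3) (4) (2) (l := kmmL) (by decide +kernel) (by norm_num)
          (by push_cast; linarith) (by push_cast; linarith) (by push_cast; linarith) (by push_cast; linarith) (by push_cast; linarith) (by push_cast; linarith)
    ·
      exact box_seg (-2) (-1) (2) (-1) (0) (2) (1) (2) (1) (l := kmmL) (by decide +kernel) (by norm_num)
        (by push_cast; linarith) (by push_cast; linarith) (by push_cast; linarith) (by push_cast; linarith) (by push_cast; linarith) (by push_cast; linarith)
  ·
    exact box_seg (-1) (0) (2) (-1) (0) (1) (1) (2) (1) (l := kmmL) (by decide +kernel) (by norm_num)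
      (by push_cast; linarith) (by push_cast; linarith) (by push_cast; linarith) (by push_cast; linarith) (by push_cast; linarith) (by push_cast; linarith)

theorem kmmL_part4 {x y z : ℝ} (x0 : -1 ≤ x) (x1 : x ≤ -1 / 2) (y0 : 0 ≤ y) (y1 : y ≤ 1) (z0 : 1 ≤ z) (z1 : z ≤ 2) :
    0 ≤ Coef.val kmmL [x, y, z] := by
  rcases le_total y (1 / 2 : ℝ) with h | h
  ·
    exact box_seg (-2) (-1) (2) (0) (1) (2) (1) (2) (1) (l := kmmL) (by decide +kernel) (by norm_num)
      (by push_cast; linarith) (by push_cast; linarith) (by push_cast; linarith) (by push_cast; linarith) (by push_cast; linarith) (by push_cast; linarith)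
  ·
    rcases le_total z (3 / 2 : ℝ) with h | h
    ·
      rcases le_total x (-3 / 4 : ℝ) with h | h
      ·
        rcases le_total y (3 / 4 : ℝ) with h | h
        ·
          exact box_seg (-4) (-3) (4) (2) (3) (4) (2) (3) (2) (l := kmmL) (by decide +kernel) (by norm_num)
            (by push_cast; linarith) (by push_cast; linarith) (by push_cast; linarith) (by push_cast; linarith) (by push_cast; linarith) (by push_cast; linarith)
        ·
          rcases le_total z (5 / 4 : ℝ) with h | h
          ·
            exact box_seg (-4) (-3) (4) (3) (4) (4) (4) (5) (4) (l := kmmL) (by decide +kernel) (by norm_num)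
              (by push_cast; linarith) (by push_cast; linarith) (by push_cast; linarith) (by push_cast; linarith) (by push_cast; linarith) (by push_cast; linarith)
          ·
            exact box_seg (-4) (-3) (4) (3) (4) (4) (5) (6) (4) (l := kmmL) (by decide +kernel) (by norm_num)
              (by push_cast; linarith) (by push_cast; linarith) (by push_cast; linarith) (by push_cast; linarith) (by push_cast; linarith) (by push_cast; linarith)
      ·
        exact box_seg (-3) (-2) (4) (1) (2) (2) (2) (3) (2) (l := kmmL) (by decide +kernel) (by norm_num)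
          (by push_cast; linarith) (by push_cast; linarith) (by push_cast; linarith) (by push_cast; linarith) (by push_cast; linarith) (by push_cast; linarith)
    ·
      exact box_seg (-2) (-1) (2) (1) (2) (2) (3) (4) (2) (l := kmmL) (by decide +kernel) (by norm_num)
        (by push_cast; linarith) (by push_cast; linarith) (by push_cast; linarith) (by push_cast; linarith) (by push_cast; linarith) (by push_cast; linarith)

theorem kmmL_part5 {x y z : ℝ} (x0 : -1 / 2 ≤ x) (x1 : x ≤ 0) (y0 : 0 ≤ y) (y1 : y ≤ 1) (z0 : 1 ≤ z) (z1 : z ≤ 2) :
    0 ≤ Coef.val kmmL [x, y, z] := by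
  rcases le_total y (1 / 2 : ℝ) with h | h
  ·
    exact box_seg (-1) (0) (2) (0) (1) (2) (1) (2) (1) (l := kmmL) (by decide +kernel) (by norm_num)
      (by push_cast; linarith) (by push_cast; linarith) (by push_cast; linarith) (by push_cast; linarith) (by push_cast; linarith) (by push_cast; linarith)
  ·
    rcases le_total z (3 / 2 : ℝ) with h | h
    ·
      exact box_seg (-1) (0) (2) (1) (2) (2) (2) (3) (2) (l := kmmL) (by decide +kernel) (by norm_num)
        (by push_cast; linarith) (by push_cast; linarith) (by push_cast; linarith) (by push_cast; linarith) (by push_cast; linarith) (by push_cast; linarith)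
    ·
      exact box_seg (-1) (0) (2) (1) (2) (2) (3) (4) (2) (l := kmmL) (by decide +kernel) (by norm_num)
        (by push_cast; linarith) (by push_cast; linarith) (by push_cast; linarith) (by push_cast; linarith) (by push_cast; linarith) (by push_cast; linarith)

theorem kmmL_part6 {x y z : ℝ} (x0 : 0 ≤ x) (x1 : x ≤ 1) (y0 : -1 ≤ y) (y1 : y ≤ 0) (z0 : 1 ≤ z) (z1 : z ≤ 2) :
    0 ≤ Coef.val kmmL [x, y, z] := by
  rcases le_total x (1 / 2 : ℝ) with h | h
  ·
    exact box_seg (0) (1) (2) (-1) (0) (1) (1) (2) (1) (l := kmmL) (by decide +kernel) (by norm_num)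
      (by push_cast; linarith) (by push_cast; linarith) (by push_cast; linarith) (by push_cast; linarith) (by push_cast; linarith) (by push_cast; linarith)
  ·
    rcases le_total y (-1 / 2 : ℝ) with h | h
    ·
      rcases le_total z (3 / 2 : ℝ) with h | h
      ·
        rcases le_total x (3 / 4 : ℝ) with h | h
        ·
          exact box_seg (2) (3) (4) (-2) (-1) (2) (2) (3) (2) (l := kmmL) (by decide +kernel) (by norm_num)
            (by push_cast; linarith) (by push_cast; linarith) (by push_cast; linarith) (by push_cast; linarith) (by push_cast; linarith) (by push_cast; linarith)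
        ·
          rcases le_total y (-3 / 4 : ℝ) with h | h
          ·
            rcases le_total z (5 / 4 : ℝ) with h | h
            ·
              exact box_seg (3) (4) (4) (-4) (-3) (4) (4) (5) (4) (l := kmmL) (by decide +kernel) (by norm_num)
                (by push_cast; linarith) (by push_cast; linarith) (by push_cast; linarith) (by push_cast; linarith) (by push_cast; linarith) (by push_cast; linarith)
            ·
              exact box_seg (3) (4) (4) (-4) (-3) (4) (5) (6) (4) (l := kmmL) (by decide +kernel) (by norm_num)
                (by push_cast; linarith) (by push_cast; linarith) (by push_cast; linarith) (by push_cast; linarith) (by push_cast; linarith) (by push_cast; linarith)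
          ·
            exact box_seg (3) (4) (4) (-3) (-2) (4) (2) (3) (2) (l := kmmL) (by decide +kernel) (by norm_num)
              (by push_cast; linarith) (by push_cast; linarith) (by push_cast; linarith) (by push_cast; linarith) (by push_cast; linarith) (by push_cast; linarith)
      ·
        exact box_seg (1) (2) (2) (-2) (-1) (2) (3) (4) (2) (l := kmmL) (by decide +kernel) (by norm_num)
          (by push_cast; linarith) (by push_cast; linarith) (by push_cast; linarith) (by push_cast; linarith) (by push_cast; linarith) (by push_cast; linarith)
    ·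
      rcases le_total z (3 / 2 : ℝ) with h | h
      ·
        exact box_seg (1) (2) (2) (-1) (0) (2) (2) (3) (2) (l := kmmL) (by decide +kernel) (by norm_num)
          (by push_cast; linarith) (by push_cast; linarith) (by push_cast; linarith) (by push_cast; linarith) (by push_cast; linarith) (by push_cast; linarith)
      ·
        exact box_seg (1) (2) (2) (-1) (0) (2) (3) (4) (2) (l := kmmL) (by decide +kernel) (by norm_num)
          (by push_cast; linarith) (by push_cast; linarith) (by push_cast; linarith) (by push_cast; linarith) (by push_cast; linarith) (by push_cast; linarith)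

theorem kmmL_part7 {x y z : ℝ} (x0 : 0 ≤ x) (x1 : x ≤ 1 / 2) (y0 : 0 ≤ y) (y1 : y ≤ 1) (z0 : 1 ≤ z) (z1 : z ≤ 2) :
    0 ≤ Coef.val kmmL [x, y, z] := by
  exact box_seg (0) (1) (2) (0) (1) (1) (1) (2) (1) (l := kmmL) (by decide +kernel) (by norm_num)
    (by push_cast; linarith) (by push_cast; linarith) (by push_cast; linarith) (by push_cast; linarith) (by push_cast; linarith) (by push_cast; linarith)

theorem kmmL_part8 {x y z : ℝ} (x0 : 1 / 2 ≤ x) (x1 : x ≤ 1) (y0 : 0 ≤ y) (y1 : y ≤ 1 / 2) (z0 : 1 ≤ z) (z1 : z ≤ 2) :
    0 ≤ Coef.val kmmL [x, y, z] := by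
  exact box_seg (1) (2) (2) (0) (1) (2) (1) (2) (1) (l := kmmL) (by decide +kernel) (by norm_num)
    (by push_cast; linarith) (by push_cast; linarith) (by push_cast; linarith) (by push_cast; linarith) (by push_cast; linarith) (by push_cast; linarith)

theorem kmmL_part9 {x y z : ℝ} (x0 : 1 / 2 ≤ x) (x1 : x ≤ 1) (y0 : 1 / 2 ≤ y) (y1 : y ≤ 1) (z0 : 1 ≤ z) (z1 : z ≤ 3 / 2) :
    0 ≤ Coef.val kmmL [x, y, z] := by
  rcases le_total x (3 / 4 : ℝ) with h | h
  ·
    rcases le_total y (3 / 4 : ℝ) with h | h
    ·
      exact box_seg (2) (3) (4) (2) (3) (4) (2) (3) (2) (l := kmmL) (by decide +kernel) (by norm_num)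
        (by push_cast; linarith) (by push_cast; linarith) (by push_cast; linarith) (by push_cast; linarith) (by push_cast; linarith) (by push_cast; linarith)
    ·
      exact box_seg (2) (3) (4) (3) (4) (4) (2) (3) (2) (l := kmmL) (by decide +kernel) (by norm_num)
        (by push_cast; linarith) (by push_cast; linarith) (by push_cast; linarith) (by push_cast; linarith) (by push_cast; linarith) (by push_cast; linarith)
  ·
    rcases le_total y (3 / 4 : ℝ) with h | h
    ·
      exact box_seg (3) (4) (4) (2) (3) (4) (2) (3) (2) (l := kmmL) (by decide +kernel) (by norm_num)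
        (by push_cast; linarith) (by push_cast; linarith) (by push_cast; linarith) (by push_cast; linarith) (by push_cast; linarith) (by push_cast; linarith)
    ·
      rcases le_total z (5 / 4 : ℝ) with h | h
      ·
        exact box_seg (3) (4) (4) (3) (4) (4) (4) (5) (4) (l := kmmL) (by decide +kernel) (by norm_num)
          (by push_cast; linarith) (by push_cast; linarith) (by push_cast; linarith) (by push_cast; linarith) (by push_cast; linarith) (by push_cast; linarith)
      ·
        rcases le_total x (7 / 8 : ℝ) with h | h
        ·
          exact box_seg (6) (7) (8) (3) (4) (4) (5) (6) (4) (l := kmmL) (by decide +kernel) (by norm_num)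
            (by push_cast; linarith) (by push_cast; linarith) (by push_cast; linarith) (by push_cast; linarith) (by push_cast; linarith) (by push_cast; linarith)
        ·
          exact box_seg (7) (8) (8) (3) (4) (4) (5) (6) (4) (l := kmmL) (by decide +kernel) (by norm_num)
            (by push_cast; linarith) (by push_cast; linarith) (by push_cast; linarith) (by push_cast; linarith) (by push_cast; linarith) (by push_cast; linarith)

theorem kmmL_part10 {x y z : ℝ} (x0 : 1 / 2 ≤ x) (x1 : x ≤ 1) (y0 : 1 / 2 ≤ y) (y1 : y ≤ 1) (z0 : 3 / 2 ≤ z) (z1 : z ≤ 2) :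
    0 ≤ Coef.val kmmL [x, y, z] := by
  rcases le_total x (3 / 4 : ℝ) with h | h
  ·
    rcases le_total y (3 / 4 : ℝ) with h | h
    ·
      exact box_seg (2) (3) (4) (2) (3) (4) (3) (4) (2) (l := kmmL) (by decide +kernel) (by norm_num)
        (by push_cast; linarith) (by push_cast; linarith) (by push_cast; linarith) (by push_cast; linarith) (by push_cast; linarith) (by push_cast; linarith)
    ·
      exact box_seg (2) (3) (4) (3) (4) (4) (3) (4) (2) (l := kmmL) (by decide +kernel) (by norm_num)
        (by push_cast; linarith) (by push_cast; linarith) (by push_cast; linarith) (by push_cast; linarith) (by push_cast; linarith) (by push_cast; linarith)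
  ·
    rcases le_total y (3 / 4 : ℝ) with h | h
    ·
      exact box_seg (3) (4) (4) (2) (3) (4) (3) (4) (2) (l := kmmL) (by decide +kernel) (by norm_num)
        (by push_cast; linarith) (by push_cast; linarith) (by push_cast; linarith) (by push_cast; linarith) (by push_cast; linarith) (by push_cast; linarith)
    ·
      rcases le_total z (7 / 4 : ℝ) with h | h
      ·
        rcases le_total x (7 / 8 : ℝ) with h | h
        ·
          rcases le_total y (7 / 8 : ℝ) with h | h
          ·
            exact box_seg (6) (7) (8) (6) (7) (8) (6) (7) (4) (l := kmmL) (by decide +kernel) (by norm_num)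
              (by push_cast; linarith) (by push_cast; linarith) (by push_cast; linarith) (by push_cast; linarith) (by push_cast; linarith) (by push_cast; linarith)
          ·
            exact box_seg (6) (7) (8) (7) (8) (8) (6) (7) (4) (l := kmmL) (by decide +kernel) (by norm_num)
              (by push_cast; linarith) (by push_cast; linarith) (by push_cast; linarith) (by push_cast; linarith) (by push_cast; linarith) (by push_cast; linarith)
        ·
          exact box_seg (7) (8) (8) (3) (4) (4) (6) (7) (4) (l := kmmL) (by decide +kernel) (by norm_num)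
            (by push_cast; linarith) (by push_cast; linarith) (by push_cast; linarith) (by push_cast; linarith) (by push_cast; linarith) (by push_cast; linarith)
      ·
        rcases le_total x (7 / 8 : ℝ) with h | h
        ·
          exact box_seg (6) (7) (8) (3) (4) (4) (7) (8) (4) (l := kmmL) (by decide +kernel) (by norm_num)
            (by push_cast; linarith) (by push_cast; linarith) (by push_cast; linarith) (by push_cast; linarith) (by push_cast; linarith) (by push_cast; linarith)
        ·
          exact box_seg (7) (8) (8) (3) (4) (4) (7) (8) (4) (l := kmmL) (by decide +kernel) (by norm_num)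
            (by push_cast; linarith) (by push_cast; linarith) (by push_cast; linarith) (by push_cast; linarith) (by push_cast; linarith) (by push_cast; linarith)

theorem kmmL_part11 {x y z : ℝ} (x0 : -1 ≤ x) (x1 : x ≤ 1) (y0 : -1 ≤ y) (y1 : y ≤ 1) (z0 : 2 ≤ z) :
    0 ≤ Coef.val kmmL [x, y, z] := by
  rcases le_total z (3 : ℝ) with h | h
  ·
    rcases le_total x (0 : ℝ) with h | h
    ·
      exact box_seg (-1) (0) (1) (-1) (1) (1) (2) (3) (1) (l := kmmL) (by decide +kernel) (by norm_num)
        (by push_cast; linarith) (by push_cast; linarith) (by push_cast; linarith) (by push_cast; linarith) (by push_cast; linarith) (by push_cast; linarith)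
    ·
      rcases le_total y (0 : ℝ) with h | h
      ·
        exact box_seg (0) (1) (1) (-1) (0) (1) (2) (3) (1) (l := kmmL) (by decide +kernel) (by norm_num)
          (by push_cast; linarith) (by push_cast; linarith) (by push_cast; linarith) (by push_cast; linarith) (by push_cast; linarith) (by push_cast; linarith)
      ·
        rcases le_total x (1 / 2 : ℝ) with h | h
        ·
          exact box_seg (0) (1) (2) (0) (1) (1) (2) (3) (1) (l := kmmL) (by decide +kernel) (by norm_num)
            (by push_cast; linarith) (by push_cast; linarith) (by push_cast; linarith) (by push_cast; linarith) (by push_cast; linarith) (by push_cast; linarith)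
        ·
          exact box_seg (1) (2) (2) (0) (1) (1) (2) (3) (1) (l := kmmL) (by decide +kernel) (by norm_num)
            (by push_cast; linarith) (by push_cast; linarith) (by push_cast; linarith) (by push_cast; linarith) (by push_cast; linarith) (by push_cast; linarith)
  ·
    exact box_tail (-1) (1) (1) (-1) (1) (1) (3) (l := kmmL) (by decide +kernel) (by norm_num)
      (by push_cast; linarith) (by push_cast; linarith) (by push_cast; linarith) (by push_cast; linarith) (by push_cast; linarith)

theorem kmmL_nonneg {x y z : ℝ} (x0 : -1 ≤ x) (x1 : x ≤ 1) (y0 : -1 ≤ y) (y1 : y ≤ 1) (z0 : 0 ≤ z) :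
    0 ≤ Coef.val kmmL [x, y, z] := by
  rcases le_total z (1 : ℝ) with h | h
  ·
    rcases le_total x (0 : ℝ) with h | h
    ·
      exact kmmL_part0 (by linarith) (by linarith) (by linarith) (by linarith) (by linarith) (by linarith)
    ·
      rcases le_total y (0 : ℝ) with h | h
      ·
        exact kmmL_part1 (by linarith) (by linarith) (by linarith) (by linarith) (by linarith) (by linarith)
      ·
        exact kmmL_part2 (by linarith) (by linarith) (by linarith) (by linarith) (by linarith) (by linarith)
  ·
    rcases le_total z (2 : ℝ) with h | h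
    ·
      rcases le_total x (0 : ℝ) with h | h
      ·
        rcases le_total y (0 : ℝ) with h | h
        ·
          exact kmmL_part3 (by linarith) (by linarith) (by linarith) (by linarith) (by linarith) (by linarith)
        ·
          rcases le_total x (-1 / 2 : ℝ) with h | h
          ·
            exact kmmL_part4 (by linarith) (by linarith) (by linarith) (by linarith) (by linarith) (by linarith)
          ·
            exact kmmL_part5 (by linarith) (by linarith) (by linarith) (by linarith) (by linarith) (by linarith)
      ·
        rcases le_total y (0 : ℝ) with h | h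
        ·
          exact kmmL_part6 (by linarith) (by linarith) (by linarith) (by linarith) (by linarith) (by linarith)
        ·
          rcases le_total x (1 / 2 : ℝ) with h | h
          ·
            exact kmmL_part7 (by linarith) (by linarith) (by linarith) (by linarith) (by linarith) (by linarith)
          ·
            rcases le_total y (1 / 2 : ℝ) with h | h
            ·
              exact kmmL_part8 (by linarith) (by linarith) (by linarith) (by linarith) (by linarith) (by linarith)
            ·
              rcases le_total z (3 / 2 : ℝ) with h | h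
              ·
                exact kmmL_part9 (by linarith) (by linarith) (by linarith) (by linarith) (by linarith) (by linarith)
              ·
                exact kmmL_part10 (by linarith) (by linarith) (by linarith) (by linarith) (by linarith) (by linarith)
    ·
      exact kmmL_part11 (by linarith) (by linarith) (by linarith) (by linarith) (by linarith)

end

end Vale.Agent.P219.Aff.Eleven
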